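import Vale.Agent.P050.Good

/-!
# P050 (Sidorenko): adding a constant, scaling, pullbacks
-/

open Finset

namespace Vale.Agent.P050

theorem good_edges {V : Type} [Fintype V] {μ : V → ℝ} {W : Sym2 V → ℝ}
    (h : SidGood μ W) {U : Type} [Fintype U] [DecidableEq U] {H : SimpleGraph U}
    [DecidableRel H.Adj] (hH : H.Colorable 2) {F : Finset (Sym2 U)} (hFH : F ⊆ H.edgeFinset) :
    edgeDens μ W ^ F.card ≤ ∑ φ : U → V, (∏ u, μ (φ u)) * ∏ e ∈ F, W (e.map φ) := by
  classical
  have hFe : (SimpleGraph.fromEdgeSet (F : Set (Sym2 U))).edgeSet = (F : Set (Sym2 U)) := by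
    rw [SimpleGraph.edgeSet_fromEdgeSet]
    ext e
    simp only [Set.mem_sdiff, mem_coe]
    constructor
    · exact fun h => h.1
    · intro he
      exact ⟨he, H.not_isDiag_of_mem_edgeSet (SimpleGraph.mem_edgeFinset.1 (hFH he))⟩
  have hle : SimpleGraph.fromEdgeSet (F : Set (Sym2 U)) ≤ H := by
    intro a b hab
    have h1 : s(a, b) ∈ (SimpleGraph.fromEdgeSet (F : Set (Sym2 U))).edgeSet := hab
    rw [hFe] at h1
    exact SimpleGraph.mem_edgeFinset.1 (hFH h1)
  have hFf : ∀ (inst : Fintype (SimpleGraph.fromEdgeSet (F : Set (Sym2 U))).edgeSet),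
      @SimpleGraph.edgeFinset _ (SimpleGraph.fromEdgeSet (F : Set (Sym2 U))) inst = F := by
    intro inst
    ext e
    rw [SimpleGraph.mem_edgeFinset, hFe, mem_coe]
  have h2 := h U (SimpleGraph.fromEdgeSet (F : Set (Sym2 U))) (hH.mono_left hle)
  rw [hFf] at h2
  unfold dens at h2
  rw [hFf] at h2
  exact h2

theorem good_add {V : Type} [Fintype V] {μ : V → ℝ} {W : Sym2 V → ℝ} (hμ1 : ∑ x, μ x = 1)
    (h : SidGood μ W) {c : ℝ} (hc : 0 ≤ c) : SidGood μ (fun z => W z + c) := by
  classical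
  intro U _ _ H _ hH
  have hE : edgeDens μ (fun z => W z + c) = edgeDens μ W + c := by
    unfold edgeDens
    have h1 : ∀ x y, μ x * μ y * (W s(x, y) + c) = μ x * μ y * W s(x, y) + μ x * (μ y * c) := by
      intro x y; ring
    rw [sum_congr rfl fun x _ => sum_congr rfl fun y _ => h1 x y]
    simp only [sum_add_distrib, ← mul_sum, ← sum_mul, hμ1, one_mul]
  have hD : dens μ (fun z => W z + c) H = ∑ F ∈ H.edgeFinset.powerset,
      c ^ (H.edgeFinset.card - F.card) * ∑ φ : U → V, (∏ u, μ (φ u)) * ∏ e ∈ F, W (e.map φ) := by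
    unfold dens
    have h1 : ∀ φ : U → V, (∏ u, μ (φ u)) * ∏ e ∈ H.edgeFinset, (W (e.map φ) + c) =
        ∑ F ∈ H.edgeFinset.powerset, c ^ (H.edgeFinset.card - F.card) *
          ((∏ u, μ (φ u)) * ∏ e ∈ F, W (e.map φ)) := by
      intro φ
      rw [Finset.prod_add, mul_sum]
      refine sum_congr rfl fun F hF => ?_
      rw [prod_const, card_sdiff_of_subset (mem_powerset.1 hF)]
      ring
    rw [sum_congr rfl fun φ _ => h1 φ, sum_comm]
    exact sum_congr rfl fun F _ => by rw [← mul_sum]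
  rw [hE, hD, ← Finset.sum_pow_mul_eq_add_pow]
  refine sum_le_sum fun F hF => ?_
  rw [mul_comm]
  refine mul_le_mul_of_nonneg_left ?_ (pow_nonneg hc _)
  exact good_edges h hH (mem_powerset.1 hF)

theorem good_smul {V : Type} [Fintype V] {μ : V → ℝ} {W : Sym2 V → ℝ}
    (h : SidGood μ W) {c : ℝ} (hc : 0 ≤ c) : SidGood μ (fun z => c * W z) := by
  intro U _ _ H _ hH
  have hE : edgeDens μ (fun z => c * W z) = c * edgeDens μ W := by
    unfold edgeDens
    rw [mul_sum]
    refine sum_congr rfl fun x _ => ?_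
    rw [mul_sum]
    exact sum_congr rfl fun y _ => by ring
  have hD : dens μ (fun z => c * W z) H = c ^ H.edgeFinset.card * dens μ W H := by
    unfold dens
    rw [mul_sum]
    refine sum_congr rfl fun φ _ => ?_
    rw [prod_mul_distrib, prod_const]
    ring
  rw [hE, hD, mul_pow]
  exact mul_le_mul_of_nonneg_left (h U H hH) (pow_nonneg hc _)

theorem edgeDens_pull {V V' : Type} [Fintype V] [Fintype V'] [DecidableEq V'] {μ : V → ℝ}
    {μ' : V' → ℝ} {W : Sym2 V' → ℝ} (f : V → V')
    (hf : ∀ y, ∑ x, (if f x = y then μ x else 0) = μ' y) :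
    edgeDens μ (fun z => W (z.map f)) = edgeDens μ' W := by
  unfold edgeDens
  have h1 : ∀ G : V' → ℝ, ∑ x, μ x * G (f x) = ∑ y, μ' y * G y := by
    intro G
    simp only [← hf, sum_mul]
    rw [sum_comm]
    refine sum_congr rfl fun x _ => ?_
    simp only [ite_mul, zero_mul, sum_ite_eq, mem_univ, if_true]
  simp only [Sym2.map_mk]
  have h2 : ∀ x, ∑ y, μ x * μ y * W s(f x, f y) = μ x * ∑ y, μ' y * W s(f x, y) := by
    intro x
    rw [← h1 (fun y => W s(f x, y)), mul_sum]
    exact sum_congr rfl fun y _ => by ring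
  rw [sum_congr rfl fun x _ => h2 x, h1 (fun x => ∑ y, μ' y * W s(x, y))]
  refine sum_congr rfl fun x _ => ?_
  rw [mul_sum]
  exact sum_congr rfl fun y _ => by ring

theorem dens_pull {V V' : Type} [Fintype V] [Fintype V'] [DecidableEq V'] {μ : V → ℝ}
    {μ' : V' → ℝ} {W : Sym2 V' → ℝ} (f : V → V')
    (hf : ∀ y, ∑ x, (if f x = y then μ x else 0) = μ' y) {U : Type} [Fintype U] [DecidableEq U]
    (H : SimpleGraph U) [DecidableRel H.Adj] :
    dens μ (fun z => W (z.map f)) H = dens μ' W H := by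
  classical
  unfold dens
  have h1 : ∀ χ : U → V', ∏ u, μ' (χ u) =
      ∑ φ : U → V, if f ∘ φ = χ then ∏ u, μ (φ u) else 0 := by
    intro χ
    have h2 := Finset.prod_univ_sum (fun _ : U => (univ : Finset V)) (fun u x =>
      if f x = χ u then μ x else 0)
    rw [Fintype.piFinset_univ] at h2
    rw [prod_congr rfl fun u _ => (hf (χ u)).symm, h2]
    refine sum_congr rfl fun φ _ => ?_
    rw [Finset.prod_ite_zero]
    congr 1
    rw [eq_iff_iff, funext_iff]
    simp
  simp only [h1, sum_mul]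
  rw [sum_comm]
  refine sum_congr rfl fun φ _ => ?_
  simp only [ite_mul, zero_mul, sum_ite_eq, mem_univ, if_true]
  congr 1
  refine prod_congr rfl fun e _ => ?_
  rw [Sym2.map_map]

/-- Pullback along a measure preserving map. -/
theorem good_pull {V V' : Type} [Fintype V] [Fintype V'] [DecidableEq V'] {μ : V → ℝ}
    {μ' : V' → ℝ} {W : Sym2 V' → ℝ} (f : V → V')
    (hf : ∀ y, ∑ x, (if f x = y then μ x else 0) = μ' y) (h : SidGood μ' W) :
    SidGood μ (fun z => W (z.map f)) := by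
  intro U _ _ H _ hH
  rw [edgeDens_pull f hf, dens_pull f hf]
  exact h U H hH

end Vale.Agent.P050
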