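import Vale.Agent.P050.Gibbs

/-!
# P050 (Sidorenko): the inequality for totally positive kernels
-/

open Finset Real

namespace Vale.Agent.P050

variable {V : Type*} [Fintype V] [DecidableEq V] {n : ℕ}

theorem bip_pos {K : Fin (n + 1) → Fin (n + 1) → ℝ} (hK : ∀ i j, 0 < K i j) (tK : TP2 K)
    {α β : Fin (n + 1) → ℝ} (hα : ∀ i, 0 < α i) (hα1 : ∑ i, α i = 1) (hβ : ∀ i, 0 < β i)
    (hβ1 : ∑ i, β i = 1) (side : V → Prop) [DecidablePred side] (E : Finset (V × V))
    (hE : ∀ e ∈ E, side e.1 ∧ ¬ side e.2) :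
    (∑ i, ∑ j, α i * β j * K i j) ^ E.card ≤
      ∑ σ : V → Fin (n + 1), (∏ v, if side v then α (σ v) else β (σ v)) *
        ∏ e ∈ E, K (σ e.1) (σ e.2) := by
  classical
  set w : ℝ := ∑ i, ∑ j, α i * β j * K i j with hw
  have hab : ∀ i j, 0 < α i * β j * K i j := fun i j => mul_pos (mul_pos (hα i) (hβ j)) (hK i j)
  have hw0 : 0 < w := sum_pos (fun i _ => sum_pos (fun j _ => hab i j) univ_nonempty) univ_nonempty
  set πA : Fin (n + 1) → ℝ := fun i => (∑ j, α i * β j * K i j) / w with hπA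
  set πB : Fin (n + 1) → ℝ := fun j => (∑ i, α i * β j * K i j) / w with hπB
  have hA0 : ∀ i, 0 < πA i := fun i => div_pos (sum_pos (fun j _ => hab i j) univ_nonempty) hw0
  have hB0 : ∀ j, 0 < πB j := fun j => div_pos (sum_pos (fun i _ => hab i j) univ_nonempty) hw0
  have hA1 : ∑ i, πA i = 1 := by
    rw [hπA, ← sum_div, ← hw, div_self hw0.ne']
  have hB1 : ∑ i, πB i = 1 := by
    rw [hπB, ← sum_div, sum_comm, ← hw, div_self hw0.ne']
  set lA : Fin (n + 1) → ℝ := fun i => log (α i / πA i) with hlA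
  set lB : Fin (n + 1) → ℝ := fun i => log (β i / πB i) with hlB
  have elA : ∀ i, πA i * exp (lA i) = α i := fun i => by
    rw [hlA]
    simp only
    rw [exp_log (div_pos (hα i) (hA0 i)), mul_div_cancel₀ _ (hA0 i).ne']
  have elB : ∀ i, πB i * exp (lB i) = β i := fun i => by
    rw [hlB]
    simp only
    rw [exp_log (div_pos (hβ i) (hB0 i)), mul_div_cancel₀ _ (hB0 i).ne']
  set kA : ℝ := - ∑ i, πA i * lA i with hkA
  set kB : ℝ := - ∑ i, πB i * lB i with hkB
  have hkA0 : 0 ≤ kA := by
    have h := log_jensen univ πA (fun i => α i / πA i) (fun i _ => (hA0 i).le) hA1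
      (fun i _ => div_pos (hα i) (hA0 i))
    have h2 : ∑ i, πA i * (α i / πA i) = 1 := by
      rw [← hα1]
      exact sum_congr rfl fun i _ => mul_div_cancel₀ _ (hA0 i).ne'
    rw [h2, log_one] at h
    rw [hkA]
    linarith
  have hkB0 : 0 ≤ kB := by
    have h := log_jensen univ πB (fun i => β i / πB i) (fun i _ => (hB0 i).le) hB1
      (fun i _ => div_pos (hβ i) (hB0 i))
    have h2 : ∑ i, πB i * (β i / πB i) = 1 := by
      rw [← hβ1]
      exact sum_congr rfl fun i _ => mul_div_cancel₀ _ (hB0 i).ne'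
    rw [h2, log_one] at h
    rw [hkB]
    linarith
  -- the capacity of `K`
  have hcap : CapF πA πB K (log w + kA + kB) := by
    intro f g
    have h := log_jensen (univ : Finset (Fin (n + 1) × Fin (n + 1)))
      (fun z => α z.1 * β z.2 * K z.1 z.2 / w)
      (fun z => w * exp (f z.1 - lA z.1 + (g z.2 - lB z.2)))
      (fun z _ => (div_pos (hab _ _) hw0).le)
      (by rw [← sum_div, Fintype.sum_prod_type, ← hw, div_self hw0.ne'])
      (fun z _ => mul_pos hw0 (exp_pos _))
    have h2 : ∑ z : Fin (n + 1) × Fin (n + 1), α z.1 * β z.2 * K z.1 z.2 / w *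
        (w * exp (f z.1 - lA z.1 + (g z.2 - lB z.2))) =
        ∑ i, ∑ j, πA i * πB j * K i j * exp (f i + g j) := by
      rw [Fintype.sum_prod_type]
      refine sum_congr rfl fun i _ => sum_congr rfl fun j _ => ?_
      simp only
      rw [← elA i, ← elB j]
      have h3 : exp (f i + g j) = exp (lA i) * exp (lB j) *
          exp (f i - lA i + (g j - lB j)) := by
        rw [← exp_add, ← exp_add]
        congr 1
        ring
      rw [h3]
      field_simp
    have h4 : ∑ z : Fin (n + 1) × Fin (n + 1), α z.1 * β z.2 * K z.1 z.2 / w *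
        log (w * exp (f z.1 - lA z.1 + (g z.2 - lB z.2))) =
        log w + kA + kB + ∑ i, πA i * f i + ∑ j, πB j * g j := by
      have h5 : ∀ z : Fin (n + 1) × Fin (n + 1), α z.1 * β z.2 * K z.1 z.2 / w *
          log (w * exp (f z.1 - lA z.1 + (g z.2 - lB z.2))) =
          α z.1 * β z.2 * K z.1 z.2 / w * log w +
          α z.1 * β z.2 * K z.1 z.2 / w * (f z.1 - lA z.1) +
          α z.1 * β z.2 * K z.1 z.2 / w * (g z.2 - lB z.2) := by
        intro z
        rw [log_mul hw0.ne' (exp_pos _).ne', log_exp]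
        ring
      rw [sum_congr rfl fun z _ => h5 z, sum_add_distrib, sum_add_distrib]
      have h6 : ∑ z : Fin (n + 1) × Fin (n + 1), α z.1 * β z.2 * K z.1 z.2 / w * log w =
          log w := by
        rw [← sum_mul, ← sum_div, Fintype.sum_prod_type, ← hw, div_self hw0.ne', one_mul]
      have h7 : ∑ z : Fin (n + 1) × Fin (n + 1), α z.1 * β z.2 * K z.1 z.2 / w *
          (f z.1 - lA z.1) = ∑ i, πA i * f i + kA := by
        rw [Fintype.sum_prod_type, hkA, ← sub_eq_add_neg, ← sum_sub_distrib]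
        refine sum_congr rfl fun i _ => ?_
        simp only
        rw [← sum_mul, ← sum_div]
        simp only [hπA]
        ring
      have h8 : ∑ z : Fin (n + 1) × Fin (n + 1), α z.1 * β z.2 * K z.1 z.2 / w *
          (g z.2 - lB z.2) = ∑ j, πB j * g j + kB := by
        rw [Fintype.sum_prod_type, sum_comm, hkB, ← sub_eq_add_neg, ← sum_sub_distrib]
        refine sum_congr rfl fun i _ => ?_
        simp only
        rw [← sum_mul, ← sum_div]
        simp only [hπB]
        ring
      rw [h6, h7, h8]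
      ring
    rw [h2, h4] at h
    exact h
  set tch : V → Prop := fun v => ∃ e ∈ E, e.1 = v ∨ e.2 = v with htch
  set q : V → Fin (n + 1) → ℝ := fun v => if tch v then (if side v then πA else πB)
    else (if side v then α else β) with hq
  set h : V → Fin (n + 1) → ℝ := fun v => if tch v then (if side v then lA else lB)
    else (fun _ => 0) with hh
  have hq0 : ∀ v x, 0 < q v x := by
    intro v x
    simp only [hq]
    split_ifs
    · exact hA0 x
    · exact hB0 x
    · exact hα x
    · exact hβ x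
  have hq1 : ∀ v, ∑ x, q v x = 1 := by
    intro v
    simp only [hq]
    split_ifs
    · exact hA1
    · exact hB1
    · exact hα1
    · exact hβ1
  have hEc : ∀ e ∈ E, e.1 ≠ e.2 ∧ CapF (q e.1) (q e.2) K (log w + kA + kB) := by
    intro e he
    obtain ⟨s1, s2⟩ := hE e he
    refine ⟨fun h' => s2 (h' ▸ s1), ?_⟩
    have t1 : tch e.1 := ⟨e, he, Or.inl rfl⟩
    have t2 : tch e.2 := ⟨e, he, Or.inr rfl⟩
    have q1 : q e.1 = πA := by simp only [hq]; rw [if_pos t1, if_pos s1]
    have q2 : q e.2 = πB := by simp only [hq]; rw [if_pos t2, if_neg s2]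
    rw [q1, q2]
    exact hcap
  have hmain := main_pos hq0 hq1 hK tK E hEc h
  have hwt : ∀ σ, wt q h K E σ = (∏ v, if side v then α (σ v) else β (σ v)) *
      ∏ e ∈ E, K (σ e.1) (σ e.2) := by
    intro σ
    unfold wt
    congr 1
    refine prod_congr rfl fun v _ => ?_
    simp only [hq, hh]
    split_ifs
    · exact elA _
    · exact elB _
    · rw [exp_zero, mul_one]
    · rw [exp_zero, mul_one]
  have hS : ∀ v, - ∑ x, q v x * h v x ≤
      ∑ e ∈ E, ((if e.1 = v then kA else 0) + (if e.2 = v then kB else 0)) := by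
    intro v
    have hnn : ∀ e ∈ E, 0 ≤ ((if e.1 = v then kA else 0) + (if e.2 = v then kB else 0)) := by
      intro e _
      refine add_nonneg ?_ ?_ <;> split_ifs <;> first | exact hkA0 | exact hkB0 | exact le_rfl
    by_cases ht : tch v
    · obtain ⟨e, he, hev⟩ := ht
      have ht : tch v := ⟨e, he, hev⟩
      obtain ⟨s1, s2⟩ := hE e he
      refine le_trans ?_ (single_le_sum hnn he)
      by_cases hs : side v
      · have q1 : q v = πA := by simp only [hq]; rw [if_pos ht, if_pos hs]
        have q2 : h v = lA := by simp only [hh]; rw [if_pos ht, if_pos hs]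
        have hev1 : e.1 = v := by
          rcases hev with h' | h'
          · exact h'
          · exact absurd (h' ▸ hs) s2
        rw [q1, q2, ← hkA, if_pos hev1]
        split_ifs
        · linarith
        · linarith
      · have q1 : q v = πB := by simp only [hq]; rw [if_pos ht, if_neg hs]
        have q2 : h v = lB := by simp only [hh]; rw [if_pos ht, if_neg hs]
        have hev2 : e.2 = v := by
          rcases hev with h' | h'
          · exact absurd (h' ▸ s1) hs
          · exact h'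
        rw [q1, q2, ← hkB, if_pos hev2]
        split_ifs
        · linarith
        · linarith
    · have q2 : h v = fun _ => 0 := by simp only [hh]; rw [if_neg ht]
      rw [q2]
      simp only [mul_zero, sum_const_zero, neg_zero]
      exact sum_nonneg hnn
  have hSS : - ∑ v, ∑ x, q v x * h v x ≤ (E.card : ℝ) * (kA + kB) := by
    rw [← sum_neg_distrib]
    refine (sum_le_sum fun v _ => hS v).trans (le_of_eq ?_)
    rw [sum_comm]
    have : ∀ e ∈ E, ∑ v, ((if e.1 = v then kA else 0) + (if e.2 = v then kB else 0)) =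
        kA + kB := by
      intro e _
      rw [sum_add_distrib, sum_ite_eq, sum_ite_eq, if_pos (mem_univ _), if_pos (mem_univ _)]
    rw [sum_congr rfl this, sum_const, nsmul_eq_mul]
  have hlog : (E.card : ℝ) * log w ≤ log (∑ σ, wt q h K E σ) := by linarith
  have hZ : 0 < ∑ σ, wt q h K E σ := sum_pos (fun σ _ => wt_pos hq0 hK σ) univ_nonempty
  rw [← log_pow, log_le_log_iff (pow_pos hw0 _) hZ] at hlog
  rw [sum_congr rfl fun σ _ => hwt σ] at hlog
  exact hlog

/-! ### Zeros -/

/-- The distance in `Fin`. -/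
def dd (i j : Fin (n + 1)) : ℕ := ((i : ℕ) - j) + ((j : ℕ) - i)

theorem tp_mul {A B : Fin (n + 1) → Fin (n + 1) → ℝ} (hA : TP2 A) (hB : TP2 B) :
    TP2 (fun i j => ∑ z, A i z * B z j) := by
  intro i i' j j' hi hj
  simp only
  have e1 : (∑ z, A i z * B z j) * (∑ z, A i' z * B z j') =
      ∑ z, ∑ w, (A i z * B z j) * (A i' w * B w j') := sum_mul_sum _ _ _ _
  have e1' : (∑ z, A i z * B z j) * (∑ z, A i' z * B z j') =
      ∑ z, ∑ w, (A i w * B w j) * (A i' z * B z j') := by rw [e1, sum_comm]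
  have e2 : (∑ z, A i z * B z j') * (∑ z, A i' z * B z j) =
      ∑ z, ∑ w, (A i z * B z j') * (A i' w * B w j) := sum_mul_sum _ _ _ _
  have e2' : (∑ z, A i z * B z j') * (∑ z, A i' z * B z j) =
      ∑ z, ∑ w, (A i w * B w j') * (A i' z * B z j) := by rw [e2, sum_comm]
  have h0 : 0 ≤ ∑ z, ∑ w, (A i z * A i' w - A i w * A i' z) *
      (B z j * B w j' - B z j' * B w j) := by
    refine sum_nonneg fun z _ => sum_nonneg fun w _ => ?_
    rcases le_total z w with h | h
    · exact mul_nonneg (by linarith [hA i i' z w hi h]) (by linarith [hB z w j j' h hj])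
    · refine mul_nonneg_of_nonpos_of_nonpos (by linarith [hA i i' w z hi h]) ?_
      linarith [hB w z j j' h hj]
  have h1 : ∑ z, ∑ w, (A i z * A i' w - A i w * A i' z) *
      (B z j * B w j' - B z j' * B w j) =
      ∑ z, ∑ w, (A i z * B z j) * (A i' w * B w j') +
      ∑ z, ∑ w, (A i w * B w j) * (A i' z * B z j') -
      ∑ z, ∑ w, (A i z * B z j') * (A i' w * B w j) -
      ∑ z, ∑ w, (A i w * B w j') * (A i' z * B z j) := by
    rw [← sum_add_distrib, ← sum_sub_distrib, ← sum_sub_distrib]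
    refine sum_congr rfl fun z _ => ?_
    rw [← sum_add_distrib, ← sum_sub_distrib, ← sum_sub_distrib]
    exact sum_congr rfl fun w _ => by ring
  rw [h1, ← e1, ← e1', ← e2, ← e2'] at h0
  linarith

theorem tp_dd {ε : ℝ} (h0 : 0 ≤ ε) (h1 : ε ≤ 1) :
    TP2 (fun i j : Fin (n + 1) => ε ^ dd i j) := by
  intro i i' j j' hi hj
  simp only
  rw [← pow_add, ← pow_add]
  refine pow_le_pow_of_le_one h0 h1 ?_
  have hi' : (i : ℕ) ≤ i' := hi
  have hj' : (j : ℕ) ≤ j' := hj
  unfold dd
  omega

/-- The smoothed kernel. -/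
noncomputable def sm (K : Fin (n + 1) → Fin (n + 1) → ℝ) (ε : ℝ) (i j : Fin (n + 1)) : ℝ :=
  ∑ z, (∑ w, ε ^ dd i w * K w z) * ε ^ dd z j

theorem sm_tp {K : Fin (n + 1) → Fin (n + 1) → ℝ} (tK : TP2 K) {ε : ℝ} (h0 : 0 ≤ ε)
    (h1 : ε ≤ 1) : TP2 (sm K ε) :=
  tp_mul (tp_mul (tp_dd h0 h1) tK) (tp_dd h0 h1)

theorem sm_pos {K : Fin (n + 1) → Fin (n + 1) → ℝ} (hK : ∀ i j, 0 ≤ K i j) {a b : Fin (n + 1)}
    (hab : 0 < K a b) {ε : ℝ} (h0 : 0 < ε) (i j : Fin (n + 1)) : 0 < sm K ε i j := by
  unfold sm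
  refine sum_pos' (fun z _ => ?_) ⟨b, mem_univ _, ?_⟩
  · exact mul_nonneg (sum_nonneg fun w _ => mul_nonneg (pow_pos h0 _).le (hK _ _))
      (pow_pos h0 _).le
  · exact mul_pos (sum_pos' (fun w _ => mul_nonneg (pow_pos h0 _).le (hK _ _))
      ⟨a, mem_univ _, mul_pos (pow_pos h0 _) hab⟩) (pow_pos h0 _)

theorem dd_self (i : Fin (n + 1)) : dd i i = 0 := by
  unfold dd
  omega

theorem dd_ne {i j : Fin (n + 1)} (h : i ≠ j) : dd i j ≠ 0 := by
  intro h'
  apply h
  apply Fin.ext
  unfold dd at h'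
  omega

theorem sm_zero (K : Fin (n + 1) → Fin (n + 1) → ℝ) (i j : Fin (n + 1)) :
    sm K 0 i j = K i j := by
  unfold sm
  rw [sum_eq_single j, sum_eq_single i]
  · rw [dd_self, dd_self, pow_zero, one_mul, mul_one]
  · intro w _ hw
    rw [zero_pow (dd_ne hw.symm), zero_mul]
  · intro h
    exact absurd (mem_univ _) h
  · intro z _ hz
    rw [zero_pow (dd_ne hz), mul_zero]
  · intro h
    exact absurd (mem_univ _) h

theorem sm_cont (K : Fin (n + 1) → Fin (n + 1) → ℝ) (i j : Fin (n + 1)) :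
    Continuous (fun ε => sm K ε i j) := by
  unfold sm
  fun_prop

theorem bip_nonneg {K : Fin (n + 1) → Fin (n + 1) → ℝ} (hK : ∀ i j, 0 ≤ K i j) (tK : TP2 K)
    {α β : Fin (n + 1) → ℝ} (hα : ∀ i, 0 < α i) (hα1 : ∑ i, α i = 1) (hβ : ∀ i, 0 < β i)
    (hβ1 : ∑ i, β i = 1) (side : V → Prop) [DecidablePred side] (E : Finset (V × V))
    (hE : ∀ e ∈ E, side e.1 ∧ ¬ side e.2) :
    (∑ i, ∑ j, α i * β j * K i j) ^ E.card ≤
      ∑ σ : V → Fin (n + 1), (∏ v, if side v then α (σ v) else β (σ v)) *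
        ∏ e ∈ E, K (σ e.1) (σ e.2) := by
  by_cases h : ∃ a b, 0 < K a b
  · obtain ⟨a, b, hab⟩ := h
    set F : ℝ → ℝ := fun ε => ∑ σ : V → Fin (n + 1),
      (∏ v, if side v then α (σ v) else β (σ v)) * ∏ e ∈ E, sm K ε (σ e.1) (σ e.2) -
      (∑ i, ∑ j, α i * β j * sm K ε i j) ^ E.card with hF
    have hc : Continuous F := by
      rw [hF]
      refine Continuous.sub ?_ ?_
      · refine continuous_finsetSum _ fun σ _ => Continuous.mul continuous_const ?_
        exact continuous_finsetProd _ fun e _ => sm_cont K _ _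
      · refine Continuous.pow ?_ _
        refine continuous_finsetSum _ fun i _ => continuous_finsetSum _ fun j _ => ?_
        exact Continuous.mul continuous_const (sm_cont K _ _)
    have hpos : ∀ ε : ℝ, 0 < ε → ε ≤ 1 → 0 ≤ F ε := by
      intro ε h0 h1
      have := bip_pos (sm_pos hK hab h0) (sm_tp tK h0.le h1) hα hα1 hβ hβ1 side E hE
      simp only [hF]
      linarith
    have h0 : 0 ≤ F 0 := by
      have ht : Filter.Tendsto F (nhdsWithin 0 (Set.Ioi 0)) (nhds (F 0)) :=
        hc.continuousAt.tendsto.mono_left nhdsWithin_le_nhds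
      refine ge_of_tendsto ht ?_
      filter_upwards [Ioc_mem_nhdsGT (show (0 : ℝ) < 1 by norm_num)] with ε hε
      exact hpos ε hε.1 hε.2
    simp only [hF, sm_zero] at h0
    linarith
  · push Not at h
    have hz : ∀ i j, K i j = 0 := fun i j => le_antisymm (h i j) (hK i j)
    by_cases hEe : E = ∅
    · subst hEe
      have := bip_pos (K := fun _ _ => (1 : ℝ)) (fun _ _ => one_pos)
        (fun _ _ _ _ _ _ => le_rfl) hα hα1 hβ hβ1 side ∅ hE
      simpa only [card_empty, pow_zero, prod_empty] using this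
    · have hE0 : E.card ≠ 0 := fun h' => hEe (card_eq_zero.1 h')
      have h1 : ∑ i, ∑ j, α i * β j * K i j = 0 :=
        sum_eq_zero fun i _ => sum_eq_zero fun j _ => by rw [hz, mul_zero]
      rw [h1, zero_pow hE0]
      refine sum_nonneg fun σ _ => mul_nonneg (prod_nonneg fun v _ => ?_)
        (prod_nonneg fun e _ => hK _ _)
      split_ifs
      · exact (hα _).le
      · exact (hβ _).le

end Vale.Agent.P050
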