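import Mathlib

/-!
# P050 (Sidorenko): capacities of totally positive matrices

`CapF x y M c` says that the logarithmic capacity of `M` with respect to the marginals `x`, `y` is
at least `c`; the main result `capF_mul` is supermultiplicativity under the entrywise product for
matrices that are totally positive of order two.
-/

open Finset Real

namespace Vale.Agent.P050

/-- Total positivity of order two. -/
def TP2 {X Y : Type*} [LE X] [LE Y] (M : X → Y → ℝ) : Prop :=
  ∀ x x' y y', x ≤ x' → y ≤ y' → M x y' * M x' y ≤ M x y * M x' y'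

/-- Reduced capacity bound. -/
def CapR {ι κ : Type*} [Fintype ι] [Fintype κ] (x : ι → ℝ) (y : κ → ℝ) (M : ι → κ → ℝ)
    (c : ℝ) : Prop :=
  ∀ g : κ → ℝ, c + ∑ j, y j * g j ≤ ∑ i, x i * log (∑ j, y j * M i j * exp (g j))

/-- Capacity bound. -/
def CapF {ι κ : Type*} [Fintype ι] [Fintype κ] (x : ι → ℝ) (y : κ → ℝ) (M : ι → κ → ℝ)
    (c : ℝ) : Prop :=
  ∀ (f : ι → ℝ) (g : κ → ℝ), c + ∑ i, x i * f i + ∑ j, y j * g j ≤
    log (∑ i, ∑ j, x i * y j * M i j * exp (f i + g j))

theorem log_jensen {ι : Type*} (s : Finset ι) (w p : ι → ℝ) (hw : ∀ i ∈ s, 0 ≤ w i)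
    (h1 : ∑ i ∈ s, w i = 1) (hp : ∀ i ∈ s, 0 < p i) :
    ∑ i ∈ s, w i * log (p i) ≤ log (∑ i ∈ s, w i * p i) := by
  have := (strictConcaveOn_log_Ioi.concaveOn).le_map_sum hw h1 (p := p) (fun i hi => hp i hi)
  simpa [smul_eq_mul] using this

section

variable {ι κ : Type*} [Fintype ι] [Fintype κ] {x : ι → ℝ} {y : κ → ℝ} {M : ι → κ → ℝ} {c : ℝ}

omit [Fintype ι] in
theorem row_pos [Nonempty κ] (hy : ∀ j, 0 < y j) (hM : ∀ i j, 0 < M i j) (g : κ → ℝ) (i : ι) :
    0 < ∑ j, y j * M i j * exp (g j) :=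
  sum_pos (fun j _ => mul_pos (mul_pos (hy j) (hM i j)) (exp_pos _)) univ_nonempty

theorem capF_of_capR [Nonempty κ] (hx : ∀ i, 0 < x i) (hx1 : ∑ i, x i = 1) (hy : ∀ j, 0 < y j)
    (hM : ∀ i j, 0 < M i j) (h : CapR x y M c) : CapF x y M c := by
  intro f g
  have h1 := log_jensen univ x (fun i => exp (f i) * ∑ j, y j * M i j * exp (g j))
    (fun i _ => (hx i).le) hx1 (fun i _ => mul_pos (exp_pos _) (row_pos hy hM g i))
  have h2 : ∑ i, x i * (exp (f i) * ∑ j, y j * M i j * exp (g j)) =
      ∑ i, ∑ j, x i * y j * M i j * exp (f i + g j) := by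
    refine sum_congr rfl fun i _ => ?_
    rw [mul_sum, mul_sum]
    refine sum_congr rfl fun j _ => ?_
    rw [exp_add]
    ring
  have h3 : ∑ i, x i * log (exp (f i) * ∑ j, y j * M i j * exp (g j)) =
      ∑ i, x i * f i + ∑ i, x i * log (∑ j, y j * M i j * exp (g j)) := by
    rw [← sum_add_distrib]
    refine sum_congr rfl fun i _ => ?_
    rw [log_mul (exp_pos _).ne' (row_pos hy hM g i).ne', log_exp]
    ring
  rw [h2, h3] at h1
  have h4 := h g
  linarith

theorem capR_of_capF [Nonempty κ] (hx1 : ∑ i, x i = 1) (hy : ∀ j, 0 < y j)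
    (hM : ∀ i j, 0 < M i j) (h : CapF x y M c) : CapR x y M c := by
  intro g
  have h1 := h (fun i => - log (∑ j, y j * M i j * exp (g j))) g
  have h2 : ∑ i, ∑ j, x i * y j * M i j *
      exp (- log (∑ j, y j * M i j * exp (g j)) + g j) = 1 := by
    rw [← hx1]
    refine sum_congr rfl fun i _ => ?_
    have hp := row_pos hy hM g i
    have h3 : ∀ j, x i * y j * M i j * exp (- log (∑ j, y j * M i j * exp (g j)) + g j) =
        x i * (∑ j, y j * M i j * exp (g j))⁻¹ * (y j * M i j * exp (g j)) := by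
      intro j
      rw [exp_add, exp_neg, exp_log hp]
      ring
    rw [sum_congr rfl fun j _ => h3 j, ← mul_sum, mul_assoc, inv_mul_cancel₀ hp.ne', mul_one]
  rw [h2, log_one] at h1
  have h4 : ∑ i, x i * (- log (∑ j, y j * M i j * exp (g j))) =
      - ∑ i, x i * log (∑ j, y j * M i j * exp (g j)) := by
    rw [← sum_neg_distrib]
    exact sum_congr rfl fun i _ => by ring
  rw [h4] at h1
  linarith

end

/-- The splitting lemma for two columns. -/
theorem split {ι : Type*} [Fintype ι] [LinearOrder ι] [Nonempty ι] (p q r s : ι → ℝ)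
    (hp : ∀ i, 0 < p i) (hq : ∀ i, 0 < q i) (hr : ∀ i, 0 < r i) (hs : ∀ i, 0 < s i)
    (hpq : ∀ i i', i ≤ i' → q i * p i' ≤ p i * q i')
    (hrs : ∀ i i', i ≤ i' → s i * r i' ≤ r i * s i') :
    ∃ t : ℝ, 0 < t ∧ ∀ i, 0 ≤ (p i - t * q i) * (t * r i - s i) := by
  obtain ⟨k, -, hk⟩ := exists_max_image (univ : Finset ι)
    (fun i => min (s i / r i) (p i / q i)) univ_nonempty
  have hn_mono : ∀ i i', i ≤ i' → s i / r i ≤ s i' / r i' := fun i i' h => by
    rw [div_le_div_iff₀ (hr i) (hr i')]
    linarith [hrs i i' h]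
  have hd_anti : ∀ i i', i ≤ i' → p i' / q i' ≤ p i / q i := fun i i' h => by
    rw [div_le_div_iff₀ (hq i') (hq i)]
    linarith [hpq i i' h]
  refine ⟨min (s k / r k) (p k / q k), lt_min (div_pos (hs k) (hr k)) (div_pos (hp k) (hq k)),
    fun i => ?_⟩
  have h3 := hk i (mem_univ _)
  set t := min (s k / r k) (p k / q k) with ht
  have h1 : t ≤ s k / r k := min_le_left _ _
  have h2 : t ≤ p k / q k := min_le_right _ _
  have key : 0 ≤ (p i / q i - t) * (t - s i / r i) := by
    rcases le_total i k with h | h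
    · have h4 : t ≤ p i / q i := h2.trans (hd_anti _ _ h)
      rcases min_le_iff.1 h3 with h5 | h5
      · exact mul_nonneg (by linarith) (by linarith)
      · have : p i / q i - t = 0 := by linarith
        rw [this, zero_mul]
    · have h4 : t ≤ s i / r i := h1.trans (hn_mono _ _ h)
      rcases min_le_iff.1 h3 with h5 | h5
      · have : t - s i / r i = 0 := by linarith
        rw [this, mul_zero]
      · exact mul_nonneg_of_nonpos_of_nonpos (by linarith) (by linarith)
  have hq' := (hq i).ne'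
  have hr' := (hr i).ne'
  have : (p i - t * q i) * (t * r i - s i) =
      (q i * r i) * ((p i / q i - t) * (t - s i / r i)) := by
    field_simp
  rw [this]
  exact mul_nonneg (mul_pos (hq i) (hr i)).le key

/-- Merge the last two columns. -/
def mg {m : ℕ} (c1 c2 : ℝ) (f : Fin (m + 2) → ℝ) : Fin (m + 1) → ℝ :=
  Fin.snoc (fun j : Fin m => f j.castSucc.castSucc)
    (c1 * f (Fin.last m).castSucc + c2 * f (Fin.last (m + 1)))

theorem mg_castSucc {m : ℕ} (c1 c2 : ℝ) (f : Fin (m + 2) → ℝ) (j : Fin m) :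
    mg c1 c2 f j.castSucc = f j.castSucc.castSucc := by
  unfold mg
  exact Fin.snoc_castSucc (α := fun _ => ℝ) _ _ j

theorem mg_last {m : ℕ} (c1 c2 : ℝ) (f : Fin (m + 2) → ℝ) :
    mg c1 c2 f (Fin.last m) = c1 * f (Fin.last m).castSucc + c2 * f (Fin.last (m + 1)) := by
  unfold mg
  exact Fin.snoc_last (α := fun _ => ℝ) _ _

theorem mg_pos {m : ℕ} {c1 c2 : ℝ} (h1 : 0 < c1) (h2 : 0 < c2) {f : Fin (m + 2) → ℝ}
    (hf : ∀ j, 0 < f j) (j : Fin (m + 1)) : 0 < mg c1 c2 f j := by
  induction j using Fin.lastCases with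
  | last =>
    rw [mg_last]
    exact add_pos (mul_pos h1 (hf _)) (mul_pos h2 (hf _))
  | cast j =>
    rw [mg_castSucc]
    exact hf _

theorem mg_tp {ι : Type*} [LE ι] {m : ℕ} {c1 c2 : ℝ} (h1 : 0 < c1) (h2 : 0 < c2)
    {M : ι → Fin (m + 2) → ℝ} (hM : TP2 M) : TP2 (fun i => mg c1 c2 (M i)) := by
  intro i i' j j' hi hj
  induction j using Fin.lastCases with
  | last =>
    have : j' = Fin.last m := le_antisymm (Fin.le_last _) hj
    subst this
    exact le_rfl
  | cast j =>
    induction j' using Fin.lastCases with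
    | last =>
      simp only [mg_last, mg_castSucc]
      have a1 := hM i i' j.castSucc.castSucc (Fin.last m).castSucc hi
        (Fin.castSucc_le_castSucc_iff.2 (Fin.le_last _))
      have a2 := hM i i' j.castSucc.castSucc (Fin.last (m + 1)) hi (Fin.le_last _)
      nlinarith [mul_le_mul_of_nonneg_left a1 h1.le, mul_le_mul_of_nonneg_left a2 h2.le]
    | cast j' =>
      simp only [mg_castSucc]
      exact hM i i' _ _ hi (Fin.castSucc_le_castSucc_iff.2 hj)

theorem capR_mul {ι : Type*} [Fintype ι] [LinearOrder ι] [Nonempty ι] {x : ι → ℝ}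
    (hx : ∀ i, 0 ≤ x i) (hx1 : ∑ i, x i = 1) (m : ℕ) :
    ∀ (y : Fin (m + 1) → ℝ) (M N : ι → Fin (m + 1) → ℝ) (a b : ℝ),
      (∀ j, 0 < y j) → ∑ j, y j = 1 → (∀ i j, 0 < M i j) → (∀ i j, 0 < N i j) →
      TP2 M → TP2 N → CapR x y M a → CapR x y N b →
      CapR x y (fun i j => M i j * N i j) (a + b) := by
  induction m with
  | zero =>
    intro y M N a b hy hy1 hM hN _ _ ha hb g
    have hy0 : y 0 = 1 := by simpa using hy1
    have hS : ∀ (P : ι → Fin 1 → ℝ), (∀ i j, 0 < P i j) → ∀ g : Fin 1 → ℝ,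
        ∑ i, x i * log (∑ j, y j * P i j * exp (g j)) = ∑ i, x i * log (P i 0) + g 0 := by
      intro P hP g
      have : ∑ i, x i * log (P i 0) + g 0 = ∑ i, x i * (log (P i 0) + g 0) := by
        simp only [mul_add, sum_add_distrib]
        rw [← sum_mul, hx1, one_mul]
      rw [this]
      refine sum_congr rfl fun i _ => ?_
      rw [Fin.sum_univ_one, hy0, one_mul, log_mul (hP i 0).ne' (exp_pos _).ne', log_exp]
    have h1 := ha (fun _ => 0)
    have h2 := hb (fun _ => 0)
    rw [hS M hM] at h1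
    rw [hS N hN] at h2
    rw [hS (fun i j => M i j * N i j) (fun i j => mul_pos (hM i j) (hN i j))]
    simp only [mul_zero, sum_const_zero, add_zero] at h1 h2
    have h3 : ∑ i, x i * log (M i 0 * N i 0) = ∑ i, x i * log (M i 0) + ∑ i, x i * log (N i 0) := by
      rw [← sum_add_distrib]
      refine sum_congr rfl fun i _ => ?_
      rw [log_mul (hM i 0).ne' (hN i 0).ne']
      ring
    rw [h3, Fin.sum_univ_one, hy0]
    linarith
  | succ m ih =>
    intro y M N a b hy hy1 hM hN tM tN ha hb g
    set j1 : Fin (m + 2) := (Fin.last m).castSucc with hj1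
    set j2 : Fin (m + 2) := Fin.last (m + 1) with hj2
    have hj12 : j1 ≤ j2 := Fin.le_last _
    have e1 := exp_pos (g j1)
    have e2 := exp_pos (g j2)
    obtain ⟨t, ht, hsp⟩ := split (fun i => M i j1) (fun i => M i j2)
      (fun i => N i j1 * exp (g j1)) (fun i => N i j2 * exp (g j2))
      (fun i => hM i j1) (fun i => hM i j2) (fun i => mul_pos (hN i j1) e1)
      (fun i => mul_pos (hN i j2) e2) (fun i i' h => tM i i' j1 j2 h hj12)
      (fun i i' h => by
        have := mul_le_mul_of_nonneg_left (tN i i' j1 j2 h hj12) (mul_pos e1 e2).le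
        nlinarith)
    set Y : ℝ := y j1 + y j2 with hY
    have hY0 : 0 < Y := add_pos (hy _) (hy _)
    have sumsplit : ∀ F : Fin (m + 2) → ℝ, ∑ j, F j =
        ∑ j : Fin m, F j.castSucc.castSucc + (F j1 + F j2) := by
      intro F
      rw [Fin.sum_univ_castSucc, Fin.sum_univ_castSucc]
      ring
    have hy' : ∀ j, 0 < mg 1 1 y j := mg_pos one_pos one_pos hy
    have hy1' : ∑ j, mg 1 1 y j = 1 := by
      have h := sumsplit y
      rw [hy1] at h
      rw [Fin.sum_univ_castSucc]
      simp only [mg_castSucc, mg_last]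
      rw [← hj1, ← hj2]
      linarith
    have c1 : 0 < y j1 / Y := div_pos (hy _) hY0
    have c2 : 0 < y j2 * t / Y := div_pos (mul_pos (hy _) ht) hY0
    have d1 : 0 < y j1 * exp (g j1) / Y := div_pos (mul_pos (hy _) e1) hY0
    have d2 : 0 < y j2 * exp (g j2) / (t * Y) := div_pos (mul_pos (hy _) e2) (mul_pos ht hY0)
    -- capacity of the merged matrices
    have hM' : CapR x (mg 1 1 y) (fun i => mg (y j1 / Y) (y j2 * t / Y) (M i))
        (a + y j2 * log t) := by
      intro k
      have h := ha (fun j => if hj : (j : ℕ) < m + 1 then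
        k ⟨j, hj⟩ else k (Fin.last m) + log t)
      have g1 : ∀ j : Fin m, (if hj : ((j.castSucc.castSucc : Fin (m + 2)) : ℕ) < m + 1 then
          k ⟨(j.castSucc.castSucc : Fin (m + 2)), hj⟩ else k (Fin.last m) + log t) =
          k j.castSucc := by
        intro j
        have hj := j.2
        rw [dif_pos (by simp only [Fin.val_castSucc]; omega)]
        rfl
      have g2 : (if hj : ((j1 : Fin (m + 2)) : ℕ) < m + 1 then
          k ⟨(j1 : Fin (m + 2)), hj⟩ else k (Fin.last m) + log t) = k (Fin.last m) := by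
        rw [dif_pos (by simp [hj1])]
        rfl
      have g3 : (if hj : ((j2 : Fin (m + 2)) : ℕ) < m + 1 then
          k ⟨(j2 : Fin (m + 2)), hj⟩ else k (Fin.last m) + log t) = k (Fin.last m) + log t := by
        rw [dif_neg (by simp [hj2])]
      simp only [sumsplit, g1, g2, g3] at h
      rw [exp_add, exp_log ht] at h
      simp only [Fin.sum_univ_castSucc (n := m), mg_castSucc, mg_last]
      have h5 : ∀ i, (1 * y (Fin.last m).castSucc + 1 * y (Fin.last (m + 1))) *
          (y j1 / Y * M i (Fin.last m).castSucc + y j2 * t / Y * M i (Fin.last (m + 1))) *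
          exp (k (Fin.last m)) = y j1 * M i j1 * exp (k (Fin.last m)) +
          y j2 * M i j2 * (exp (k (Fin.last m)) * t) := by
        intro i
        rw [← hj1, ← hj2, one_mul, one_mul, ← hY]
        field_simp
      simp only [h5]
      rw [← hj1, ← hj2]
      linarith
    have hN' : CapR x (mg 1 1 y) (fun i => mg (y j1 * exp (g j1) / Y)
        (y j2 * exp (g j2) / (t * Y)) (N i))
        (b + y j1 * g j1 + y j2 * (g j2 - log t)) := by
      intro k
      have h := hb (fun j => if hj : (j : ℕ) < m then k ⟨j, by omega⟩ else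
        if (j : ℕ) = m then k (Fin.last m) + g j1 else k (Fin.last m) + (g j2 - log t))
      have g1 : ∀ j : Fin m, (if hj : ((j.castSucc.castSucc : Fin (m + 2)) : ℕ) < m then
          k ⟨(j.castSucc.castSucc : Fin (m + 2)), by omega⟩ else
          if ((j.castSucc.castSucc : Fin (m + 2)) : ℕ) = m then k (Fin.last m) + g j1
          else k (Fin.last m) + (g j2 - log t)) = k j.castSucc := by
        intro j
        rw [dif_pos (by simp)]
        rfl
      have g2 : (if hj : ((j1 : Fin (m + 2)) : ℕ) < m then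
          k ⟨(j1 : Fin (m + 2)), by omega⟩ else
          if ((j1 : Fin (m + 2)) : ℕ) = m then k (Fin.last m) + g j1
          else k (Fin.last m) + (g j2 - log t)) = k (Fin.last m) + g j1 := by
        rw [dif_neg (by simp [hj1]), if_pos (by simp [hj1])]
      have g3 : (if hj : ((j2 : Fin (m + 2)) : ℕ) < m then
          k ⟨(j2 : Fin (m + 2)), by omega⟩ else
          if ((j2 : Fin (m + 2)) : ℕ) = m then k (Fin.last m) + g j1
          else k (Fin.last m) + (g j2 - log t)) = k (Fin.last m) + (g j2 - log t) := by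
        rw [dif_neg (by simp [hj2]), if_neg (by simp [hj2])]
      simp only [sumsplit, g1, g2, g3] at h
      simp only [Fin.sum_univ_castSucc (n := m), mg_castSucc, mg_last]
      have h5 : ∀ i, (1 * y (Fin.last m).castSucc + 1 * y (Fin.last (m + 1))) *
          (y j1 * exp (g j1) / Y * N i (Fin.last m).castSucc +
            y j2 * exp (g j2) / (t * Y) * N i (Fin.last (m + 1))) *
          exp (k (Fin.last m)) = y j1 * N i j1 * exp (k (Fin.last m) + g j1) +
          y j2 * N i j2 * exp (k (Fin.last m) + (g j2 - log t)) := by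
        intro i
        rw [← hj1, ← hj2, one_mul, one_mul, ← hY, exp_add, exp_add, exp_sub, exp_log ht]
        field_simp
      simp only [h5]
      rw [← hj1, ← hj2]
      linarith
    have hc := ih (mg 1 1 y) (fun i => mg (y j1 / Y) (y j2 * t / Y) (M i))
      (fun i => mg (y j1 * exp (g j1) / Y) (y j2 * exp (g j2) / (t * Y)) (N i))
      (a + y j2 * log t) (b + y j1 * g j1 + y j2 * (g j2 - log t)) hy' hy1'
      (fun i => mg_pos c1 c2 (hM i)) (fun i => mg_pos d1 d2 (hN i)) (mg_tp c1 c2 tM)
      (mg_tp d1 d2 tN) hM' hN'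
      (fun j => if hj : (j : ℕ) < m then g ⟨j, by omega⟩ else 0)
    have g1 : ∀ j : Fin m, (if hj : ((j.castSucc : Fin (m + 1)) : ℕ) < m then
        g ⟨(j.castSucc : Fin (m + 1)), by omega⟩ else 0) = g j.castSucc.castSucc := by
      intro j
      rw [dif_pos (by simp)]
      rfl
    have g2 : (if hj : ((Fin.last m : Fin (m + 1)) : ℕ) < m then
        g ⟨(Fin.last m : Fin (m + 1)), by omega⟩ else 0) = 0 := by
      rw [dif_neg (by simp)]
    simp only [Fin.sum_univ_castSucc (n := m), mg_castSucc, mg_last, g1, g2, mul_zero,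
      add_zero, exp_zero, mul_one] at hc
    rw [sumsplit]
    have hfin : ∑ i, x i * log (∑ j : Fin m, y j.castSucc.castSucc *
        (M i j.castSucc.castSucc * N i j.castSucc.castSucc) * exp (g j.castSucc.castSucc) +
        (1 * y (Fin.last m).castSucc + 1 * y (Fin.last (m + 1))) *
        ((y j1 / Y * M i (Fin.last m).castSucc + y j2 * t / Y * M i (Fin.last (m + 1))) *
        (y j1 * exp (g j1) / Y * N i (Fin.last m).castSucc +
            y j2 * exp (g j2) / (t * Y) * N i (Fin.last (m + 1))))) ≤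
        ∑ i, x i * log (∑ j, y j * (M i j * N i j) * exp (g j)) := by
      refine sum_le_sum fun i _ => mul_le_mul_of_nonneg_left ?_ (hx i)
      have p1 := hM i j1
      have p2 := hM i j2
      have p3 := hN i j1
      have p4 := hN i j2
      refine log_le_log ?_ ?_
      · refine add_pos_of_nonneg_of_pos (sum_nonneg fun j _ => ?_) ?_
        · exact (mul_pos (mul_pos (hy _) (mul_pos (hM _ _) (hN _ _))) (exp_pos _)).le
        · rw [← hj1, ← hj2]
          have := hy j1
          have := hy j2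
          positivity
      · rw [sumsplit, ← hj1, ← hj2, one_mul, one_mul, ← hY]
        refine add_le_add le_rfl ?_
        have h6 := hsp i
        have q1 := hy j1
        have q2 := hy j2
        have h7 : (y j1 * (M i j1 * N i j1) * exp (g j1) + y j2 * (M i j2 * N i j2) * exp (g j2)) -
            Y * ((y j1 / Y * M i j1 + y j2 * t / Y * M i j2) *
            (y j1 * exp (g j1) / Y * N i j1 + y j2 * exp (g j2) / (t * Y) * N i j2)) =
            y j1 * y j2 / (t * Y) * ((M i j1 - t * M i j2) *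
            (t * (N i j1 * exp (g j1)) - N i j2 * exp (g j2))) := by
          rw [hY] at hY0 ⊢
          have := hY0.ne'
          field_simp
          ring
        have h8 : 0 ≤ y j1 * y j2 / (t * Y) * ((M i j1 - t * M i j2) *
            (t * (N i j1 * exp (g j1)) - N i j2 * exp (g j2))) :=
          mul_nonneg (by positivity) h6
        linarith
    refine le_trans ?_ hfin
    linarith

theorem capF_mul {m n : ℕ} {x : Fin (n + 1) → ℝ} {y : Fin (m + 1) → ℝ}
    {M N : Fin (n + 1) → Fin (m + 1) → ℝ} {a b : ℝ} (hx : ∀ i, 0 < x i) (hx1 : ∑ i, x i = 1)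
    (hy : ∀ j, 0 < y j) (hy1 : ∑ j, y j = 1) (hM : ∀ i j, 0 < M i j) (hN : ∀ i j, 0 < N i j)
    (tM : TP2 M) (tN : TP2 N) (ha : CapF x y M a) (hb : CapF x y N b) :
    CapF x y (fun i j => M i j * N i j) (a + b) :=
  capF_of_capR hx hx1 hy (fun i j => mul_pos (hM i j) (hN i j))
    (capR_mul (fun i => (hx i).le) hx1 m y M N a b hy hy1 hM hN tM tN
      (capR_of_capF hx1 hy hM ha) (capR_of_capF hx1 hy hN hb))

end Vale.Agent.P050
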