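import Vale.Agent.P050.Defs

/-!
# P050 (Sidorenko): positive definite Cayley kernels on finite abelian groups
-/

open Finset

namespace Vale.Agent.P050

namespace Cay

variable {B : Type*} [AddCommGroup B] [Fintype B]

/-- Nonnegative combinations of characters. -/
def PD (F : B → ℝ) : Prop :=
  ∃ (J : Type) (_ : Fintype J) (a : J → ℝ) (Ψ : J → AddChar B ℂ), (∀ j, 0 ≤ a j) ∧
    ∀ x, ((F x : ℝ) : ℂ) = ∑ j, (a j : ℂ) * Ψ j x

/-- The mean value. -/
noncomputable def mean (F : B → ℝ) : ℝ := (∑ x, F x) / Fintype.card B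

open Classical in
theorem mean_eq {F : B → ℝ} {J : Type} [Fintype J] {a : J → ℝ} {Ψ : J → AddChar B ℂ}
    (h : ∀ x, ((F x : ℝ) : ℂ) = ∑ j, (a j : ℂ) * Ψ j x) :
    mean F = ∑ j, a j * (if Ψ j = 0 then 1 else 0) := by
  have hB : (Fintype.card B : ℝ) ≠ 0 := by
    have : Nonempty B := ⟨0⟩
    exact_mod_cast Fintype.card_ne_zero
  unfold mean
  rw [div_eq_iff hB]
  have h1 : ((∑ x, F x : ℝ) : ℂ) = ((∑ j, a j * (if Ψ j = 0 then 1 else 0)) *
      (Fintype.card B : ℝ) : ℝ) := by
    push_cast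
    rw [sum_congr rfl fun x _ => h x, sum_comm, sum_mul]
    refine sum_congr rfl fun j _ => ?_
    rw [← mul_sum, AddChar.sum_eq_ite, mul_assoc]
    congr 1
    split_ifs <;> simp
  exact_mod_cast h1

theorem pd_mul {F G : B → ℝ} (hF : PD F) (hG : PD G) :
    PD (fun x => F x * G x) ∧ mean F * mean G ≤ mean (fun x => F x * G x) := by
  classical
  obtain ⟨J, _, a, Ψ, ha, hF⟩ := hF
  obtain ⟨J', _, b, Φ, hb, hG⟩ := hG
  have h : ∀ x, ((F x * G x : ℝ) : ℂ) =
      ∑ j : J × J', ((a j.1 * b j.2 : ℝ) : ℂ) * (Ψ j.1 + Φ j.2) x := by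
    intro x
    push_cast
    rw [hF, hG, sum_mul_sum, Fintype.sum_prod_type]
    refine sum_congr rfl fun j _ => sum_congr rfl fun k _ => ?_
    rw [Pi.mul_apply]
    ring
  refine ⟨⟨J × J', inferInstance, fun j => a j.1 * b j.2, fun j => Ψ j.1 + Φ j.2,
    fun j => mul_nonneg (ha _) (hb _), h⟩, ?_⟩
  rw [mean_eq hF, mean_eq hG, mean_eq h, sum_mul_sum, Fintype.sum_prod_type]
  refine sum_le_sum fun j _ => sum_le_sum fun k _ => ?_
  simp only
  have h0 := mul_nonneg (ha j) (hb k)
  by_cases h1 : Ψ j = 0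
  · by_cases h2 : Φ k = 0
    · rw [if_pos h1, if_pos h2, if_pos (by rw [h1, h2, add_zero])]
      linarith
    · rw [if_neg h2, mul_zero, mul_zero]
      split_ifs
      · linarith
      · linarith
  · rw [if_neg h1, mul_zero, zero_mul]
    split_ifs
    · linarith
    · linarith

omit [Fintype B] in
theorem pd_one : PD (fun _ : B => (1 : ℝ)) :=
  ⟨Unit, inferInstance, fun _ => 1, fun _ => 0, fun _ => zero_le_one, fun x => by simp⟩

theorem mean_one : mean (fun _ : B => (1 : ℝ)) = 1 := by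
  have hB : (Fintype.card B : ℝ) ≠ 0 := by
    have : Nonempty B := ⟨0⟩
    exact_mod_cast Fintype.card_ne_zero
  unfold mean
  rw [sum_const, card_univ, nsmul_eq_mul, mul_one, div_self hB]

theorem pd_prod {ι : Type*} [DecidableEq ι] (E : Finset ι) (F : ι → B → ℝ) {w : ℝ}
    (hw : 0 ≤ w) (hF : ∀ e ∈ E, PD (F e)) (hm : ∀ e ∈ E, w ≤ mean (F e)) :
    PD (fun x => ∏ e ∈ E, F e x) ∧ w ^ E.card ≤ mean (fun x => ∏ e ∈ E, F e x) := by
  induction E using Finset.induction_on with
  | empty =>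
    simp only [prod_empty, card_empty, pow_zero]
    exact ⟨pd_one, mean_one.ge⟩
  | insert e E he ih =>
    obtain ⟨h1, h2⟩ := ih (fun e' h => hF e' (mem_insert_of_mem h))
      (fun e' h => hm e' (mem_insert_of_mem h))
    obtain ⟨h3, h4⟩ := pd_mul (hF e (mem_insert_self _ _)) h1
    have h5 : (fun x => ∏ e' ∈ insert e E, F e' x) = fun x => F e x * ∏ e' ∈ E, F e' x := by
      funext x
      rw [prod_insert he]
    rw [h5, card_insert_of_notMem he, pow_succ']
    refine ⟨h3, le_trans ?_ h4⟩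
    exact mul_le_mul (hm e (mem_insert_self _ _)) h2 (pow_nonneg hw _)
      (hw.trans (hm e (mem_insert_self _ _)))

end Cay

open Cay in
/-- Positive definite Cayley kernels satisfy the Sidorenko inequality for every graph. -/
theorem cayley_all {A : Type*} [AddCommGroup A] [Fintype A] {J : Type} [Fintype J]
    (c : J → ℝ) (ψ : J → AddChar A ℂ) (hc : ∀ j, 0 ≤ c j) (W : Sym2 A → ℝ)
    (hW : ∀ x y, ((W s(x, y) : ℝ) : ℂ) = ∑ j, (c j : ℂ) * ψ j (x - y))
    {U : Type*} [Fintype U] [DecidableEq U] (H : SimpleGraph U) [DecidableRel H.Adj] :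
    edgeDens (fun _ : A => 1 / (Fintype.card A : ℝ)) W ^ H.edgeFinset.card ≤
      dens (fun _ : A => 1 / (Fintype.card A : ℝ)) W H := by
  classical
  have hA : (Fintype.card A : ℝ) ≠ 0 := by
    have : Nonempty A := ⟨0⟩
    exact_mod_cast Fintype.card_ne_zero
  set w : ℝ := ∑ j, c j * (if ψ j = 0 then 1 else 0) with hw
  have hw0 : 0 ≤ w := sum_nonneg fun j _ => mul_nonneg (hc j) (by split_ifs <;> norm_num)
  -- the edge density
  have hed : edgeDens (fun _ : A => 1 / (Fintype.card A : ℝ)) W = w := by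
    have h1 : ∀ y : A, ∑ x, W s(x, y) = (Fintype.card A : ℝ) * w := by
      intro y
      have h2 := mean_eq (F := fun x => W s(x + y, y)) (a := c) (Ψ := ψ) (fun x => by
        rw [hW]
        simp)
      rw [← hw] at h2
      unfold mean at h2
      rw [div_eq_iff hA] at h2
      rw [← Equiv.sum_comp (Equiv.addRight y) (fun x => W s(x, y))]
      simp only [Equiv.coe_addRight]
      rw [h2, mul_comm]
    unfold edgeDens
    rw [sum_comm]
    simp only
    have h3 : ∀ y : A, ∑ x : A, 1 / (Fintype.card A : ℝ) * (1 / (Fintype.card A : ℝ)) *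
        W s(x, y) = 1 / (Fintype.card A : ℝ) * w := by
      intro y
      rw [← mul_sum, h1]
      field_simp
    rw [sum_congr rfl fun y _ => h3 y, sum_const, card_univ, nsmul_eq_mul]
    field_simp
  -- the factors
  have hfac : ∀ e : Sym2 U, PD (fun x : U → A => W (e.map x)) ∧
      w ≤ mean (fun x : U → A => W (e.map x)) := by
    intro e
    induction e using Sym2.ind with
    | _ a b =>
      have h1 : ∀ x : U → A, ((W (s(a, b).map x) : ℝ) : ℂ) = ∑ j, (c j : ℂ) *
          ((ψ j).compAddMonoidHom (Pi.evalAddMonoidHom (fun _ : U => A) a -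
            Pi.evalAddMonoidHom (fun _ : U => A) b)) x := by
        intro x
        rw [Sym2.map_mk, hW]
        rfl
      refine ⟨⟨J, inferInstance, c, _, hc, h1⟩, ?_⟩
      rw [mean_eq h1, hw]
      refine sum_le_sum fun j _ => mul_le_mul_of_nonneg_left ?_ (hc j)
      by_cases h : ψ j = 0
      · rw [if_pos h, if_pos]
        rw [h]
        rfl
      · rw [if_neg h]
        split_ifs <;> norm_num
  have hmain := (pd_prod H.edgeFinset (fun e (x : U → A) => W (e.map x)) hw0
    (fun e _ => (hfac e).1) (fun e _ => (hfac e).2)).2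
  rw [hed]
  refine hmain.trans (le_of_eq ?_)
  unfold mean dens
  rw [div_eq_mul_inv, sum_mul]
  refine sum_congr rfl fun x _ => ?_
  rw [prod_const, card_univ, mul_comm]
  congr 1
  rw [Fintype.card_fun]
  push_cast
  rw [one_div, inv_pow]

end Vale.Agent.P050
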