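import Vale.Agent.P050.Defs

/-!
# P050 (Sidorenko): the class of hosts
-/

open Finset

namespace Vale.Agent.P050

/-- A class of finite weighted hosts: `HostK V _ μ W` where `μ x` is the mass of the vertex `x` and
`W s(x, y)` the weight of the pair `x, y` (loops allowed). -/
inductive HostK : ∀ (V : Type), Fintype V → (V → ℝ) → (Sym2 V → ℝ) → Prop
  /-- totally positive of order two for a row order and a column order -/
  | tp (V : Type) (i : Fintype V) (μ : V → ℝ) (W : Sym2 V → ℝ) (hμ : ∀ x, 0 < μ x)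
      (hμ1 : ∑ x, μ x = 1) (hW : ∀ z, 0 ≤ W z) (hT : ∃ r c, TPOrders W r c) : HostK V i μ W
  /-- monotone kernels on a finite distributive lattice with log-supermodular masses -/
  | mono (V : Type) (i : Fintype V) (L : DistribLattice V) (μ : V → ℝ) (W : Sym2 V → ℝ)
      (hμ : ∀ x, 0 ≤ μ x) (hμ1 : ∑ x, μ x = 1)
      (hμs : ∀ x y, μ x * μ y ≤ μ (x ⊓ y) * μ (x ⊔ y)) (hW : ∀ z, 0 ≤ W z)
      (hT : ∀ x x' y, x ≤ x' → W s(x, y) ≤ W s(x', y)) : HostK V i μ W
  /-- nonnegative kernels `W(x, y) = f (x - y)` on a finite abelian group, `f` a nonnegative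
  combination of characters -/
  | cayley (A : Type) (i : Fintype A) (L : AddCommGroup A) (J : Type) (iJ : Fintype J)
      (c : J → ℝ) (ψ : J → AddChar A ℂ) (hc : ∀ j, 0 ≤ c j) (W : Sym2 A → ℝ)
      (hW : ∀ x y, ((W s(x, y) : ℝ) : ℂ) = ∑ j, (c j : ℂ) * ψ j (x - y))
      (hW0 : ∀ z, 0 ≤ W z) : HostK A i (fun _ => 1 / (Fintype.card A : ℝ)) W
  /-- adding a nonnegative constant -/
  | add (V : Type) (i : Fintype V) (μ : V → ℝ) (W : Sym2 V → ℝ) (h : HostK V i μ W) (c : ℝ)
      (hc : 0 ≤ c) : HostK V i μ (fun z => W z + c)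
  /-- scaling -/
  | smul (V : Type) (i : Fintype V) (μ : V → ℝ) (W : Sym2 V → ℝ) (h : HostK V i μ W) (c : ℝ)
      (hc : 0 ≤ c) : HostK V i μ (fun z => c * W z)
  /-- tensor products -/
  | prod (I : Type) (i : Fintype I) (d : DecidableEq I) (F : I → Type)
      (iF : ∀ k, Fintype (F k)) (μ : ∀ k, F k → ℝ) (W : ∀ k, Sym2 (F k) → ℝ)
      (h : ∀ k, HostK (F k) (iF k) (μ k) (W k)) :
      HostK (∀ k, F k) Pi.instFintype (fun x => ∏ k, μ k (x k))
        (fun z => ∏ k, W k (z.map fun x => x k))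
  /-- substitution: in a host on the cells `I`, the cell `k` is replaced by a host whose edge
  density is the diagonal entry of the cell -/
  | sub (I : Type) (i : Fintype I) (C : I → Type) (iC : ∀ k, Fintype (C k))
      (m : I → ℝ) (K : Sym2 I → ℝ) (μ : ∀ k, C k → ℝ) (W : ∀ k, Sym2 (C k) → ℝ)
      (hK : HostK I i m K) (hC : ∀ k, HostK (C k) (iC k) (μ k) (W k))
      (hd : ∀ k, edgeDens (μ k) (W k) = K s(k, k)) (W' : Sym2 (Σ k, C k) → ℝ)
      (hin : ∀ k x y, W' s(⟨k, x⟩, ⟨k, y⟩) = W k s(x, y))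
      (hout : ∀ k l x y, k ≠ l → W' s(⟨k, x⟩, ⟨l, y⟩) = K s(k, l)) :
      HostK (Σ k, C k) Sigma.instFintype (fun p => m p.1 * μ p.1 p.2) W'
  /-- pullback along a measure preserving map (blow-ups, isomorphisms) -/
  | pull (V V' : Type) (i : Fintype V) (i' : Fintype V') (d : DecidableEq V') (μ : V → ℝ)
      (μ' : V' → ℝ) (W : Sym2 V' → ℝ) (f : V → V') (hμ : ∀ x, 0 ≤ μ x)
      (hf : ∀ y, ∑ x, (if f x = y then μ x else 0) = μ' y) (h : HostK V' i' μ' W) :
      HostK V i μ (fun z => W (z.map f))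
  /-- quotients by measure preserving maps -/
  | push (V V' : Type) (i : Fintype V) (i' : Fintype V') (d : DecidableEq V') (μ : V → ℝ)
      (μ' : V' → ℝ) (W : Sym2 V' → ℝ) (f : V → V') (hW : ∀ z, 0 ≤ W z)
      (hf : ∀ y, ∑ x, (if f x = y then μ x else 0) = μ' y)
      (h : HostK V i μ (fun z => W (z.map f))) : HostK V' i' μ' W

/-- The uniform kernel of a graph. -/
noncomputable def graphKernel {V : Type} (G : SimpleGraph V) [DecidableRel G.Adj] :
    Sym2 V → ℝ := fun z => if z ∈ G.edgeSet then 1 else 0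

end Vale.Agent.P050
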