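import Vale.Agent.P050.AddC

/-!
# P050 (Sidorenko): substitution of good kernels into the diagonal cells of a good kernel
-/

open Finset

namespace Vale.Agent.P050

section

variable {I : Type} [Fintype I] [DecidableEq I] {C : I → Type} [∀ i, Fintype (C i)]
  {m : I → ℝ} {K : Sym2 I → ℝ} {μ : ∀ i, C i → ℝ} {W : ∀ i, Sym2 (C i) → ℝ}
  {W' : Sym2 (Σ i, C i) → ℝ}

omit [∀ i, Fintype (C i)] in
theorem prod_diag {U : Type} (s : U → I) (a b : U) (G : I → ℝ) :
    ∏ i, (if (s(a, b) : Sym2 U).map s = s(i, i) then G i else 1) =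
      if s a = s b then G (s a) else 1 := by
  by_cases h : s a = s b
  · rw [if_pos h, prod_eq_single (s a)]
    · exact if_pos (by rw [Sym2.map_mk, h])
    · intro i _ hi
      refine if_neg fun h' => ?_
      rw [Sym2.map_mk] at h'
      rcases Sym2.eq_iff.1 h' with h'' | h''
      · exact hi h''.1.symm
      · exact hi h''.1.symm
    · intro h'
      exact absurd (mem_univ _) h'
  · rw [if_neg h, prod_eq_one]
    intro i _
    refine if_neg fun h' => ?_
    rw [Sym2.map_mk] at h'
    rcases Sym2.eq_iff.1 h' with h'' | h''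
    · exact h (h''.1.trans h''.2.symm)
    · exact h (h''.1.trans h''.2.symm)

omit [Fintype I] [∀ i, Fintype (C i)] in
theorem diag_ite {U : Type} (s : U → I) (a b : U) (c d : ℝ) :
    (if ((s(a, b) : Sym2 U).map s).IsDiag then c else d) = if s a = s b then c else d := by
  by_cases h : s a = s b
  · rw [if_pos h]
    exact if_pos (by rw [Sym2.map_mk, Sym2.mk_isDiag_iff]; exact h)
  · rw [if_neg h]
    exact if_neg (by rw [Sym2.map_mk, Sym2.mk_isDiag_iff]; exact h)

omit [∀ i, Fintype (C i)] in
theorem sub_factor (hin : ∀ i x y, W' s(⟨i, x⟩, ⟨i, y⟩) = W i s(x, y))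
    (hout : ∀ i j x y, i ≠ j → W' s(⟨i, x⟩, ⟨j, y⟩) = K s(i, j)) {U : Type}
    (s : U → I) (x : ∀ i, U → C i) (e : Sym2 U) :
    W' (e.map fun u => ⟨s u, x (s u) u⟩) =
      (if (e.map s).IsDiag then 1 else K (e.map s)) *
        ∏ i, (if e.map s = s(i, i) then W i (e.map (x i)) else 1) := by
  induction e using Sym2.ind with
  | _ a b =>
    rw [prod_diag s a b (fun i => W i ((s(a, b) : Sym2 U).map (x i))), diag_ite, Sym2.map_mk]
    by_cases h : s a = s b
    · rw [if_pos h, if_pos h, one_mul, Sym2.map_mk, ← hin]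
      congr 2
      rw [h]
    · rw [if_neg h, if_neg h, hout _ _ _ _ h, mul_one, Sym2.map_mk]

theorem good_sub (hm : ∀ i, 0 ≤ m i) (hK : ∀ z, 0 ≤ K z)
    (_hμ : ∀ i x, 0 ≤ μ i x) (hμ1 : ∀ i, ∑ x, μ i x = 1) (_hW : ∀ i z, 0 ≤ W i z)
    (hd : ∀ i, edgeDens (μ i) (W i) = K s(i, i))
    (hin : ∀ i x y, W' s(⟨i, x⟩, ⟨i, y⟩) = W i s(x, y))
    (hout : ∀ i j x y, i ≠ j → W' s(⟨i, x⟩, ⟨j, y⟩) = K s(i, j))
    (gK : SidGood m K) (gW : ∀ i, SidGood (μ i) (W i)) :
    SidGood (fun p : Σ i, C i => m p.1 * μ p.1 p.2) W' := by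
  classical
  intro U _ _ H _ hH
  -- edge densities
  have hE : edgeDens (fun p : Σ i, C i => m p.1 * μ p.1 p.2) W' = edgeDens m K := by
    unfold edgeDens
    rw [Fintype.sum_sigma]
    refine sum_congr rfl fun i _ => ?_
    have h1 : ∀ x : C i, ∑ q : Σ i, C i, m i * μ i x * (m q.1 * μ q.1 q.2) * W' s(⟨i, x⟩, q) =
        ∑ j, ∑ y : C j, m i * μ i x * (m j * μ j y) * W' s(⟨i, x⟩, ⟨j, y⟩) := fun x => by
      rw [Fintype.sum_sigma]
    simp only
    rw [sum_congr rfl fun x _ => h1 x, sum_comm]
    refine sum_congr rfl fun j _ => ?_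
    by_cases h : i = j
    · subst h
      rw [← hd]
      unfold edgeDens
      rw [mul_sum]
      refine sum_congr rfl fun x _ => ?_
      rw [mul_sum]
      refine sum_congr rfl fun y _ => ?_
      rw [hin]
      ring
    · have h2 : ∀ x : C i, ∑ y : C j, m i * μ i x * (m j * μ j y) * W' s(⟨i, x⟩, ⟨j, y⟩) =
          μ i x * (m i * m j * K s(i, j)) := by
        intro x
        have h3 : ∀ y : C j, m i * μ i x * (m j * μ j y) * W' s(⟨i, x⟩, ⟨j, y⟩) =
            μ i x * (m i * m j * K s(i, j)) * μ j y := by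
          intro y
          rw [hout _ _ _ _ h]
          ring
        rw [sum_congr rfl fun y _ => h3 y, ← mul_sum, hμ1, mul_one]
      rw [sum_congr rfl fun x _ => h2 x, ← sum_mul, hμ1, one_mul]
  rw [hE]
  -- pull back to the product
  set f : I × (∀ i, C i) → Σ i, C i := fun p => ⟨p.1, p.2 p.1⟩ with hf
  have hmp : ∀ y, ∑ p, (if f p = y then m p.1 * ∏ i, μ i (p.2 i) else 0) =
      (fun p : Σ i, C i => m p.1 * μ p.1 p.2) y := by
    rintro ⟨k, y⟩
    rw [Fintype.sum_prod_type, sum_eq_single k]
    · simp only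
      have h1 := Finset.prod_univ_sum (fun i : I => (univ : Finset (C i))) (fun i z =>
        if h : i = k then (if h ▸ z = y then μ i z else 0) else μ i z)
      rw [Fintype.piFinset_univ] at h1
      have h2 : ∀ x : ∀ i, C i, (if f (k, x) = ⟨k, y⟩ then m k * ∏ i, μ i (x i) else 0) =
          m k * ∏ i, (if h : i = k then (if h ▸ x i = y then μ i (x i) else 0)
            else μ i (x i)) := by
        intro x
        by_cases hx : x k = y
        · rw [if_pos (by simp only [hf]; rw [hx])]
          congr 1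
          refine prod_congr rfl fun i _ => ?_
          split_ifs with h3 h4
          · rfl
          · exact absurd (by subst h3; exact hx) h4
          · rfl
        · rw [if_neg]
          · symm
            rw [prod_eq_zero (mem_univ k), mul_zero]
            rw [dif_pos rfl, if_neg hx]
          · intro h3
            simp only [hf] at h3
            exact hx (eq_of_heq (Sigma.mk.inj h3).2)
      rw [sum_congr rfl fun x _ => h2 x, ← mul_sum, ← h1]
      congr 1
      rw [prod_eq_single k]
      · simp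
      · intro i _ hi
        simp only [dif_neg hi, hμ1]
      · intro h3
        exact absurd (mem_univ _) h3
    · intro i _ hi
      refine sum_eq_zero fun x _ => ?_
      rw [if_neg]
      intro h3
      simp only [hf] at h3
      exact hi (Sigma.mk.inj h3).1
    · intro h3
      exact absurd (mem_univ _) h3
  rw [← dens_pull f hmp]
  refine (gK U H hH).trans ?_
  unfold dens
  rw [← (Equiv.arrowProdEquivProdArrow U (fun _ => I) (fun _ => ∀ i, C i)).symm.sum_comp,
    Fintype.sum_prod_type]
  refine sum_le_sum fun s _ => ?_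
  rw [← (Equiv.piComm (fun (_ : U) (i : I) => C i)).symm.sum_comp]
  have h1 : ∀ x : ∀ i, U → C i, (∏ u, (m ((Equiv.arrowProdEquivProdArrow U (fun _ => I)
        (fun _ => ∀ i, C i)).symm (s, (Equiv.piComm (fun (_ : U) (i : I) => C i)).symm x) u).1 *
        ∏ i, μ i (((Equiv.arrowProdEquivProdArrow U (fun _ => I)
        (fun _ => ∀ i, C i)).symm (s, (Equiv.piComm (fun (_ : U) (i : I) => C i)).symm x) u).2 i))) *
      ∏ e ∈ H.edgeFinset, W' ((e.map ((Equiv.arrowProdEquivProdArrow U (fun _ => I)
        (fun _ => ∀ i, C i)).symm (s, (Equiv.piComm (fun (_ : U) (i : I) => C i)).symm x))).map f) =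
      ((∏ u, m (s u)) * ∏ e ∈ H.edgeFinset, (if (e.map s).IsDiag then 1 else K (e.map s))) *
      ∏ i, ((∏ u, μ i (x i u)) *
        ∏ e ∈ H.edgeFinset.filter (fun e => e.map s = s(i, i)), W i (e.map (x i))) := by
    intro x
    have h2 : ∀ e : Sym2 U, W' ((e.map ((Equiv.arrowProdEquivProdArrow U (fun _ => I)
        (fun _ => ∀ i, C i)).symm (s, (Equiv.piComm (fun (_ : U) (i : I) => C i)).symm x))).map f) =
        (if (e.map s).IsDiag then 1 else K (e.map s)) *
        ∏ i, (if e.map s = s(i, i) then W i (e.map (x i)) else 1) := by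
      intro e
      rw [Sym2.map_map, ← sub_factor hin hout s x e]
      rfl
    have h3 : ∀ i, ∏ e ∈ H.edgeFinset, (if e.map s = s(i, i) then W i (e.map (x i)) else 1) =
        ∏ e ∈ H.edgeFinset.filter (fun e => e.map s = s(i, i)), W i (e.map (x i)) := by
      intro i
      rw [prod_filter]
    have h8 : ∏ u, (m (s u) * ∏ i, μ i (x i u)) =
        (∏ u, m (s u)) * ∏ i, ∏ u, μ i (x i u) := by
      rw [prod_mul_distrib]
      congr 1
      exact prod_comm
    have h9 : ∏ e ∈ H.edgeFinset, ((if (e.map s).IsDiag then 1 else K (e.map s)) *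
        ∏ i, (if e.map s = s(i, i) then W i (e.map (x i)) else 1)) =
        (∏ e ∈ H.edgeFinset, (if (e.map s).IsDiag then 1 else K (e.map s))) *
        ∏ i, ∏ e ∈ H.edgeFinset.filter (fun e => e.map s = s(i, i)), W i (e.map (x i)) := by
      rw [prod_mul_distrib]
      congr 1
      rw [prod_comm]
      exact prod_congr rfl fun i _ => h3 i
    rw [prod_congr rfl fun e _ => h2 e, h9]
    refine Eq.trans (congrArg₂ (· * ·) h8 rfl) ?_
    rw [prod_mul_distrib]
    ring
  rw [sum_congr rfl fun x _ => h1 x, ← mul_sum]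
  have h4 := Finset.prod_univ_sum (fun i : I => (univ : Finset (U → C i))) (fun i y =>
    (∏ u, μ i (y u)) * ∏ e ∈ H.edgeFinset.filter (fun e => e.map s = s(i, i)), W i (e.map y))
  rw [Fintype.piFinset_univ] at h4
  rw [← h4]
  have h5 : ∏ i, K s(i, i) ^ (H.edgeFinset.filter (fun e => e.map s = s(i, i))).card ≤
      ∏ i, ∑ y : U → C i, (∏ u, μ i (y u)) *
        ∏ e ∈ H.edgeFinset.filter (fun e => e.map s = s(i, i)), W i (e.map y) := by
    refine prod_le_prod (fun i _ => pow_nonneg (hK _) _) fun i _ => ?_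
    rw [← hd i]
    exact good_edges (gW i) hH (filter_subset _ _)
  have h6 : (∏ u, m (s u)) * ∏ e ∈ H.edgeFinset, K (e.map s) =
      ((∏ u, m (s u)) * ∏ e ∈ H.edgeFinset, (if (e.map s).IsDiag then 1 else K (e.map s))) *
      ∏ i, K s(i, i) ^ (H.edgeFinset.filter (fun e => e.map s = s(i, i))).card := by
    rw [mul_assoc]
    congr 1
    have h7 : ∀ i, K s(i, i) ^ (H.edgeFinset.filter (fun e => e.map s = s(i, i))).card =
        ∏ e ∈ H.edgeFinset, (if e.map s = s(i, i) then K s(i, i) else 1) := by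
      intro i
      rw [← prod_filter, prod_const]
    rw [prod_congr rfl fun i _ => h7 i, prod_comm, ← prod_mul_distrib]
    refine prod_congr rfl fun e _ => ?_
    induction e using Sym2.ind with
    | _ a b =>
      rw [prod_diag s a b (fun i => K s(i, i)), diag_ite, Sym2.map_mk]
      by_cases h : s a = s b
      · rw [if_pos h, if_pos h, one_mul, h]
      · rw [if_neg h, if_neg h, mul_one]
  rw [h6]
  refine mul_le_mul_of_nonneg_left h5 (mul_nonneg (prod_nonneg fun u _ => hm _)
    (prod_nonneg fun e _ => ?_))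
  split_ifs
  · exact zero_le_one
  · exact hK _

end

end Vale.Agent.P050
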