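import Vale.Agent.P050.ClassDefs
import Vale.Agent.P050.Sub

/-!
# P050 (Sidorenko): all members of the class are good
-/

open Finset

namespace Vale.Agent.P050

/-- Nonnegative masses of sum one and a nonnegative kernel. -/
def Valid {V : Type} [Fintype V] (μ : V → ℝ) (W : Sym2 V → ℝ) : Prop :=
  (∀ x, 0 ≤ μ x) ∧ ∑ x, μ x = 1 ∧ ∀ z, 0 ≤ W z

theorem sum_pull {V V' : Type} [Fintype V] [Fintype V'] [DecidableEq V'] {μ : V → ℝ}
    {μ' : V' → ℝ} (f : V → V') (hf : ∀ y, ∑ x, (if f x = y then μ x else 0) = μ' y) :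
    ∑ y, μ' y = ∑ x, μ x := by
  simp only [← hf]
  rw [sum_comm]
  refine sum_congr rfl fun x _ => ?_
  simp only [sum_ite_eq, mem_univ, if_true]

theorem host_good {V : Type} (i : Fintype V) {μ : V → ℝ} {W : Sym2 V → ℝ}
    (h : HostK V i μ W) : Valid μ W ∧ SidGood μ W := by
  induction h with
  | tp V i μ W hμ hμ1 hW hT => exact ⟨⟨fun x => (hμ x).le, hμ1, hW⟩, good_tp hμ hμ1 hW hT⟩
  | mono V i L μ W hμ hμ1 hμs hW hT => exact ⟨⟨hμ, hμ1, hW⟩, good_mono hμ hμ1 hμs hW hT⟩
  | cayley A i L J iJ c ψ hc W hW hW0 =>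
    have hA : (Fintype.card A : ℝ) ≠ 0 := by
      have : Nonempty A := ⟨0⟩
      exact_mod_cast Fintype.card_ne_zero
    refine ⟨⟨fun _ => by positivity, ?_, hW0⟩, good_cayley c ψ hc W hW⟩
    rw [sum_const, card_univ, nsmul_eq_mul]
    field_simp
  | add V i μ W h c hc ih =>
    obtain ⟨⟨h1, h2, h3⟩, h4⟩ := ih
    exact ⟨⟨h1, h2, fun z => add_nonneg (h3 z) hc⟩, good_add h2 h4 hc⟩
  | smul V i μ W h c hc ih =>
    obtain ⟨⟨h1, h2, h3⟩, h4⟩ := ih
    exact ⟨⟨h1, h2, fun z => mul_nonneg hc (h3 z)⟩, good_smul h4 hc⟩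
  | prod I i d F iF μ W h ih =>
    refine ⟨⟨fun x => prod_nonneg fun k _ => (ih k).1.1 _, ?_,
      fun z => prod_nonneg fun k _ => (ih k).1.2.2 _⟩,
      good_prod (fun k => (ih k).1.1) (fun k => (ih k).1.2.2) fun k => (ih k).2⟩
    have h1 := Finset.prod_univ_sum (fun k : I => (univ : Finset (F k))) (fun k x => μ k x)
    rw [Fintype.piFinset_univ] at h1
    rw [← h1]
    exact prod_eq_one fun k _ => (ih k).1.2.1
  | sub I i C iC m K μ W hK hC hd W' hin hout ihK ihC =>
    classical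
    obtain ⟨⟨k1, k2, k3⟩, k4⟩ := ihK
    refine ⟨⟨fun p => mul_nonneg (k1 _) ((ihC _).1.1 _), ?_, ?_⟩,
      good_sub k1 k3 (fun k => (ihC k).1.1) (fun k => (ihC k).1.2.1) (fun k => (ihC k).1.2.2)
        hd hin hout k4 fun k => (ihC k).2⟩
    · rw [Fintype.sum_sigma, ← k2]
      refine sum_congr rfl fun k _ => ?_
      simp only
      rw [← mul_sum, (ihC k).1.2.1, mul_one]
    · intro z
      induction z using Sym2.ind with
      | _ p q =>
        obtain ⟨k, x⟩ := p
        obtain ⟨l, y⟩ := q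
        by_cases hkl : k = l
        · subst hkl
          rw [hin]
          exact (ihC k).1.2.2 _
        · rw [hout _ _ _ _ hkl]
          exact k3 _
  | pull V V' i i' d μ μ' W f hμ hf h ih =>
    obtain ⟨⟨h1, h2, h3⟩, h4⟩ := ih
    refine ⟨⟨hμ, ?_, fun z => h3 _⟩, good_pull f hf h4⟩
    rw [← sum_pull f hf, h2]
  | push V V' i i' d μ μ' W f hW hf h ih =>
    obtain ⟨⟨h1, h2, h3⟩, h4⟩ := ih
    refine ⟨⟨fun y => ?_, ?_, hW⟩, ?_⟩
    · rw [← hf]
      exact sum_nonneg fun x _ => by split_ifs <;> first | exact h1 x | exact le_rfl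
    · rw [sum_pull f hf, h2]
    · intro U _ _ H _ hH
      have := h4 U H hH
      rw [edgeDens_pull f hf, dens_pull f hf] at this
      exact this

theorem graph_host {V : Type} [Fintype V] [Nonempty V] (G : SimpleGraph V)
    [DecidableRel G.Adj]
    (h : HostK V inferInstance (fun _ => 1 / (Fintype.card V : ℝ)) (graphKernel G))
    (U : Type) [Fintype U] [DecidableEq U] (H : SimpleGraph U) [DecidableRel H.Adj]
    (hH : H.Colorable 2) :
    (2 * (G.edgeFinset.card : ℝ) / (Fintype.card V : ℝ) ^ 2) ^ H.edgeFinset.card ≤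
      (Nat.card (H →g G) : ℝ) / (Fintype.card V : ℝ) ^ Fintype.card U := by
  apply final_form
  have h1 : graphKernel G = ind G.edgeSet := by
    funext z
    unfold graphKernel ind
    congr
  have := (host_good _ h).2 U H hH
  rw [h1] at this
  exact this

end Vale.Agent.P050
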