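import Vale.Agent.P050.Bip

/-!
# P050 (Sidorenko): closure properties of the class of good hosts

`Sid α β K`: the weighted kernel `K` satisfies Sidorenko's inequality for every bipartite graph.
-/

open Finset

namespace Vale.Agent.P050.Clo

/-- The weighted number of homomorphisms of the edge set `E`, with vertex weights `ω`. -/
noncomputable def Z {X U : Type*} [Fintype X] [Fintype U] [DecidableEq U] (ω : U → X → ℝ)
    (K : X → X → ℝ) (E : Finset (U × U)) : ℝ :=
  ∑ σ : U → X, (∏ v, ω v (σ v)) * ∏ e ∈ E, K (σ e.1) (σ e.2)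

/-- The weighted kernel `K` (row weights `α`, column weights `β`) satisfies Sidorenko's inequality
for every bipartite graph. -/
def Sid {X : Type*} [Fintype X] (α β : X → ℝ) (K : X → X → ℝ) : Prop :=
  ∀ (U : Type) [Fintype U] [DecidableEq U] (side : U → Bool) (E : Finset (U × U)),
    (∀ e ∈ E, side e.1 = true ∧ side e.2 = false) →
    (∑ x, ∑ y, α x * β y * K x y) ^ E.card ≤ Z (fun v => if side v then α else β) K E

/-- Weights of total mass one. -/
structure Wt {X : Type*} [Fintype X] (α : X → ℝ) : Prop where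
  nonneg : ∀ x, 0 ≤ α x
  sum_one : ∑ x, α x = 1

theorem sid_tp2 {n : ℕ} {K : Fin (n + 1) → Fin (n + 1) → ℝ} (hK : ∀ i j, 0 ≤ K i j)
    (tK : TP2 K) {α β : Fin (n + 1) → ℝ} (hα : ∀ i, 0 < α i) (hα1 : ∑ i, α i = 1)
    (hβ : ∀ i, 0 < β i) (hβ1 : ∑ i, β i = 1) : Sid α β K := by
  intro U _ _ side E hE
  have h := bip_nonneg hK tK hα hα1 hβ hβ1 (fun v => side v = true) E
    (fun e he => ⟨(hE e he).1, by rw [(hE e he).2]; decide⟩)
  refine h.trans (le_of_eq ?_)
  unfold Z
  refine sum_congr rfl fun σ _ => ?_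
  congr 1
  refine prod_congr rfl fun v _ => ?_
  by_cases hs : side v = true
  · simp only [hs, if_true]
  · simp only [hs, if_false, Bool.false_eq_true]

/-- Push-forward of the weights along vertex dependent maps. -/
theorem Z_push {X X' U : Type*} [Fintype X] [Fintype X'] [DecidableEq X] [Fintype U]
    [DecidableEq U] (φ : U → X' → X) (ω' : U → X' → ℝ) (ω : U → X → ℝ)
    (h : ∀ v x, ∑ x' ∈ univ.filter (fun x' => φ v x' = x), ω' v x' = ω v x)
    (K' : X' → X' → ℝ) (K : X → X → ℝ) (E : Finset (U × U))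
    (hK : ∀ e ∈ E, ∀ x y, K' x y = K (φ e.1 x) (φ e.2 y)) :
    Z ω' K' E = Z ω K E := by
  classical
  unfold Z
  have h1 : ∀ σ : U → X, ∏ v, ω v (σ v) =
      ∑ σ' ∈ univ.filter (fun σ' : U → X' => (fun v => φ v (σ' v)) = σ),
        ∏ v, ω' v (σ' v) := by
    intro σ
    have h2 : ∏ v, ω v (σ v) =
        ∏ v, ∑ x' ∈ univ.filter (fun x' => φ v x' = σ v), ω' v x' :=
      prod_congr rfl fun v _ => (h v _).symm
    rw [h2, prod_univ_sum]
    refine sum_congr ?_ fun _ _ => rfl
    ext σ'
    simp only [Fintype.mem_piFinset, mem_filter, mem_univ, true_and]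
    constructor
    · intro h3
      funext v
      exact h3 v
    · intro h3 v
      exact congrFun h3 v
  rw [← sum_fiberwise (univ : Finset (U → X')) (fun σ' => (fun v => φ v (σ' v)))
    (fun σ' => (∏ v, ω' v (σ' v)) * ∏ e ∈ E, K' (σ' e.1) (σ' e.2))]
  refine sum_congr rfl fun σ _ => ?_
  rw [h1 σ, sum_mul]
  refine sum_congr rfl fun σ' hσ' => ?_
  have h3 : (fun v => φ v (σ' v)) = σ := (mem_filter.1 hσ').2
  congr 1
  refine prod_congr rfl fun e he => ?_
  rw [← h3, hK e he]

/-- Pullback along maps (different for rows and columns) preserving the weights. -/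
theorem sid_push {X X' : Type*} [Fintype X] [Fintype X'] [DecidableEq X] (φ ψ : X' → X)
    {α β : X → ℝ} {α' β' : X' → ℝ} {K : X → X → ℝ}
    (hα : ∀ x, ∑ x' ∈ univ.filter (fun x' => φ x' = x), α' x' = α x)
    (hβ : ∀ x, ∑ x' ∈ univ.filter (fun x' => ψ x' = x), β' x' = β x) :
    Sid α' β' (fun x y => K (φ x) (ψ y)) ↔ Sid α β K := by
  have hp : ∑ x, ∑ y, α' x * β' y * K (φ x) (ψ y) = ∑ x, ∑ y, α x * β y * K x y := by
    rw [← sum_fiberwise (univ : Finset X') φ
      (fun x => ∑ y, α' x * β' y * K (φ x) (ψ y))]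
    refine sum_congr rfl fun x _ => ?_
    have h1 : ∀ x' ∈ univ.filter (fun x' => φ x' = x),
        ∑ y, α' x' * β' y * K (φ x') (ψ y) = α' x' * ∑ y, β y * K x y := by
      intro x' hx'
      have hx : φ x' = x := (mem_filter.1 hx').2
      rw [hx, mul_sum, ← sum_fiberwise (univ : Finset X') ψ
        (fun y => α' x' * β' y * K x (ψ y))]
      refine sum_congr rfl fun y _ => ?_
      rw [← hβ y, sum_mul, mul_sum]
      refine sum_congr rfl fun y' hy' => ?_
      rw [(mem_filter.1 hy').2]
      ring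
    rw [sum_congr rfl h1, ← sum_mul, hα x, mul_sum]
    exact sum_congr rfl fun y _ => by ring
  have hz : ∀ (U : Type) [Fintype U] [DecidableEq U] (side : U → Bool) (E : Finset (U × U)),
      (∀ e ∈ E, side e.1 = true ∧ side e.2 = false) →
      Z (fun v => if side v then α' else β') (fun x y => K (φ x) (ψ y)) E =
        Z (fun v => if side v then α else β) K E := by
    intro U _ _ side E hE
    refine Z_push (fun v => if side v then φ else ψ) _ _ ?_ _ K E ?_
    · intro v x
      by_cases hs : side v = true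
      · simp only [hs, if_true]
        exact hα x
      · simp only [hs, if_false, Bool.false_eq_true]
        exact hβ x
    · intro e he x y
      simp only [(hE e he).1, (hE e he).2, if_true, if_false, Bool.false_eq_true]
  unfold Sid
  rw [hp]
  constructor
  · intro h U _ _ side E hE
    rw [← hz U side E hE]
    exact h U side E hE
  · intro h U _ _ side E hE
    rw [hz U side E hE]
    exact h U side E hE

theorem fiber_equiv {X Y : Type*} [Fintype X] [DecidableEq Y] (f : X ≃ Y) (α : X → ℝ) (y : Y) :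
    ∑ x ∈ univ.filter (fun x => f x = y), α x = α (f.symm y) := by
  classical
  have : univ.filter (fun x => f x = y) = {f.symm y} := by
    ext z
    simp only [mem_filter, mem_univ, true_and, mem_singleton]
    exact ⟨fun h => by rw [← h, Equiv.symm_apply_apply], fun h => by
      rw [h, Equiv.apply_symm_apply]⟩
  rw [this, sum_singleton]

theorem tp2_fin_two {M : Fin 2 → Fin 2 → ℝ} (h : M 0 1 * M 1 0 ≤ M 0 0 * M 1 1) : TP2 M := by
  intro x x' y y' hx hy
  rcases hx.eq_or_lt with rfl | hx
  · exact (mul_comm _ _).le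
  rcases hy.eq_or_lt with rfl | hy
  · exact le_rfl
  have h1 : x = 0 := by omega
  have h2 : x' = 1 := by omega
  have h3 : y = 0 := by omega
  have h4 : y' = 1 := by omega
  rw [h1, h2, h3, h4]
  exact h

/-- Every `2 x 2` kernel is good. -/
theorem sid_two {K : Bool → Bool → ℝ} (hK : ∀ i j, 0 ≤ K i j) {α β : Bool → ℝ}
    (hα : ∀ i, 0 < α i) (hα1 : ∑ i, α i = 1) (hβ : ∀ i, 0 < β i) (hβ1 : ∑ i, β i = 1) :
    Sid α β K := by
  have key : ∀ (f g : Bool ≃ Fin 2),
      TP2 (fun i j : Fin 2 => K (f.symm i) (g.symm j)) → Sid α β K := by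
    intro f g htp
    have h := sid_tp2 (n := 1) (K := fun i j => K (f.symm i) (g.symm j))
      (fun i j => hK _ _) htp (α := fun i => α (f.symm i)) (β := fun j => β (g.symm j))
      (fun i => hα _) (by rw [← hα1]; exact Equiv.sum_comp f.symm α) (fun i => hβ _)
      (by rw [← hβ1]; exact Equiv.sum_comp g.symm β)
    have h2 := (sid_push (X := Fin 2) (X' := Bool) (fun x => f x) (fun y => g y)
      (α := fun i => α (f.symm i)) (β := fun j => β (g.symm j)) (α' := α) (β' := β)
      (K := fun i j => K (f.symm i) (g.symm j))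
      (fun x => fiber_equiv f α x) (fun x => fiber_equiv g β x)).2 h
    simpa only [Equiv.symm_apply_apply] using h2
  rcases le_total (K false true * K true false) (K false false * K true true) with h | h
  · refine key finTwoEquiv.symm finTwoEquiv.symm (tp2_fin_two ?_)
    exact h
  · refine key finTwoEquiv.symm (Equiv.boolNot.trans finTwoEquiv.symm) (tp2_fin_two ?_)
    exact h

theorem mean_nonneg {X : Type*} [Fintype X] {α β : X → ℝ} {K : X → X → ℝ}
    (hα : ∀ x, 0 ≤ α x) (hβ : ∀ x, 0 ≤ β x) (hK : ∀ x y, 0 ≤ K x y) :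
    0 ≤ ∑ x, ∑ y, α x * β y * K x y :=
  sum_nonneg fun x _ => sum_nonneg fun y _ => mul_nonneg (mul_nonneg (hα x) (hβ y)) (hK x y)

theorem Z_prod {X Y U : Type*} [Fintype X] [Fintype Y] [Fintype U] [DecidableEq U]
    (ω : U → X → ℝ) (ω' : U → Y → ℝ) (K : X → X → ℝ) (K' : Y → Y → ℝ) (E : Finset (U × U)) :
    Z (fun v (z : X × Y) => ω v z.1 * ω' v z.2) (fun z z' => K z.1 z'.1 * K' z.2 z'.2) E =
      Z ω K E * Z ω' K' E := by
  unfold Z
  rw [← (Equiv.arrowProdEquivProdArrow U (fun _ => X) (fun _ => Y)).symm.sum_comp,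
    Fintype.sum_prod_type, sum_mul_sum]
  refine sum_congr rfl fun σ _ => sum_congr rfl fun τ _ => ?_
  simp only [Equiv.arrowProdEquivProdArrow, Equiv.coe_fn_symm_mk, prod_mul_distrib]
  ring

/-- Tensor products of good kernels are good. -/
theorem sid_tensor {X Y : Type*} [Fintype X] [Fintype Y] {α β : X → ℝ} {α' β' : Y → ℝ}
    {K : X → X → ℝ} {K' : Y → Y → ℝ} (hα : ∀ x, 0 ≤ α x) (hβ : ∀ x, 0 ≤ β x)
    (hK : ∀ x y, 0 ≤ K x y) (hα' : ∀ x, 0 ≤ α' x) (hβ' : ∀ x, 0 ≤ β' x)
    (hK' : ∀ x y, 0 ≤ K' x y) (h : Sid α β K) (h' : Sid α' β' K') :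
    Sid (fun z : X × Y => α z.1 * α' z.2) (fun z => β z.1 * β' z.2)
      (fun z z' => K z.1 z'.1 * K' z.2 z'.2) := by
  intro U _ _ side E hE
  have h1 := h U side E hE
  have h2 := h' U side E hE
  have hz : Z (fun v => if side v = true then (fun z : X × Y => α z.1 * α' z.2)
      else (fun z => β z.1 * β' z.2)) (fun z z' => K z.1 z'.1 * K' z.2 z'.2) E =
      Z (fun v => if side v = true then α else β) K E *
      Z (fun v => if side v = true then α' else β') K' E := by
    rw [← Z_prod]
    congr 1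
    funext v z
    by_cases hs : side v = true
    · simp only [hs, if_true]
    · simp only [hs, if_false, Bool.false_eq_true]
  have hp : ∑ x : X × Y, ∑ y : X × Y, α x.1 * α' x.2 * (β y.1 * β' y.2) *
      (K x.1 y.1 * K' x.2 y.2) =
      (∑ x, ∑ y, α x * β y * K x y) * ∑ x, ∑ y, α' x * β' y * K' x y := by
    rw [Fintype.sum_prod_type, sum_mul_sum]
    refine sum_congr rfl fun x _ => sum_congr rfl fun x' _ => ?_
    rw [Fintype.sum_prod_type, sum_mul_sum]
    refine sum_congr rfl fun y _ => sum_congr rfl fun y' _ => ?_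
    ring
  rw [hz, hp, mul_pow]
  refine mul_le_mul h1 h2 (pow_nonneg (mean_nonneg hα' hβ' hK') _) ?_
  exact (pow_nonneg (mean_nonneg hα hβ hK) _).trans h1

/-- Substitution of the kernels `K` and `K'` into the diagonal cells of a `2 x 2` kernel `C`. -/
def subK {X Y : Type*} (C : Bool → Bool → ℝ) (K : X → X → ℝ) (K' : Y → Y → ℝ)
    (z z' : Bool × X × Y) : ℝ :=
  C z.1 z'.1 * (if z.1 = true ∧ z'.1 = true then K z.2.1 z'.2.1 else 1) *
    (if z.1 = false ∧ z'.1 = false then K' z.2.2 z'.2.2 else 1)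

theorem Z_subst {X Y U : Type*} [Fintype X] [Fintype Y] [Fintype U] [DecidableEq U]
    (w : U → Bool → ℝ) (ω : U → X → ℝ) (ω' : U → Y → ℝ) (C : Bool → Bool → ℝ) (K : X → X → ℝ)
    (K' : Y → Y → ℝ) (E : Finset (U × U)) :
    Z (fun v z => w v z.1 * (ω v z.2.1 * ω' v z.2.2)) (subK C K K') E =
      ∑ s : U → Bool, (∏ v, w v (s v)) * (∏ e ∈ E, C (s e.1) (s e.2)) *
        (Z ω K (E.filter fun e => s e.1 = true ∧ s e.2 = true) *
          Z ω' K' (E.filter fun e => s e.1 = false ∧ s e.2 = false)) := by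
  unfold Z
  rw [← (Equiv.arrowProdEquivProdArrow U (fun _ => Bool) (fun _ => X × Y)).symm.sum_comp,
    Fintype.sum_prod_type]
  refine sum_congr rfl fun s _ => ?_
  rw [← (Equiv.arrowProdEquivProdArrow U (fun _ => X) (fun _ => Y)).symm.sum_comp,
    Fintype.sum_prod_type, sum_mul_sum, mul_sum]
  refine sum_congr rfl fun σ _ => ?_
  rw [mul_sum]
  refine sum_congr rfl fun τ _ => ?_
  simp only [Equiv.arrowProdEquivProdArrow, Equiv.coe_fn_symm_mk, subK, prod_mul_distrib]
  rw [prod_filter, prod_filter]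
  have e1 : ∀ (A B W1 W2 W3 P : ℝ), W1 * (W2 * W3) * (P * A * B) =
      W1 * P * (W2 * A * (W3 * B)) := by
    intro A B W1 W2 W3 P
    ring
  exact e1 _ _ _ _ _ _

/-- Substitution preserves goodness. -/
theorem sid_subst {X Y : Type*} [Fintype X] [Fintype Y] {a b : Bool → ℝ} {α β : X → ℝ}
    {α' β' : Y → ℝ} {C : Bool → Bool → ℝ} {K : X → X → ℝ} {K' : Y → Y → ℝ}
    (ha : ∀ i, 0 < a i) (ha1 : ∑ i, a i = 1) (hb : ∀ i, 0 < b i) (hb1 : ∑ i, b i = 1)
    (hC : ∀ i j, 0 ≤ C i j) (hα : Wt α) (hβ : Wt β) (hK : ∀ x y, 0 ≤ K x y)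
    (hα' : Wt α') (hβ' : Wt β') (hK' : ∀ x y, 0 ≤ K' x y) (h : Sid α β K)
    (h' : Sid α' β' K') :
    Sid (fun z : Bool × X × Y => a z.1 * (α z.2.1 * α' z.2.2))
      (fun z => b z.1 * (β z.2.1 * β' z.2.2)) (subK C K K') := by
  intro U _ _ side E hE
  set p : ℝ := ∑ x, ∑ y, α x * β y * K x y with hp
  set p' : ℝ := ∑ x, ∑ y, α' x * β' y * K' x y with hp'
  have hp0 : 0 ≤ p := mean_nonneg hα.nonneg hβ.nonneg hK
  have hp0' : 0 ≤ p' := mean_nonneg hα'.nonneg hβ'.nonneg hK'
  set M : Bool → Bool → ℝ := fun s t => C s t * (if s = true ∧ t = true then p else 1) *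
    (if s = false ∧ t = false then p' else 1) with hM
  have hM0 : ∀ s t, 0 ≤ M s t := by
    intro s t
    simp only [hM]
    refine mul_nonneg (mul_nonneg (hC s t) ?_) ?_
    · split_ifs
      · exact hp0
      · exact zero_le_one
    · split_ifs
      · exact hp0'
      · exact zero_le_one
  have h2 := sid_two hM0 ha ha1 hb hb1 U side E hE
  have hmean : ∑ x : Bool × X × Y, ∑ y : Bool × X × Y,
      a x.1 * (α x.2.1 * α' x.2.2) * (b y.1 * (β y.2.1 * β' y.2.2)) * subK C K K' x y =
      ∑ s, ∑ t, a s * b t * M s t := by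
    rw [Fintype.sum_prod_type]
    refine sum_congr rfl fun s _ => ?_
    have e1 : ∀ x : X × Y, ∑ y : Bool × X × Y,
        a (s, x).1 * (α (s, x).2.1 * α' (s, x).2.2) * (b y.1 * (β y.2.1 * β' y.2.2)) *
          subK C K K' (s, x) y = ∑ t, ∑ y : X × Y,
          a s * b t * C s t * ((α x.1 * β y.1 *
            (if s = true ∧ t = true then K x.1 y.1 else 1)) * (α' x.2 * β' y.2 *
            (if s = false ∧ t = false then K' x.2 y.2 else 1))) := by
      intro x
      rw [Fintype.sum_prod_type]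
      refine sum_congr rfl fun t _ => sum_congr rfl fun y _ => ?_
      simp only [subK]
      have e2 : ∀ (A B C a b x x' y y' : ℝ), a * (x * x') * (b * (y * y')) * (C * A * B) =
          a * b * C * ((x * y * A) * (x' * y' * B)) := by
        intros
        ring
      exact e2 _ _ _ _ _ _ _ _ _
    rw [sum_congr rfl fun x _ => e1 x, sum_comm]
    refine sum_congr rfl fun t _ => ?_
    have e3 : ∀ (c : Prop) [Decidable c], ∑ x, ∑ y, α x * β y * (if c then K x y else 1) =
        if c then p else 1 := by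
      intro c _
      split_ifs
      · exact hp.symm
      · simp only [mul_one, ← mul_sum, hβ.sum_one, hα.sum_one]
    have e4 : ∀ (c : Prop) [Decidable c], ∑ x, ∑ y, α' x * β' y * (if c then K' x y else 1) =
        if c then p' else 1 := by
      intro c _
      split_ifs
      · exact hp'.symm
      · simp only [mul_one, ← mul_sum, hβ'.sum_one, hα'.sum_one]
    have e5 : ∑ x : X × Y, ∑ y : X × Y, (α x.1 * β y.1 *
            (if s = true ∧ t = true then K x.1 y.1 else 1)) * (α' x.2 * β' y.2 *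
            (if s = false ∧ t = false then K' x.2 y.2 else 1)) =
        (∑ x, ∑ y, α x * β y * (if s = true ∧ t = true then K x y else 1)) *
        (∑ x, ∑ y, α' x * β' y * (if s = false ∧ t = false then K' x y else 1)) := by
      rw [Fintype.sum_prod_type, sum_mul_sum]
      refine sum_congr rfl fun x _ => sum_congr rfl fun x' _ => ?_
      rw [Fintype.sum_prod_type, sum_mul_sum]
    simp only [← mul_sum]
    rw [e5, e3, e4]
    simp only [hM]
    ring
  rw [hmean]
  refine h2.trans ?_
  have hz : Z (fun v => if side v = true then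
      (fun z : Bool × X × Y => a z.1 * (α z.2.1 * α' z.2.2))
      else (fun z => b z.1 * (β z.2.1 * β' z.2.2))) (subK C K K') E =
      Z (fun v z => (if side v = true then a else b) z.1 *
        ((if side v = true then α else β) z.2.1 * (if side v = true then α' else β') z.2.2))
        (subK C K K') E := by
    congr 1
    funext v z
    by_cases hs : side v = true
    · simp only [hs, if_true]
    · simp only [hs, if_false, Bool.false_eq_true]
  rw [hz, Z_subst]
  unfold Z
  refine sum_le_sum fun s _ => ?_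
  have h3 := h U side (E.filter fun e => s e.1 = true ∧ s e.2 = true)
    (fun e he => hE e (mem_filter.1 he).1)
  have h4 := h' U side (E.filter fun e => s e.1 = false ∧ s e.2 = false)
    (fun e he => hE e (mem_filter.1 he).1)
  have h5 : ∏ e ∈ E, M (s e.1) (s e.2) = (∏ e ∈ E, C (s e.1) (s e.2)) *
      (p ^ (E.filter fun e => s e.1 = true ∧ s e.2 = true).card *
        p' ^ (E.filter fun e => s e.1 = false ∧ s e.2 = false).card) := by
    simp only [hM, prod_mul_distrib, ← prod_filter, prod_const, mul_assoc]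
  rw [h5, ← mul_assoc]
  refine mul_le_mul_of_nonneg_left ?_ ?_
  · exact mul_le_mul h3 h4 (pow_nonneg hp0' _) ((pow_nonneg hp0 _).trans h3)
  · refine mul_nonneg (prod_nonneg fun v _ => ?_) (prod_nonneg fun e _ => hC _ _)
    by_cases hs : side v = true
    · simp only [hs, if_true]
      exact (ha _).le
    · simp only [hs, if_false, Bool.false_eq_true]
      exact (hb _).le

/-- The glued kernel on the disjoint sum. -/
def sumK {X Y : Type*} (C : Bool → Bool → ℝ) (K : X → X → ℝ) (K' : Y → Y → ℝ) :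
    X ⊕ Y → X ⊕ Y → ℝ
  | .inl x, .inl y => C true true * K x y
  | .inr x, .inr y => C false false * K' x y
  | .inl _, .inr _ => C true false
  | .inr _, .inl _ => C false true

/-- The projection to the disjoint sum. -/
def prj {X Y : Type*} (z : Bool × X × Y) : X ⊕ Y := if z.1 = true then .inl z.2.1 else .inr z.2.2

theorem subK_eq {X Y : Type*} (C : Bool → Bool → ℝ) (K : X → X → ℝ) (K' : Y → Y → ℝ)
    (z z' : Bool × X × Y) : subK C K K' z z' = sumK C K K' (prj z) (prj z') := by
  obtain ⟨s, x, y⟩ := z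
  obtain ⟨s', x', y'⟩ := z'
  cases s <;> cases s' <;> simp [subK, sumK, prj]

theorem prj_fiber {X Y : Type*} [Fintype X] [Fintype Y] [DecidableEq X] [DecidableEq Y]
    (a : Bool → ℝ) {α : X → ℝ} {α' : Y → ℝ} (hα : Wt α) (hα' : Wt α') (z : X ⊕ Y) :
    ∑ w ∈ univ.filter (fun w : Bool × X × Y => prj w = z), a w.1 * (α w.2.1 * α' w.2.2) =
      Sum.elim (fun x => a true * α x) (fun y => a false * α' y) z := by
  rw [sum_filter, Fintype.sum_prod_type, Fintype.sum_bool]
  simp only [Fintype.sum_prod_type, prj, if_true, if_false, Bool.false_eq_true]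
  rcases z with z | z
  · simp only [Sum.elim_inl, Sum.inl.injEq, reduceCtorEq, if_false, sum_const_zero, add_zero]
    rw [sum_eq_single z]
    · simp only [if_true, ← mul_sum, hα'.sum_one, mul_one]
    · intro x _ hx
      simp only [hx, if_false, sum_const_zero]
    · intro h
      exact absurd (mem_univ _) h
  · simp only [Sum.elim_inr, Sum.inr.injEq, reduceCtorEq, if_false, sum_const_zero, zero_add]
    rw [sum_comm, sum_eq_single z]
    · simp only [if_true, ← mul_sum, ← sum_mul, hα.sum_one, one_mul]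
    · intro x _ hx
      simp only [hx, if_false, sum_const_zero]
    · intro h
      exact absurd (mem_univ _) h

/-- Gluing two good kernels with constant kernels across gives a good kernel. -/
theorem sid_sum {X Y : Type*} [Fintype X] [Fintype Y] {a b : Bool → ℝ} {α β : X → ℝ}
    {α' β' : Y → ℝ} {C : Bool → Bool → ℝ} {K : X → X → ℝ} {K' : Y → Y → ℝ}
    (ha : ∀ i, 0 < a i) (ha1 : ∑ i, a i = 1) (hb : ∀ i, 0 < b i) (hb1 : ∑ i, b i = 1)
    (hC : ∀ i j, 0 ≤ C i j) (hα : Wt α) (hβ : Wt β) (hK : ∀ x y, 0 ≤ K x y)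
    (hα' : Wt α') (hβ' : Wt β') (hK' : ∀ x y, 0 ≤ K' x y) (h : Sid α β K)
    (h' : Sid α' β' K') :
    Sid (Sum.elim (fun x => a true * α x) (fun y => a false * α' y))
      (Sum.elim (fun x => b true * β x) (fun y => b false * β' y)) (sumK C K K') := by
  classical
  have h1 := sid_subst ha ha1 hb hb1 hC hα hβ hK hα' hβ' hK' h h'
  have h2 : subK C K K' = fun z z' => sumK C K K' (prj z) (prj z') := by
    funext z z'
    exact subK_eq C K K' z z'
  rw [h2] at h1
  exact (sid_push prj prj (prj_fiber a hα hα') (prj_fiber b hβ hβ')).1 h1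

end Vale.Agent.P050.Clo
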