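import Vale.Agent.P050.Defs

/-!
# P050 (Sidorenko): definitions for the closure theorem and for cographs
-/

open Finset

namespace Vale.Agent.P050

/-- `W` is a good host: `t(H, W) ≥ t(K_2, W) ^ e(H)` for every bipartite graph `H`. -/
def Good {V : Type} [Fintype V] (μ : V → ℝ) (W : Sym2 V → ℝ) : Prop :=
  ∀ (U : Type) [Fintype U] [DecidableEq U] (H : SimpleGraph U) [DecidableRel H.Adj],
    H.Colorable 2 → edgeDens μ W ^ H.edgeFinset.card ≤ dens μ W H

/-- The weights of two hosts put side by side, the first with total mass `t`. -/
def glueWt {V V' : Type} (t : ℝ) (μ : V → ℝ) (μ' : V' → ℝ) : V ⊕ V' → ℝ :=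
  Sum.elim (fun x => t * μ x) (fun y => (1 - t) * μ' y)

/-- Two kernels put side by side, multiplied by `s` and `s'`, with the constant `c` across. -/
def glueKer {V V' : Type} (s c s' : ℝ) (W : Sym2 V → ℝ) (W' : Sym2 V' → ℝ) :
    Sym2 (V ⊕ V') → ℝ :=
  Sym2.lift ⟨fun x y => match x, y with
    | .inl x, .inl y => s * W s(x, y)
    | .inr x, .inr y => s' * W' s(x, y)
    | _, _ => c, by
      rintro (x | x) (y | y)
      · simp only [Sym2.eq_swap]
      · rfl
      · rfl
      · simp only [Sym2.eq_swap]⟩

/-- Two relations put side by side; all pairs across are related if `c` holds (join), and none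
of them otherwise (disjoint union). -/
def glueRel {V V' : Type} (c : Prop) (R : V → V → Prop) (R' : V' → V' → Prop) :
    V ⊕ V' → V ⊕ V' → Prop
  | .inl x, .inl y => R x y
  | .inr x, .inr y => R' x y
  | _, _ => c

/-- The smallest class of finite graphs with loops allowed (symmetric relations) that contains
the graphs whose adjacency relation is totally positive of order two for some row order and some
column order (in particular the graphs with one vertex) and is closed under disjoint unions,
joins, tensor products and isomorphisms. -/
inductive Host : (V : Type) → (V → V → Prop) → Prop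
  | ordered (V : Type) [Fintype V] [Nonempty V] (R : V → V → Prop)
      (symm : ∀ x y, R x y → R y x) (h : ∃ r c, GraphOrders R r c) : Host V R
  | union {V V' : Type} {R : V → V → Prop} {R' : V' → V' → Prop} :
      Host V R → Host V' R' → Host (V ⊕ V') (glueRel False R R')
  | join {V V' : Type} {R : V → V → Prop} {R' : V' → V' → Prop} :
      Host V R → Host V' R' → Host (V ⊕ V') (glueRel True R R')
  | tensor {V V' : Type} {R : V → V → Prop} {R' : V' → V' → Prop} :
      Host V R → Host V' R' → Host (V × V') (fun x y => R x.1 y.1 ∧ R' x.2 y.2)
  | iso {V V' : Type} {R : V → V → Prop} (e : V ≃ V') :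
      Host V R → Host V' (fun x y => R (e.symm x) (e.symm y))

/-- Cographs (complement reducible graphs, equivalently the graphs without induced path on four
vertices): the smallest class of finite graphs that contains the one-vertex graph and is closed
under disjoint unions, complements and isomorphisms. -/
inductive Cograph : (V : Type) → SimpleGraph V → Prop
  | single : Cograph Unit ⊥
  | union {V V' : Type} {G : SimpleGraph V} {G' : SimpleGraph V'} :
      Cograph V G → Cograph V' G' → Cograph (V ⊕ V') (G ⊕g G')
  | compl {V : Type} {G : SimpleGraph V} : Cograph V G → Cograph V Gᶜ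
  | iso {V V' : Type} {G : SimpleGraph V} {G' : SimpleGraph V'} (e : G ≃g G') :
      Cograph V G → Cograph V' G'

end Vale.Agent.P050
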