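import Vale.Agent.P050.Host

/-!
# P050 (Sidorenko): from kernels to graphs
-/

open Finset

namespace Vale.Agent.P050

section

variable {V : Type*} [Fintype V]

open Classical in
/-- The indicator kernel of a set of pairs. -/
noncomputable def ind (S : Set (Sym2 V)) : Sym2 V → ℝ := fun z => if z ∈ S then 1 else 0

omit [Fintype V] in
theorem ind_nonneg (S : Set (Sym2 V)) (z : Sym2 V) : 0 ≤ ind S z := by
  unfold ind
  split_ifs <;> norm_num

/-- Homomorphisms of `H` into a set of pairs. -/
def Hm {U : Type*} (H : SimpleGraph U) (S : Set (Sym2 V)) : Type _ :=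
  {f : U → V // ∀ u v, H.Adj u v → s(f u, f v) ∈ S}

theorem dens_ind (S : Set (Sym2 V)) (m : ℝ) {U : Type*} [Fintype U] [DecidableEq U]
    (H : SimpleGraph U) [DecidableRel H.Adj] :
    dens (fun _ => m) (ind S) H = m ^ Fintype.card U * (Nat.card (Hm H S) : ℝ) := by
  classical
  unfold dens
  have h1 : ∀ f : U → V, (∏ _u : U, m) * ∏ e ∈ H.edgeFinset, ind S (e.map f) =
      m ^ Fintype.card U * (if ∀ u v, H.Adj u v → s(f u, f v) ∈ S then 1 else 0) := by
    intro f
    rw [prod_const, card_univ]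
    congr 1
    unfold ind
    rw [Finset.prod_ite_zero, prod_const_one]
    have h2 : (∀ e ∈ H.edgeFinset, Sym2.map f e ∈ S) ↔
        ∀ u v, H.Adj u v → s(f u, f v) ∈ S := by
      constructor
      · intro h u v huv
        have := h s(u, v) ((SimpleGraph.mem_edgeFinset).2 huv)
        rwa [Sym2.map_mk] at this
      · intro h e
        induction e using Sym2.ind with
        | _ a b =>
          intro he
          rw [Sym2.map_mk]
          exact h a b ((SimpleGraph.mem_edgeFinset).1 he)
    simp only [h2]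
  rw [sum_congr rfl fun f _ => h1 f, ← mul_sum]
  congr 1
  rw [sum_boole]
  congr 1
  have : Nat.card (Hm H S) = Fintype.card {f : U → V // ∀ u v, H.Adj u v → s(f u, f v) ∈ S} := by
    unfold Hm
    exact Nat.card_eq_fintype_card
  rw [this, Fintype.card_subtype]

theorem edgeDens_graph (G : SimpleGraph V) [DecidableRel G.Adj] (m : ℝ) :
    edgeDens (fun _ => m) (ind G.edgeSet) = m ^ 2 * (2 * (G.edgeFinset.card : ℝ)) := by
  unfold edgeDens
  have h0 : ∀ x y : V, ind G.edgeSet s(x, y) = if G.Adj x y then (1 : ℝ) else 0 := by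
    intro x y
    unfold ind
    by_cases h : G.Adj x y
    · rw [if_pos (G.mem_edgeSet.2 h), if_pos h]
    · rw [if_neg (fun h' => h (G.mem_edgeSet.1 h')), if_neg h]
  have h1 : ∀ x : V, ∑ y : V, m * m * ind G.edgeSet s(x, y) = m ^ 2 * (G.degree x : ℝ) := by
    intro x
    rw [← mul_sum, ← pow_two, sum_congr rfl fun y _ => h0 x y, sum_boole]
    congr 2
    rw [← SimpleGraph.card_neighborFinset_eq_degree]
    congr 1
    ext y
    simp
  rw [sum_congr rfl fun x _ => h1 x, ← mul_sum]
  congr 1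
  have := G.sum_degrees_eq_twice_card_edges
  exact_mod_cast this

omit [Fintype V] in
theorem hom_card (G : SimpleGraph V) {U : Type*} (H : SimpleGraph U) :
    Nat.card (Hm H G.edgeSet) = Nat.card (H →g G) := by
  refine Nat.card_congr ⟨fun f => ⟨f.1, fun {u v} h => f.2 u v h⟩,
    fun f => ⟨f, fun u v h => f.map_rel h⟩, fun f => rfl, fun f => rfl⟩

theorem ind_orders {R : V → V → Prop} (hR : Std.Symm R) {r c : V ≃ Fin (Fintype.card V)}
    (h : GraphOrders R r c) : TPOrders (ind (Sym2.fromRel hR)) r c := by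
  intro x x' y y' hx hy
  by_cases h1 : R x y' ∧ R x' y
  · obtain ⟨h2, h3⟩ := h x x' y y' hx hy h1.1 h1.2
    have e : ∀ a b, R a b → ind (Sym2.fromRel hR) s(a, b) = 1 := by
      intro a b hab
      unfold ind
      rw [if_pos (Sym2.fromRel_prop.2 hab)]
    rw [e _ _ h1.1, e _ _ h1.2, e _ _ h2, e _ _ h3]
  · have e : ∀ a b, ¬ R a b → ind (Sym2.fromRel hR) s(a, b) = 0 := by
      intro a b hab
      unfold ind
      rw [if_neg (fun h' => hab (Sym2.fromRel_prop.1 h'))]
    have h0 : ind (Sym2.fromRel hR) s(x, y') * ind (Sym2.fromRel hR) s(x', y) = 0 := by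
      rw [not_and_or] at h1
      rcases h1 with h1 | h1
      · rw [e _ _ h1, zero_mul]
      · rw [e _ _ h1, mul_zero]
    rw [h0]
    exact mul_nonneg (ind_nonneg _ _) (ind_nonneg _ _)

end

theorem final_form {V U : Type*} [Fintype V] [Nonempty V] (G : SimpleGraph V)
    [DecidableRel G.Adj] [Fintype U] [DecidableEq U] (H : SimpleGraph U) [DecidableRel H.Adj]
    (h : edgeDens (fun _ : V => (1 / (Fintype.card V : ℝ))) (ind G.edgeSet) ^
        H.edgeFinset.card ≤ dens (fun _ : V => (1 / (Fintype.card V : ℝ))) (ind G.edgeSet) H) :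
    (2 * (G.edgeFinset.card : ℝ) / (Fintype.card V : ℝ) ^ 2) ^ H.edgeFinset.card ≤
      (Nat.card (H →g G) : ℝ) / (Fintype.card V : ℝ) ^ Fintype.card U := by
  rw [dens_ind, edgeDens_graph, hom_card] at h
  have e1 : (1 / (Fintype.card V : ℝ)) ^ 2 * (2 * (G.edgeFinset.card : ℝ)) =
      2 * (G.edgeFinset.card : ℝ) / (Fintype.card V : ℝ) ^ 2 := by
    rw [div_pow, one_pow]
    ring
  have e2 : (1 / (Fintype.card V : ℝ)) ^ Fintype.card U * (Nat.card (H →g G) : ℝ) =
      (Nat.card (H →g G) : ℝ) / (Fintype.card V : ℝ) ^ Fintype.card U := by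
    rw [div_pow, one_pow]
    ring
  rw [e1, e2] at h
  exact h

theorem edgeSet_fromRel {V : Type*} (G : SimpleGraph V) :
    (Sym2.fromRel G.symm : Set (Sym2 V)) = G.edgeSet := by
  ext z
  induction z using Sym2.ind with
  | _ a b => rw [Sym2.fromRel_prop, SimpleGraph.mem_edgeSet]

theorem graph_bip {V U : Type*} [Fintype V] [Nonempty V] (G : SimpleGraph V)
    [DecidableRel G.Adj] (hG : ∃ r c, GraphOrders G.Adj r c) [Fintype U] [DecidableEq U]
    (H : SimpleGraph U) [DecidableRel H.Adj] (hH : H.Colorable 2) :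
    (2 * (G.edgeFinset.card : ℝ) / (Fintype.card V : ℝ) ^ 2) ^ H.edgeFinset.card ≤
      (Nat.card (H →g G) : ℝ) / (Fintype.card V : ℝ) ^ Fintype.card U := by
  apply final_form
  have hc : (0 : ℝ) < Fintype.card V := by exact_mod_cast Fintype.card_pos
  refine host_bip (fun _ => by positivity) ?_ (ind_nonneg _) ?_ H hH
  · rw [sum_const, card_univ, nsmul_eq_mul]
    field_simp
  · obtain ⟨r, c, h⟩ := hG
    have := ind_orders G.symm h
    rw [edgeSet_fromRel] at this
    exact ⟨r, c, this⟩

/-- Transport along a bijection of the host. -/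
theorem dens_equiv {V V' U : Type*} [Fintype V] [Fintype V'] [Fintype U] [DecidableEq U]
    (φ : V ≃ V') (μ : V' → ℝ) (W : Sym2 V' → ℝ) (H : SimpleGraph U) [DecidableRel H.Adj] :
    dens (fun x => μ (φ x)) (fun z => W (z.map φ)) H = dens μ W H := by
  unfold dens
  rw [← (Equiv.arrowCongr (Equiv.refl U) φ).sum_comp]
  refine sum_congr rfl fun f _ => ?_
  congr 1
  refine prod_congr rfl fun e _ => ?_
  simp only
  rw [Sym2.map_map]
  rfl

theorem edgeDens_equiv {V V' : Type*} [Fintype V] [Fintype V']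
    (φ : V ≃ V') (μ : V' → ℝ) (W : Sym2 V' → ℝ) :
    edgeDens (fun x => μ (φ x)) (fun z => W (z.map φ)) = edgeDens μ W := by
  unfold edgeDens
  rw [← φ.sum_comp]
  refine sum_congr rfl fun x _ => ?_
  rw [← φ.sum_comp]
  rfl

theorem graph_prod {V U : Type*} [Fintype V] [Nonempty V] (G : SimpleGraph V)
    [DecidableRel G.Adj] {I : Type*} [Fintype I] [DecidableEq I] {F : I → Type*}
    [∀ k, Fintype (F k)] {R : ∀ k, F k → F k → Prop} (φ : V ≃ ∀ k, F k)
    (hR' : ∀ k x y, R k x y → R k y x) (hO : ∀ k, ∃ r c, GraphOrders (R k) r c)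
    (hG : ∀ x y, G.Adj x y ↔ ∀ k, R k (φ x k) (φ y k)) [Fintype U] [DecidableEq U]
    (H : SimpleGraph U) [DecidableRel H.Adj] (hH : H.Colorable 2) :
    (2 * (G.edgeFinset.card : ℝ) / (Fintype.card V : ℝ) ^ 2) ^ H.edgeFinset.card ≤
      (Nat.card (H →g G) : ℝ) / (Fintype.card V : ℝ) ^ Fintype.card U := by
  classical
  have hR : ∀ k, Std.Symm (R k) := fun k => ⟨hR' k⟩
  apply final_form
  obtain ⟨x0⟩ := ‹Nonempty V›
  have hne : ∀ k, Nonempty (F k) := fun k => ⟨φ x0 k⟩
  have hc : ∀ k, (0 : ℝ) < Fintype.card (F k) := fun k => by exact_mod_cast Fintype.card_pos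
  have key := prod_bip (μ := fun k (_ : F k) => 1 / (Fintype.card (F k) : ℝ))
    (W := fun k => ind (Sym2.fromRel (hR k))) (fun k _ => by have := hc k; positivity)
    (fun k => by
      rw [sum_const, card_univ, nsmul_eq_mul]
      have := hc k
      field_simp) (fun k => ind_nonneg _)
    (fun k => by
      obtain ⟨r, c, h⟩ := hO k
      exact ⟨r, c, ind_orders (hR k) h⟩) H hH
  set μ' : (∀ k, F k) → ℝ := fun _ => ∏ k, 1 / (Fintype.card (F k) : ℝ) with hμ'
  set W' : Sym2 (∀ k, F k) → ℝ := fun z => ∏ k, ind (Sym2.fromRel (hR k))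
    (z.map fun x => x k) with hW'
  have e1 : (fun _ : V => (1 / (Fintype.card V : ℝ))) = fun x => μ' (φ x) := by
    funext x
    simp only [hμ']
    rw [prod_div_distrib, prod_const_one, Fintype.card_congr φ, Fintype.card_pi]
    push_cast
    rfl
  have e2 : (ind G.edgeSet : Sym2 V → ℝ) = fun z => W' (z.map φ) := by
    funext z
    induction z using Sym2.ind with
    | _ a b =>
      simp only [hW', Sym2.map_mk]
      by_cases hab : G.Adj a b
      · have h1 : ∀ k, ind (Sym2.fromRel (hR k)) s(φ a k, φ b k) = 1 := by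
          intro k
          unfold ind
          rw [if_pos (Sym2.fromRel_prop.2 ((hG a b).1 hab k))]
        rw [prod_congr rfl fun k _ => h1 k, prod_const_one]
        unfold ind
        rw [if_pos (G.mem_edgeSet.2 hab)]
      · have h1 : ∃ k, ¬ R k (φ a k) (φ b k) := by
          by_contra h2
          push Not at h2
          exact hab ((hG a b).2 h2)
        obtain ⟨k, hk⟩ := h1
        rw [prod_eq_zero (mem_univ k)]
        · unfold ind
          rw [if_neg (fun h' => hab (G.mem_edgeSet.1 h'))]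
        · unfold ind
          rw [if_neg (fun h' => hk (Sym2.fromRel_prop.1 h'))]
  rw [e1, e2, edgeDens_equiv φ μ' W', dens_equiv φ μ' W' H]
  exact key

end Vale.Agent.P050
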