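import Vale.Agent.P050.Clo
import Vale.Agent.P050.Graph
import Vale.Agent.P050.CoDefs

/-!
# P050 (Sidorenko): good hosts, closure properties and cographs
-/

open Finset

namespace Vale.Agent.P050.Clo

theorem good_of_sid {V : Type} [Fintype V] {μ : V → ℝ} {W : Sym2 V → ℝ}
    (h : Sid μ μ (fun x y => W s(x, y))) : Good μ W := by
  intro U _ _ H _ hH
  obtain ⟨C⟩ := hH
  have hC : ∀ u v, H.Adj u v → C u ≠ C v := fun u v h => C.valid h
  have h1 := h U (fun u => decide (C u = 0)) (orEdges H C) (fun e he => by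
    have := orEdges_side hC e he
    exact ⟨decide_eq_true this.1, decide_eq_false this.2⟩)
  rw [card_orEdges hC] at h1
  refine h1.trans (le_of_eq ?_)
  unfold Z dens
  refine sum_congr rfl fun σ _ => ?_
  rw [prod_orEdges hC]
  congr 1
  refine prod_congr rfl fun u _ => ?_
  simp only [ite_self]

theorem sid_of_good {V : Type} [Fintype V] {μ : V → ℝ} {W : Sym2 V → ℝ} (h : Good μ W) :
    Sid μ μ (fun x y => W s(x, y)) := by
  intro U _ _ side E hE
  classical
  let H : SimpleGraph U := SimpleGraph.fromRel (fun u v => (u, v) ∈ E)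
  let C : U → Fin 2 := fun u => if side u = true then 0 else 1
  have hC : ∀ u v, H.Adj u v → C u ≠ C v := by
    intro u v huv
    rcases (SimpleGraph.fromRel_adj _ _ _).1 huv with ⟨_, h1 | h1⟩
    · have h2 := hE _ h1
      simp only [C, h2.1, h2.2, if_true, if_false, Bool.false_eq_true]
      decide
    · have h2 := hE _ h1
      simp only [C, h2.1, h2.2, if_true, if_false, Bool.false_eq_true]
      decide
  have hEE : orEdges H C = E := by
    ext ⟨u, v⟩
    rw [orEdges, mem_filter]
    simp only [mem_univ, true_and]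
    constructor
    · rintro ⟨h1, h2⟩
      rcases (SimpleGraph.fromRel_adj _ _ _).1 h1 with ⟨_, h3 | h3⟩
      · exact h3
      · have h4 := hE _ h3
        simp only [C, h4.2, if_false, Bool.false_eq_true] at h2
        exact absurd h2 (by decide)
    · intro h1
      have h4 := hE _ h1
      refine ⟨(SimpleGraph.fromRel_adj _ _ _).2 ⟨?_, Or.inl h1⟩, ?_⟩
      · rintro rfl
        rw [h4.1] at h4
        exact absurd h4.2 (by decide)
      · simp only [C, h4.1, if_true]
  have h1 := h U H ⟨⟨C, fun {u v} huv => hC u v huv⟩⟩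
  rw [← card_orEdges hC, hEE] at h1
  refine h1.trans (le_of_eq ?_)
  unfold Z dens
  refine sum_congr rfl fun σ _ => ?_
  rw [prod_orEdges hC, hEE]
  congr 1
  refine prod_congr rfl fun u _ => ?_
  simp only [ite_self]

theorem glueKer_eq {V V' : Type} (s c s' : ℝ) (W : Sym2 V → ℝ) (W' : Sym2 V' → ℝ)
    (x y : V ⊕ V') : glueKer s c s' W W' s(x, y) =
      sumK (fun i j => if i = true then (if j = true then s else c) else
        (if j = true then c else s')) (fun x y => W s(x, y)) (fun x y => W' s(x, y)) x y := by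
  rcases x with x | x <;> rcases y with y | y <;> simp [glueKer, sumK]

/-- Gluing good hosts gives good hosts. -/
theorem good_glue {V V' : Type} [Fintype V] [Fintype V'] {μ : V → ℝ} {μ' : V' → ℝ}
    {W : Sym2 V → ℝ} {W' : Sym2 V' → ℝ} {t s c s' : ℝ} (ht : 0 < t) (ht1 : t < 1)
    (hs : 0 ≤ s) (hc : 0 ≤ c) (hs' : 0 ≤ s') (hμ : ∀ x, 0 ≤ μ x) (hμ1 : ∑ x, μ x = 1)
    (hμ' : ∀ x, 0 ≤ μ' x) (hμ1' : ∑ x, μ' x = 1) (hW : ∀ z, 0 ≤ W z) (hW' : ∀ z, 0 ≤ W' z)
    (h : Good μ W) (h' : Good μ' W') : Good (glueWt t μ μ') (glueKer s c s' W W') := by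
  apply good_of_sid
  have h1 := sid_sum (a := fun i => if i = true then t else 1 - t)
    (b := fun i => if i = true then t else 1 - t)
    (C := fun i j => if i = true then (if j = true then s else c) else
        (if j = true then c else s'))
    (fun i => by
      split_ifs
      · exact ht
      · linarith) (by simp [Fintype.sum_bool])
    (fun i => by
      split_ifs
      · exact ht
      · linarith) (by simp [Fintype.sum_bool])
    (fun i j => by
      split_ifs
      · exact hs
      · exact hc
      · exact hc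
      · exact hs')
    ⟨hμ, hμ1⟩ ⟨hμ, hμ1⟩ (fun x y => hW s(x, y)) ⟨hμ', hμ1'⟩ ⟨hμ', hμ1'⟩
    (fun x y => hW' s(x, y)) (sid_of_good h) (sid_of_good h')
  have h2 : (fun x y => glueKer s c s' W W' s(x, y)) =
      sumK (fun i j => if i = true then (if j = true then s else c) else
        (if j = true then c else s')) (fun x y => W s(x, y)) (fun x y => W' s(x, y)) := by
    funext x y
    exact glueKer_eq s c s' W W' x y
  rw [h2]
  exact h1

open Classical in
/-- The indicator of a relation. -/
noncomputable def rk {V : Type} (R : V → V → Prop) (x y : V) : ℝ := if R x y then 1 else 0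

theorem rk_nonneg {V : Type} (R : V → V → Prop) (x y : V) : 0 ≤ rk R x y := by
  unfold rk
  split_ifs <;> norm_num

theorem rk_congr {V V' : Type} {R : V → V → Prop} {R' : V' → V' → Prop} {x y : V} {x' y' : V'}
    (h : R x y ↔ R' x' y') : rk R x y = rk R' x' y' := by
  unfold rk
  by_cases h1 : R x y
  · rw [if_pos h1, if_pos (h.1 h1)]
  · rw [if_neg h1, if_neg (fun h2 => h1 (h.2 h2))]

theorem rk_eq_ind {V : Type} {R : V → V → Prop} (hR : Std.Symm R) (x y : V) :
    ind (Sym2.fromRel hR) s(x, y) = rk R x y := by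
  unfold ind rk
  by_cases h : R x y
  · rw [if_pos (Sym2.fromRel_prop.2 h), if_pos h]
  · rw [if_neg (fun h' => h (Sym2.fromRel_prop.1 h')), if_neg h]

/-- The uniform weight. -/
noncomputable def uw (V : Type) [Fintype V] : V → ℝ := fun _ => 1 / (Fintype.card V : ℝ)

theorem uw_wt (V : Type) [Fintype V] [Nonempty V] : Wt (uw V) := by
  have hc : (0 : ℝ) < Fintype.card V := by exact_mod_cast Fintype.card_pos
  refine ⟨fun _ => by unfold uw; positivity, ?_⟩
  unfold uw
  rw [sum_const, card_univ, nsmul_eq_mul]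
  field_simp

theorem sid_glueRel {V V' : Type} [Fintype V] [Nonempty V] [Fintype V'] [Nonempty V']
    (c : Prop) {R : V → V → Prop} {R' : V' → V' → Prop} (h : Sid (uw V) (uw V) (rk R))
    (h' : Sid (uw V') (uw V') (rk R')) :
    Sid (uw (V ⊕ V')) (uw (V ⊕ V')) (rk (glueRel c R R')) := by
  classical
  have hc : (0 : ℝ) < Fintype.card V := by exact_mod_cast Fintype.card_pos
  have hc' : (0 : ℝ) < Fintype.card V' := by exact_mod_cast Fintype.card_pos
  set t : ℝ := Fintype.card V / (Fintype.card V + Fintype.card V') with ht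
  have ht0 : 0 < t := by positivity
  have ht1 : 1 - t = Fintype.card V' / (Fintype.card V + Fintype.card V') := by
    rw [ht]
    field_simp
    ring
  have ht2 : 0 < 1 - t := by
    rw [ht1]
    positivity
  have h1 := sid_sum (a := fun i => if i = true then t else 1 - t)
    (b := fun i => if i = true then t else 1 - t)
    (C := fun i j => if i = j then 1 else rk (fun _ _ : Unit => c) () ())
    (fun i => by
      split_ifs
      · exact ht0
      · exact ht2) (by simp [Fintype.sum_bool])
    (fun i => by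
      split_ifs
      · exact ht0
      · exact ht2) (by simp [Fintype.sum_bool])
    (fun i j => by
      split_ifs
      · exact zero_le_one
      · exact rk_nonneg _ _ _)
    (uw_wt V) (uw_wt V) (rk_nonneg R) (uw_wt V') (uw_wt V') (rk_nonneg R') h h'
  have h2 : sumK (fun i j => if i = j then (1 : ℝ) else rk (fun _ _ : Unit => c) () ())
      (rk R) (rk R') = rk (glueRel c R R') := by
    funext x y
    rcases x with x | x <;> rcases y with y | y
    · simp only [sumK, if_true, one_mul]
      exact rk_congr Iff.rfl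
    · simp only [sumK, reduceCtorEq, if_false]
      exact rk_congr Iff.rfl
    · simp only [sumK, reduceCtorEq, if_false]
      exact rk_congr Iff.rfl
    · simp only [sumK, if_true, one_mul]
      exact rk_congr Iff.rfl
  have h3 : (Sum.elim (fun x => (if true = true then t else 1 - t) * uw V x)
      (fun y => (if false = true then t else 1 - t) * uw V' y) : V ⊕ V' → ℝ) =
      uw (V ⊕ V') := by
    funext x
    rcases x with x | x
    · simp only [Sum.elim_inl, if_true, uw, Fintype.card_sum, Nat.cast_add, ht]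
      field_simp
    · simp only [Sum.elim_inr, if_false, uw, Fintype.card_sum, Nat.cast_add, ht1,
        Bool.false_eq_true]
      field_simp
  rw [h2] at h1
  rw [← h3]
  exact h1

theorem sid_tensorRel {V V' : Type} [Fintype V] [Nonempty V] [Fintype V'] [Nonempty V']
    {R : V → V → Prop} {R' : V' → V' → Prop} (h : Sid (uw V) (uw V) (rk R))
    (h' : Sid (uw V') (uw V') (rk R')) :
    Sid (uw (V × V')) (uw (V × V')) (rk fun x y => R x.1 y.1 ∧ R' x.2 y.2) := by
  classical
  have h1 := sid_tensor (uw_wt V).nonneg (uw_wt V).nonneg (rk_nonneg R) (uw_wt V').nonneg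
    (uw_wt V').nonneg (rk_nonneg R') h h'
  have h2 : (fun z z' : V × V' => rk R z.1 z'.1 * rk R' z.2 z'.2) =
      rk fun x y => R x.1 y.1 ∧ R' x.2 y.2 := by
    funext x y
    unfold rk
    by_cases h3 : R x.1 y.1 <;> by_cases h4 : R' x.2 y.2 <;> simp [h3, h4]
  have h3 : (fun z : V × V' => uw V z.1 * uw V' z.2) = uw (V × V') := by
    funext x
    simp only [uw, Fintype.card_prod, Nat.cast_mul]
    rw [one_div_mul_one_div]
  rw [h2, h3] at h1
  exact h1

theorem sid_isoRel {V V' : Type} [Fintype V] [Fintype V'] {R : V → V → Prop} (e : V ≃ V')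
    (h : Sid (uw V) (uw V) (rk R)) :
    Sid (uw V') (uw V') (rk fun x y => R (e.symm x) (e.symm y)) := by
  classical
  have h1 : ∀ x, ∑ x' ∈ univ.filter (fun x' => e.symm x' = x), uw V' x' = uw V x := by
    intro x
    rw [fiber_equiv e.symm (uw V') x]
    unfold uw
    rw [Fintype.card_congr e]
  exact (sid_push (fun x => e.symm x) (fun x => e.symm x) h1 h1).2 h

theorem host_sid {V : Type} {R : V → V → Prop} (h : Host V R) :
    Nonempty V ∧ (∀ x y, R x y → R y x) ∧
      ∃ (_ : Fintype V), Sid (uw V) (uw V) (rk R) := by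
  classical
  induction h with
  | ordered V R symm h =>
    refine ⟨inferInstance, symm, inferInstance, ?_⟩
    have hR : Std.Symm R := ⟨symm⟩
    have hc : (0 : ℝ) < Fintype.card V := by exact_mod_cast Fintype.card_pos
    have hg : Good (uw V) (ind (Sym2.fromRel hR)) := by
      intro U _ _ H _ hH
      refine host_bip (fun _ => ?_) (uw_wt V).sum_one (ind_nonneg _) ?_ H hH
      · unfold uw
        positivity
      · obtain ⟨r, c, h⟩ := h
        exact ⟨r, c, ind_orders hR h⟩
    have h1 := sid_of_good hg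
    have h2 : (fun x y => ind (Sym2.fromRel hR) s(x, y)) = rk R := by
      funext x y
      exact rk_eq_ind hR x y
    rw [h2] at h1
    exact h1
  | @union V V' R R' _ _ h h' =>
    obtain ⟨n1, s1, f1, k1⟩ := h
    obtain ⟨n2, s2, f2, k2⟩ := h'
    refine ⟨⟨Sum.inl n1.some⟩, ?_, inferInstance, sid_glueRel False k1 k2⟩
    rintro (x | x) (y | y) hxy
    · exact s1 _ _ hxy
    · exact hxy
    · exact hxy
    · exact s2 _ _ hxy
  | @join V V' R R' _ _ h h' =>
    obtain ⟨n1, s1, f1, k1⟩ := h
    obtain ⟨n2, s2, f2, k2⟩ := h'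
    refine ⟨⟨Sum.inl n1.some⟩, ?_, inferInstance, sid_glueRel True k1 k2⟩
    rintro (x | x) (y | y) hxy
    · exact s1 _ _ hxy
    · exact hxy
    · exact hxy
    · exact s2 _ _ hxy
  | @tensor V V' R R' _ _ h h' =>
    obtain ⟨n1, s1, f1, k1⟩ := h
    obtain ⟨n2, s2, f2, k2⟩ := h'
    exact ⟨⟨(n1.some, n2.some)⟩, fun x y hxy => ⟨s1 _ _ hxy.1, s2 _ _ hxy.2⟩, inferInstance,
      sid_tensorRel k1 k2⟩
  | @iso V V' R e _ h =>
    obtain ⟨n1, s1, f1, k1⟩ := h
    have f2 : Fintype V' := Fintype.ofEquiv V e
    exact ⟨⟨e n1.some⟩, fun x y hxy => s1 _ _ hxy, f2, sid_isoRel e k1⟩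

end Vale.Agent.P050.Clo
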