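import Vale.Agent.P050.CoG

/-!
# P050 (Sidorenko): counting form, cographs
-/

open Finset

namespace Vale.Agent.P050.Clo

theorem good_host {V : Type} {R : V → V → Prop} (h : Host V R) [inst : Fintype V]
    (hR : Std.Symm R) : Good (uw V) (ind (Sym2.fromRel hR)) := by
  obtain ⟨_, _, f, k⟩ := host_sid h
  have hf : f = inst := Subsingleton.elim _ _
  subst hf
  apply good_of_sid
  have h2 : (fun x y => ind (Sym2.fromRel hR) s(x, y)) = rk R := by
    funext x y
    exact rk_eq_ind hR x y
  rw [h2]
  exact k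

theorem edgeDens_rel {V : Type} [Fintype V] {R : V → V → Prop} (hR : Std.Symm R) (m : ℝ) :
    edgeDens (fun _ : V => m) (ind (Sym2.fromRel hR)) =
      m ^ 2 * (Nat.card {p : V × V // R p.1 p.2} : ℝ) := by
  classical
  unfold edgeDens
  have h1 : ∀ x y : V, m * m * ind (Sym2.fromRel hR) s(x, y) =
      m ^ 2 * (if R (x, y).1 (x, y).2 then 1 else 0) := by
    intro x y
    rw [rk_eq_ind hR, pow_two]
    unfold rk
    by_cases h : R x y
    · rw [if_pos h]
    · rw [if_neg h]
  rw [sum_congr rfl fun x _ => sum_congr rfl fun y _ => h1 x y,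
    ← Fintype.sum_prod_type (fun p : V × V => m ^ 2 * (if R p.1 p.2 then (1 : ℝ) else 0)),
    ← mul_sum, sum_boole, Nat.card_eq_fintype_card, Fintype.card_subtype]

theorem host_count {V : Type} {R : V → V → Prop} (h : Host V R) [Fintype V]
    {U : Type} [Fintype U] [DecidableEq U] (H : SimpleGraph U) [DecidableRel H.Adj]
    (hH : H.Colorable 2) :
    ((Nat.card {p : V × V // R p.1 p.2} : ℝ) / (Fintype.card V : ℝ) ^ 2) ^ H.edgeFinset.card ≤
      (Nat.card {f : U → V // ∀ u v, H.Adj u v → R (f u) (f v)} : ℝ) /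
        (Fintype.card V : ℝ) ^ Fintype.card U := by
  have hs : ∀ x y, R x y → R y x := (host_sid h).2.1
  have hR : Std.Symm R := ⟨hs⟩
  have h1 := good_host h hR U H hH
  unfold uw at h1
  rw [dens_ind, edgeDens_rel] at h1
  have h2 : Nat.card (Hm H (Sym2.fromRel hR : Set (Sym2 V))) =
      Nat.card {f : U → V // ∀ u v, H.Adj u v → R (f u) (f v)} := by
    refine Nat.card_congr (Equiv.subtypeEquivRight fun f => ?_)
    simp only [Sym2.fromRel_prop]
  rw [h2] at h1
  have e1 : ∀ a : ℝ, (1 / (Fintype.card V : ℝ)) ^ 2 * a = a / (Fintype.card V : ℝ) ^ 2 := by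
    intro a
    rw [div_pow, one_pow]
    ring
  have e2 : ∀ a : ℝ, (1 / (Fintype.card V : ℝ)) ^ Fintype.card U * a =
      a / (Fintype.card V : ℝ) ^ Fintype.card U := by
    intro a
    rw [div_pow, one_pow]
    ring
  rw [e1, e2] at h1
  exact h1

theorem host_subsingleton {V : Type} [Finite V] [Nonempty V] [Subsingleton V]
    (R : V → V → Prop) : Host V R := by
  have := Fintype.ofFinite V
  refine Host.ordered V R (fun x y h => ?_) ⟨Fintype.equivFin V, Fintype.equivFin V, ?_⟩
  · rwa [Subsingleton.elim y x, Subsingleton.elim x y] at *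
  · intro x x' y y' _ _ h1 h2
    rw [Subsingleton.elim y' y] at h1
    rw [Subsingleton.elim x' y', Subsingleton.elim y y'] at h2
    exact ⟨h1, by rw [Subsingleton.elim x' y']; exact h2⟩

theorem cograph_host {V : Type} {G : SimpleGraph V} (h : Cograph V G) :
    Host V G.Adj ∧ Host V Gᶜ.Adj := by
  induction h with
  | single => exact ⟨host_subsingleton _, host_subsingleton _⟩
  | @union V V' G G' _ _ h h' =>
    constructor
    · have e : (G ⊕g G').Adj = glueRel False G.Adj G'.Adj := by
        funext x y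
        rcases x with x | x <;> rcases y with y | y <;> simp [glueRel]
      rw [e]
      exact Host.union h.1 h'.1
    · have e : (G ⊕g G')ᶜ.Adj = glueRel True Gᶜ.Adj G'ᶜ.Adj := by
        funext x y
        rcases x with x | x <;> rcases y with y | y <;>
          simp [glueRel, SimpleGraph.compl_adj]
      rw [e]
      exact Host.join h.2 h'.2
  | @compl V G _ h =>
    rw [compl_compl]
    exact ⟨h.2, h.1⟩
  | @iso V V' G G' e _ h =>
    constructor
    · have e1 : G'.Adj = fun x y => G.Adj (e.toEquiv.symm x) (e.toEquiv.symm y) := by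
        funext x y
        have := e.symm.map_adj_iff (v := x) (w := y)
        exact propext this.symm
      rw [e1]
      exact Host.iso e.toEquiv h.1
    · have e1 : G'ᶜ.Adj = fun x y => Gᶜ.Adj (e.toEquiv.symm x) (e.toEquiv.symm y) := by
        funext x y
        have h2 := e.symm.map_adj_iff (v := x) (w := y)
        have h3 : (e.toEquiv.symm x = e.toEquiv.symm y) ↔ x = y :=
          e.toEquiv.symm.injective.eq_iff
        rw [SimpleGraph.compl_adj, SimpleGraph.compl_adj]
        refine propext ?_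
        rw [ne_eq, ne_eq, h3]
        exact and_congr Iff.rfl (not_congr h2.symm)
      rw [e1]
      exact Host.iso e.toEquiv h.2

theorem graph_of_host {V U : Type} [Fintype V] (G : SimpleGraph V) [DecidableRel G.Adj]
    (hG : Host V G.Adj) [Fintype U] [DecidableEq U] (H : SimpleGraph U) [DecidableRel H.Adj]
    (hH : H.Colorable 2) :
    (2 * (G.edgeFinset.card : ℝ) / (Fintype.card V : ℝ) ^ 2) ^ H.edgeFinset.card ≤
      (Nat.card (H →g G) : ℝ) / (Fintype.card V : ℝ) ^ Fintype.card U := by
  have hne : Nonempty V := (host_sid hG).1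
  apply final_form
  have h1 := good_host hG G.symm U H hH
  rw [edgeSet_fromRel] at h1
  exact h1

/-- Tensor products of good hosts are good. -/
theorem good_tensor {V V' : Type} [Fintype V] [Fintype V'] {μ : V → ℝ} {μ' : V' → ℝ}
    {W : Sym2 V → ℝ} {W' : Sym2 V' → ℝ} (hμ : ∀ x, 0 ≤ μ x)
    (hμ' : ∀ x, 0 ≤ μ' x) (hW : ∀ z, 0 ≤ W z) (hW' : ∀ z, 0 ≤ W' z)
    (h : Good μ W) (h' : Good μ' W') :
    Good (fun x : V × V' => μ x.1 * μ' x.2)
      (fun z => W (z.map Prod.fst) * W' (z.map Prod.snd)) := by
  have h1 := sid_tensor hμ hμ (fun x y => hW s(x, y)) hμ' hμ' (fun x y => hW' s(x, y))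
    (sid_of_good h) (sid_of_good h')
  refine good_of_sid ?_
  have e : (fun x y : V × V' => W (Sym2.map Prod.fst s(x, y)) * W' (Sym2.map Prod.snd s(x, y))) =
      fun z z' : V × V' => W s(z.1, z'.1) * W' s(z.2, z'.2) := by
    funext x y
    rw [Sym2.map_mk, Sym2.map_mk]
  rw [e]
  exact h1

end Vale.Agent.P050.Clo
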