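import Mathlib

/-!
# P050 (Sidorenko): definitions for the hand-in
-/

open Finset

namespace Vale.Agent.P050

/-- The homomorphism density `t(H, W)` of a finite graph `H` in a weighted finite host: `V` is the
vertex set of the host, `μ x` is the mass of the vertex `x`, and `W s(x, y)` is the weight of the
unordered pair `s(x, y)` (loops `x = y` allowed). -/
noncomputable def dens {V U : Type*} [Fintype V] [Fintype U] [DecidableEq U] (μ : V → ℝ)
    (W : Sym2 V → ℝ) (H : SimpleGraph U) [DecidableRel H.Adj] : ℝ :=
  ∑ φ : U → V, (∏ u, μ (φ u)) * ∏ e ∈ H.edgeFinset, W (e.map φ)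

/-- The edge density `t(K_2, W)`. -/
noncomputable def edgeDens {V : Type*} [Fintype V] (μ : V → ℝ) (W : Sym2 V → ℝ) : ℝ :=
  ∑ x, ∑ y, μ x * μ y * W s(x, y)

/-- The kernel `W` is totally positive of order two when the rows are listed in the order `r` and
the columns in the order `c`. -/
def TPOrders {V : Type*} [Fintype V] (W : Sym2 V → ℝ) (r c : V ≃ Fin (Fintype.card V)) : Prop :=
  ∀ x x' y y' : V, r x ≤ r x' → c y ≤ c y' →
    W s(x, y') * W s(x', y) ≤ W s(x, y) * W s(x', y')

/-- The same for a graph: if `x` is before `x'` in the row order and `y` is before `y'` in the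
column order, and `x ~ y'` and `x' ~ y`, then `x ~ y` and `x' ~ y'`. -/
def GraphOrders {V : Type*} [Fintype V] (R : V → V → Prop) (r c : V ≃ Fin (Fintype.card V)) :
    Prop :=
  ∀ x x' y y' : V, r x ≤ r x' → c y ≤ c y' → R x y' → R x' y → R x y ∧ R x' y'

end Vale.Agent.P050
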