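import Vale.Agent.P050.Graph

/-!
# P050 (Sidorenko): bipartite permutation graphs
-/

open Finset

namespace Vale.Agent.P050

theorem exists_order {V : Type*} [Fintype V] (f : V → ℕ) (hf : Function.Injective f) :
    ∃ r : V ≃ Fin (Fintype.card V), ∀ x y, r x ≤ r y ↔ f x ≤ f y := by
  classical
  have hS : (univ.image f).card = Fintype.card V := by
    rw [card_image_of_injective _ hf, card_univ]
  let e1 : V ≃ {n // n ∈ univ.image f} :=
    Equiv.ofBijective (fun x => ⟨f x, mem_image_of_mem _ (mem_univ _)⟩) (by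
      constructor
      · intro x y h
        exact hf (congrArg Subtype.val h)
      · rintro ⟨n, hn⟩
        obtain ⟨x, -, rfl⟩ := mem_image.1 hn
        exact ⟨x, rfl⟩)
  let e2 := (univ.image f).orderIsoOfFin hS
  refine ⟨e1.trans e2.symm.toEquiv, fun x y => ?_⟩
  change e2.symm (e1 x) ≤ e2.symm (e1 y) ↔ _
  rw [e2.symm.le_iff_le]
  exact Iff.rfl

theorem perm_bip {a b : ℕ} (B : Fin a → Fin b → Prop)
    (hB : ∀ i i' j j', i ≤ i' → j ≤ j' → B i j' → B i' j → B i j ∧ B i' j')
    (G : SimpleGraph (Fin a ⊕ Fin b))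
    (hG : ∀ x y, G.Adj x y ↔ (∃ i j, x = Sum.inl i ∧ y = Sum.inr j ∧ B i j) ∨
      (∃ i j, x = Sum.inr j ∧ y = Sum.inl i ∧ B i j)) :
    ∃ r c, GraphOrders G.Adj r c := by
  have h1 : ∀ i j, G.Adj (Sum.inl i) (Sum.inr j) ↔ B i j := by
    intro i j
    rw [hG]
    simp
  have h2 : ∀ i j, G.Adj (Sum.inr j) (Sum.inl i) ↔ B i j := by
    intro i j
    rw [hG]
    simp
  have h3 : ∀ i i', ¬ G.Adj (Sum.inl i) (Sum.inl i') := by
    intro i i'
    rw [hG]
    simp
  have h4 : ∀ j j', ¬ G.Adj (Sum.inr j) (Sum.inr j') := by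
    intro j j'
    rw [hG]
    simp
  obtain ⟨r, hr⟩ := exists_order (V := Fin a ⊕ Fin b)
    (Sum.elim (fun i => (i : ℕ)) (fun j => a + (j : ℕ))) (by
      rintro (i | i) (j | j) h
      · simp only [Sum.elim_inl] at h
        rw [Fin.ext h]
      · simp only [Sum.elim_inl, Sum.elim_inr] at h
        have := i.2
        omega
      · simp only [Sum.elim_inl, Sum.elim_inr] at h
        have := j.2
        omega
      · simp only [Sum.elim_inr] at h
        have : i = j := Fin.ext (by omega)
        rw [this])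
  obtain ⟨c, hc⟩ := exists_order (V := Fin a ⊕ Fin b)
    (Sum.elim (fun i => b + (i : ℕ)) (fun j => (j : ℕ))) (by
      rintro (i | i) (j | j) h
      · simp only [Sum.elim_inl] at h
        have : i = j := Fin.ext (by omega)
        rw [this]
      · simp only [Sum.elim_inl, Sum.elim_inr] at h
        have := j.2
        omega
      · simp only [Sum.elim_inl, Sum.elim_inr] at h
        have := i.2
        omega
      · simp only [Sum.elim_inr] at h
        rw [Fin.ext h])
  refine ⟨r, c, ?_⟩
  intro x x' y y' hx hy hxy hxy'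
  rw [hr] at hx
  rw [hc] at hy
  rcases x with i | j <;> rcases y' with i' | j'
  · exact absurd hxy (h3 _ _)
  · rcases x' with k | l <;> rcases y with k' | l'
    · exact absurd hxy' (h3 _ _)
    · rw [h1] at hxy hxy' ⊢
      rw [h1]
      exact hB _ _ _ _ (by simpa using hx) (by simpa using hy) hxy hxy'
    · exfalso
      simp only [Sum.elim_inl, Sum.elim_inr] at hy
      have := j'.2
      omega
    · exact absurd hxy' (h4 _ _)
  · rcases x' with k | l <;> rcases y with k' | l'
    · exact absurd hxy' (h3 _ _)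
    · exfalso
      simp only [Sum.elim_inl, Sum.elim_inr] at hx
      have := k.2
      omega
    · rw [h2] at hxy hxy' ⊢
      rw [h2]
      have := hB k' i' j l (by simpa using hy) (by simpa using hx) hxy' hxy
      exact this
    · exact absurd hxy' (h4 _ _)
  · exact absurd hxy (h4 _ _)

end Vale.Agent.P050
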