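import Vale.Agent.P050.Seinsche
import Vale.Agent.P050.CoH

/-!
# P050 (Sidorenko): graphs with loops whose simple part has no induced path on four vertices
-/

open Finset

namespace Vale.Agent.P050.Sei

theorem fromRel_adj' {V : Type} {R : V → V → Prop} (hR : ∀ x y, R x y → R y x) (x y : V) :
    (SimpleGraph.fromRel R).Adj x y ↔ x ≠ y ∧ R x y := by
  rw [SimpleGraph.fromRel_adj]
  constructor
  · rintro ⟨h1, h2 | h2⟩
    · exact ⟨h1, h2⟩
    · exact ⟨h1, hR _ _ h2⟩
  · rintro ⟨h1, h2⟩
    exact ⟨h1, Or.inl h2⟩

theorem induce_fromRel {V : Type} {R : V → V → Prop} (s : Set V) :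
    (SimpleGraph.fromRel fun x y : s => R x y) = (SimpleGraph.fromRel R).induce s := by
  ext x y
  rw [SimpleGraph.fromRel_adj, SimpleGraph.comap_adj, SimpleGraph.fromRel_adj]
  simp only [Function.Embedding.subtype_apply, ne_eq, Subtype.ext_iff]

theorem host_split {V : Type} {R : V → V → Prop} (c : Prop) (s : Set V)
    (hs : ∀ x ∈ s, ∀ y ∉ s, (R x y ↔ c)) (hR : ∀ x y, R x y → R y x)
    (h : Host (s ⊕ (sᶜ : Set V)) (glueRel c (fun x y => R x y) (fun x y => R x y))) :
    Host V R := by
  classical
  have h1 := Host.iso (Equiv.Set.sumCompl s) h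
  have h2 : (fun x y => glueRel c (fun x y : s => R x y) (fun x y : (sᶜ : Set V) => R x y)
      ((Equiv.Set.sumCompl s).symm x) ((Equiv.Set.sumCompl s).symm y)) = R := by
    funext x y
    by_cases hx : x ∈ s <;> by_cases hy : y ∈ s
    · rw [Equiv.Set.sumCompl_symm_apply_of_mem hx, Equiv.Set.sumCompl_symm_apply_of_mem hy]
      rfl
    · rw [Equiv.Set.sumCompl_symm_apply_of_mem hx, Equiv.Set.sumCompl_symm_apply_of_notMem hy]
      exact propext (hs x hx y hy).symm
    · rw [Equiv.Set.sumCompl_symm_apply_of_notMem hx, Equiv.Set.sumCompl_symm_apply_of_mem hy]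
      exact propext ((hs y hy x hx).symm.trans ⟨hR _ _, hR _ _⟩)
    · rw [Equiv.Set.sumCompl_symm_apply_of_notMem hx,
        Equiv.Set.sumCompl_symm_apply_of_notMem hy]
      rfl
  rw [h2] at h1
  exact h1

theorem host_aux (n : ℕ) : ∀ (V : Type) [Fintype V] [Nonempty V] (R : V → V → Prop),
    (∀ x y, R x y → R y x) → Fintype.card V = n → P4F (SimpleGraph.fromRel R) →
    Host V R := by
  classical
  induction n using Nat.strong_induction_on with
  | _ n ih =>
    intro V _ _ R hR hn hG
    by_cases h2 : 2 ≤ Fintype.card V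
    · obtain ⟨s, _, hs1, hs2, hs⟩ := split hG univ (by rwa [card_univ])
      have hc1 : s.card < n := by
        rw [← hn]
        have h3 : (univ \ s).card = Fintype.card V - s.card := by
          rw [card_sdiff_of_subset (subset_univ _), card_univ]
        have h4 := hs2.card_pos
        omega
      have hc2 : Fintype.card V - s.card < n := by
        have h4 := hs1.card_pos
        omega
      have k1 : Host ((s : Set V) : Type) (fun x y => R x y) := by
        obtain ⟨x, hx⟩ := hs1
        have : Nonempty ((s : Set V) : Type) := ⟨⟨x, mem_coe.2 hx⟩⟩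
        refine ih s.card hc1 _ _ (fun x y h => hR _ _ h) ?_ ?_
        · simp
        · rw [induce_fromRel]
          exact hG.induce _
      have k2 : Host (((s : Set V)ᶜ : Set V) : Type) (fun x y => R x y) := by
        obtain ⟨x, hx⟩ := hs2
        have : Nonempty (((s : Set V)ᶜ : Set V) : Type) :=
          ⟨⟨x, fun h => (mem_sdiff.1 hx).2 (mem_coe.1 h)⟩⟩
        refine ih (Fintype.card V - s.card) hc2 _ _ (fun x y h => hR _ _ h) ?_ ?_
        · rw [← Set.toFinset_card, Set.toFinset_compl, Finset.card_compl]
          simp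
        · rw [induce_fromRel]
          exact hG.induce _
      have hne : ∀ x ∈ (s : Set V), ∀ y ∉ (s : Set V), x ≠ y := by
        rintro x hx y hy rfl
        exact hy hx
      rcases hs with hs | hs
      · refine host_split False (s : Set V) (fun x hx y hy => ?_) hR (Host.union k1 k2)
        have h3 := hs x (mem_coe.1 hx) y
          (mem_sdiff.2 ⟨mem_univ _, fun h => hy (mem_coe.2 h)⟩)
        rw [fromRel_adj' hR] at h3
        exact ⟨fun h => h3 ⟨hne x hx y hy, h⟩, fun h => h.elim⟩
      · refine host_split True (s : Set V) (fun x hx y hy => ?_) hR (Host.join k1 k2)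
        have h3 := hs x (mem_coe.1 hx) y
          (mem_sdiff.2 ⟨mem_univ _, fun h => hy (mem_coe.2 h)⟩)
        rw [fromRel_adj' hR] at h3
        exact ⟨fun _ => trivial, fun _ => h3.2⟩
    · have h3 : Fintype.card V = 1 := by
        have := Fintype.card_pos (α := V)
        omega
      have : Subsingleton V := Fintype.card_le_one_iff_subsingleton.1 h3.le
      exact Clo.host_subsingleton R

theorem P4F_of_isEmpty {V : Type} (G : SimpleGraph V)
    (h : IsEmpty (SimpleGraph.pathGraph 4 ↪g G)) : P4F G := by
  classical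
  intro a b c d h1 h2 h3 h4 h5
  by_contra h6
  have hac : a ≠ c := by
    rintro rfl
    exact h6 h3
  have hbd : b ≠ d := by
    rintro rfl
    exact h6 h1
  have had : a ≠ d := by
    rintro rfl
    exact h4 h3.symm
  have h4' : ¬ G.Adj c a := fun h => h4 h.symm
  have h5' : ¬ G.Adj d b := fun h => h5 h.symm
  have h6' : ¬ G.Adj d a := fun h => h6 h.symm
  have hab := h1.ne
  have hbc := h2.ne
  have hcd := h3.ne
  refine h.false ⟨⟨![a, b, c, d], ?_⟩, ?_⟩
  · intro i j hij
    fin_cases i <;> fin_cases j <;> simp_all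
  · intro i j
    change G.Adj (![a, b, c, d] i) (![a, b, c, d] j) ↔ (SimpleGraph.pathGraph 4).Adj i j
    rw [SimpleGraph.pathGraph_adj]
    fin_cases i <;> fin_cases j <;>
      simp [h1, h2, h3, h4, h5, h6, h1.symm, h2.symm, h3.symm, h4', h5', h6']

/-- Graphs with loops whose simple part has no induced path on four vertices are hosts. -/
theorem host_of_P4_free {V : Type} [Fintype V] [Nonempty V] {R : V → V → Prop}
    (hR : ∀ x y, R x y → R y x)
    (h : IsEmpty (SimpleGraph.pathGraph 4 ↪g SimpleGraph.fromRel R)) : Host V R :=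
  host_aux _ V R hR rfl (P4F_of_isEmpty _ h)

end Vale.Agent.P050.Sei
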