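import Vale.Agent.P050.Graph
import Vale.Agent.P050.Perm
import Vale.Agent.P050.SeiLoop

/-!
# P050 (Sidorenko): all hosts with at most four vertices
-/

open Finset

namespace Vale.Agent.P050.Four

theorem p4_orders {V : Type} [Fintype V] (G : SimpleGraph V)
    (f : SimpleGraph.pathGraph 4 ↪g G) (hV : Fintype.card V ≤ 4) :
    ∃ r c, GraphOrders G.Adj r c := by
  classical
  have hcard : Fintype.card V = 4 :=
    le_antisymm hV (by simpa using Fintype.card_le_of_injective f f.injective)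
  have hb : Function.Bijective f :=
    (Fintype.bijective_iff_injective_and_card f).2 ⟨f.injective, by simp [hcard]⟩
  set e : Fin 4 ≃ V := Equiv.ofBijective f hb with he
  have hadj : ∀ i j, G.Adj (e i) (e j) ↔ ((i : ℕ) + 1 = j ∨ (j : ℕ) + 1 = i) := fun i j =>
    (f.map_adj_iff).trans SimpleGraph.pathGraph_adj
  obtain ⟨r, hr⟩ := exists_order (fun x => (![0, 2, 1, 3] : Fin 4 → ℕ) (e.symm x))
    ((by decide : Function.Injective (![0, 2, 1, 3] : Fin 4 → ℕ)).comp e.symm.injective)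
  obtain ⟨c, hc⟩ := exists_order (fun x => (![2, 0, 3, 1] : Fin 4 → ℕ) (e.symm x))
    ((by decide : Function.Injective (![2, 0, 3, 1] : Fin 4 → ℕ)).comp e.symm.injective)
  refine ⟨r, c, ?_⟩
  have key : ∀ i i' j j' : Fin 4, (![0, 2, 1, 3] : Fin 4 → ℕ) i ≤ (![0, 2, 1, 3] : Fin 4 → ℕ) i' →
      (![2, 0, 3, 1] : Fin 4 → ℕ) j ≤ (![2, 0, 3, 1] : Fin 4 → ℕ) j' →
      ((i : ℕ) + 1 = j' ∨ (j' : ℕ) + 1 = i) → ((i' : ℕ) + 1 = j ∨ (j : ℕ) + 1 = i') →
      ((i : ℕ) + 1 = j ∨ (j : ℕ) + 1 = i) ∧ ((i' : ℕ) + 1 = j' ∨ (j' : ℕ) + 1 = i') := by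
    decide
  intro x x' y y' hx hy h1 h2
  obtain ⟨i, rfl⟩ := e.surjective x
  obtain ⟨i', rfl⟩ := e.surjective x'
  obtain ⟨j, rfl⟩ := e.surjective y
  obtain ⟨j', rfl⟩ := e.surjective y'
  rw [hadj] at h1 h2 ⊢
  rw [hadj]
  have hx' := (hr _ _).1 hx
  have hy' := (hc _ _).1 hy
  simp only [Equiv.symm_apply_apply] at hx' hy'
  exact key i i' j j' hx' hy' h1 h2

/-- Every host graph with at most four vertices. -/
theorem four {V : Type} [Fintype V] [Nonempty V] (G : SimpleGraph V) [DecidableRel G.Adj]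
    (hV : Fintype.card V ≤ 4) {U : Type} [Fintype U] [DecidableEq U]
    (H : SimpleGraph U) [DecidableRel H.Adj] (hH : H.Colorable 2) :
    (2 * (G.edgeFinset.card : ℝ) / (Fintype.card V : ℝ) ^ 2) ^ H.edgeFinset.card ≤
      (Nat.card (H →g G) : ℝ) / (Fintype.card V : ℝ) ^ Fintype.card U := by
  by_cases h : IsEmpty (SimpleGraph.pathGraph 4 ↪g G)
  · exact Clo.graph_of_host G (Clo.cograph_host (Sei.cograph_of_P4_free G h)).1 H hH
  · rw [not_isEmpty_iff] at h
    obtain ⟨f⟩ := h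
    exact graph_bip G (p4_orders G f hV) H hH

/-- Every host with at most three vertices and arbitrary loops. -/
theorem three {V : Type} [Fintype V] [Nonempty V] (R : V → V → Prop)
    (hR : ∀ x y, R x y → R y x) (hV : Fintype.card V ≤ 3) {U : Type} [Fintype U]
    [DecidableEq U] (H : SimpleGraph U) [DecidableRel H.Adj] (hH : H.Colorable 2) :
    ((Nat.card {p : V × V // R p.1 p.2} : ℝ) / (Fintype.card V : ℝ) ^ 2) ^
        H.edgeFinset.card ≤
      (Nat.card {f : U → V // ∀ u v, H.Adj u v → R (f u) (f v)} : ℝ) /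
        (Fintype.card V : ℝ) ^ Fintype.card U := by
  refine Clo.host_count (Sei.host_of_P4_free hR ⟨fun f => ?_⟩) H hH
  have := Fintype.card_le_of_injective f f.injective
  rw [Fintype.card_fin] at this
  omega

end Vale.Agent.P050.Four
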