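import Vale.Agent.P050.Cap

/-!
# P050 (Sidorenko): the lower bound of the partition function by capacities
-/

open Finset Real

namespace Vale.Agent.P050

variable {V : Type*} [Fintype V] [DecidableEq V] {n : ℕ}

/-- The weight of a configuration. -/
noncomputable def wt (q h : V → Fin (n + 1) → ℝ) (K : Fin (n + 1) → Fin (n + 1) → ℝ)
    (E : Finset (V × V)) (σ : V → Fin (n + 1)) : ℝ :=
  (∏ v, q v (σ v) * exp (h v (σ v))) * ∏ e ∈ E, K (σ e.1) (σ e.2)

section

variable {q h : V → Fin (n + 1) → ℝ} {K : Fin (n + 1) → Fin (n + 1) → ℝ} {E : Finset (V × V)}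

omit [DecidableEq V] in
theorem wt_pos (hq : ∀ v x, 0 < q v x) (hK : ∀ i j, 0 < K i j) (σ : V → Fin (n + 1)) :
    0 < wt q h K E σ :=
  mul_pos (prod_pos fun _ _ => mul_pos (hq _ _) (exp_pos _)) (prod_pos fun _ _ => hK _ _)

omit [DecidableEq V] in
theorem wt_sup (hq : ∀ v x, 0 < q v x) (hK : ∀ i j, 0 < K i j) (tK : TP2 K)
    (σ τ : V → Fin (n + 1)) :
    wt q h K E σ * wt q h K E τ ≤ wt q h K E (σ ⊓ τ) * wt q h K E (σ ⊔ τ) := by
  unfold wt
  have h1 : (∏ v, q v (σ v) * exp (h v (σ v))) * (∏ v, q v (τ v) * exp (h v (τ v))) =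
      (∏ v, q v ((σ ⊓ τ) v) * exp (h v ((σ ⊓ τ) v))) *
      (∏ v, q v ((σ ⊔ τ) v) * exp (h v ((σ ⊔ τ) v))) := by
    rw [← prod_mul_distrib, ← prod_mul_distrib]
    refine prod_congr rfl fun v _ => ?_
    rw [Pi.inf_apply, Pi.sup_apply]
    rcases le_total (σ v) (τ v) with h | h
    · rw [inf_eq_left.2 h, sup_eq_right.2 h]
    · rw [inf_eq_right.2 h, sup_eq_left.2 h, mul_comm]
  have h2 : (∏ e ∈ E, K (σ e.1) (σ e.2)) * (∏ e ∈ E, K (τ e.1) (τ e.2)) ≤
      (∏ e ∈ E, K ((σ ⊓ τ) e.1) ((σ ⊓ τ) e.2)) * (∏ e ∈ E, K ((σ ⊔ τ) e.1) ((σ ⊔ τ) e.2)) := by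
    rw [← prod_mul_distrib, ← prod_mul_distrib]
    refine prod_le_prod (fun e _ => (mul_pos (hK _ _) (hK _ _)).le) fun e _ => ?_
    simp only [Pi.inf_apply, Pi.sup_apply]
    rcases le_total (σ e.1) (τ e.1) with h | h <;> rcases le_total (σ e.2) (τ e.2) with h' | h'
    · rw [inf_eq_left.2 h, sup_eq_right.2 h, inf_eq_left.2 h', sup_eq_right.2 h']
    · rw [inf_eq_left.2 h, sup_eq_right.2 h, inf_eq_right.2 h', sup_eq_left.2 h']
      exact tK _ _ _ _ h h'
    · rw [inf_eq_right.2 h, sup_eq_left.2 h, inf_eq_left.2 h', sup_eq_right.2 h', mul_comm]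
      exact tK _ _ _ _ h h'
    · rw [inf_eq_right.2 h, sup_eq_left.2 h, inf_eq_right.2 h', sup_eq_left.2 h', mul_comm]
  have h3 : 0 ≤ (∏ v, q v (σ v) * exp (h v (σ v))) * (∏ v, q v (τ v) * exp (h v (τ v))) :=
    (mul_pos (prod_pos fun v _ => mul_pos (hq _ _) (exp_pos _))
      (prod_pos fun v _ => mul_pos (hq _ _) (exp_pos _))).le
  calc _ = ((∏ v, q v (σ v) * exp (h v (σ v))) * (∏ v, q v (τ v) * exp (h v (τ v)))) *
        ((∏ e ∈ E, K (σ e.1) (σ e.2)) * (∏ e ∈ E, K (τ e.1) (τ e.2))) := by ring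
    _ ≤ ((∏ v, q v (σ v) * exp (h v (σ v))) * (∏ v, q v (τ v) * exp (h v (τ v)))) *
        ((∏ e ∈ E, K ((σ ⊓ τ) e.1) ((σ ⊓ τ) e.2)) *
          (∏ e ∈ E, K ((σ ⊔ τ) e.1) ((σ ⊔ τ) e.2))) := mul_le_mul_of_nonneg_left h2 h3
    _ = _ := by rw [h1]; ring

/-- The two-point matrix. -/
noncomputable def tw (q h : V → Fin (n + 1) → ℝ) (K : Fin (n + 1) → Fin (n + 1) → ℝ)
    (E : Finset (V × V)) (a b : V) (i j : Fin (n + 1)) : ℝ :=
  ∑ σ : V → Fin (n + 1), if σ a = i ∧ σ b = j then wt q h K E σ else 0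

theorem tw_tp (hq : ∀ v x, 0 < q v x) (hK : ∀ i j, 0 < K i j) (tK : TP2 K) (a b : V) :
    TP2 (tw q h K E a b) := by
  intro i i' j j' hi hj
  unfold tw
  have h0 : ∀ (i j : Fin (n + 1)), 0 ≤ (fun σ : V → Fin (n + 1) =>
      if σ a = i ∧ σ b = j then wt q h K E σ else 0) := by
    intro i j σ
    simp only [Pi.zero_apply]
    split_ifs
    · exact (wt_pos hq hK σ).le
    · exact le_rfl
  refine four_functions_theorem_univ (fun σ : V → Fin (n + 1) =>
      if σ a = i ∧ σ b = j' then wt q h K E σ else 0)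
    (fun σ => if σ a = i' ∧ σ b = j then wt q h K E σ else 0)
    (fun σ => if σ a = i ∧ σ b = j then wt q h K E σ else 0)
    (fun σ => if σ a = i' ∧ σ b = j' then wt q h K E σ else 0)
    (h0 _ _) (h0 _ _) (h0 _ _) (h0 _ _) ?_
  intro σ τ
  by_cases h1 : σ a = i ∧ σ b = j'
  · by_cases h2 : τ a = i' ∧ τ b = j
    · rw [if_pos h1, if_pos h2, if_pos, if_pos]
      · exact wt_sup hq hK tK σ τ
      · rw [Pi.sup_apply, Pi.sup_apply, h1.1, h1.2, h2.1, h2.2]
        exact ⟨sup_eq_right.2 hi, sup_eq_left.2 hj⟩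
      · rw [Pi.inf_apply, Pi.inf_apply, h1.1, h1.2, h2.1, h2.2]
        exact ⟨inf_eq_left.2 hi, inf_eq_right.2 hj⟩
    · rw [if_neg h2, mul_zero]
      exact mul_nonneg (h0 i j _) (h0 i' j' _)
  · rw [if_neg h1, zero_mul]
    exact mul_nonneg (h0 i j _) (h0 i' j' _)

theorem tw_pos (hq : ∀ v x, 0 < q v x) (hK : ∀ i j, 0 < K i j) {a b : V} (hab : a ≠ b)
    (i j : Fin (n + 1)) : 0 < tw q h K E a b i j := by
  unfold tw
  refine sum_pos' (fun σ _ => ?_) ⟨fun v => if v = a then i else j, mem_univ _, ?_⟩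
  · split_ifs
    · exact (wt_pos hq hK σ).le
    · exact le_rfl
  · rw [if_pos]
    · exact wt_pos hq hK _
    · simp [hab.symm]

theorem tw_sum (a b : V) (F : Fin (n + 1) → Fin (n + 1) → ℝ) :
    ∑ i, ∑ j, tw q h K E a b i j * F i j =
      ∑ σ : V → Fin (n + 1), wt q h K E σ * F (σ a) (σ b) := by
  unfold tw
  simp only [sum_mul]
  rw [sum_congr rfl fun i _ => sum_comm, sum_comm]
  refine sum_congr rfl fun σ _ => ?_
  rw [sum_eq_single (σ a), sum_eq_single (σ b)]
  · simp
  · intro j _ hj
    rw [if_neg (fun h => hj h.2.symm), zero_mul]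
  · intro h
    exact absurd (mem_univ _) h
  · intro i _ hi
    refine sum_eq_zero fun j _ => ?_
    rw [if_neg (fun h => hi h.1.symm), zero_mul]
  · intro h
    exact absurd (mem_univ _) h

end

theorem main_pos {q : V → Fin (n + 1) → ℝ} {K : Fin (n + 1) → Fin (n + 1) → ℝ}
    (hq : ∀ v x, 0 < q v x) (hq1 : ∀ v, ∑ x, q v x = 1) (hK : ∀ i j, 0 < K i j) (tK : TP2 K)
    {c : ℝ} (E : Finset (V × V)) :
    (∀ e ∈ E, e.1 ≠ e.2 ∧ CapF (q e.1) (q e.2) K c) →
    ∀ h : V → Fin (n + 1) → ℝ, (E.card : ℝ) * c + ∑ v, ∑ x, q v x * h v x ≤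
      log (∑ σ, wt q h K E σ) := by
  induction E using Finset.induction_on with
  | empty =>
    intro _ h
    rw [card_empty, Nat.cast_zero, zero_mul, zero_add]
    have h1 : ∑ σ, wt q h K ∅ σ = ∏ v, ∑ x, q v x * exp (h v x) := by
      rw [Finset.prod_univ_sum, Fintype.piFinset_univ]
      exact sum_congr rfl fun σ _ => by rw [wt, prod_empty, mul_one]
    rw [h1, log_prod]
    · refine sum_le_sum fun v _ => ?_
      have := log_jensen univ (q v) (fun x => exp (h v x)) (fun x _ => (hq v x).le) (hq1 v)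
        (fun x _ => exp_pos _)
      simpa only [log_exp] using this
    · intro v _
      exact (sum_pos (fun x _ => mul_pos (hq v x) (exp_pos _)) univ_nonempty).ne'
  | insert e E he ih =>
    intro hE h
    have hE' : ∀ e ∈ E, e.1 ≠ e.2 ∧ CapF (q e.1) (q e.2) K c := fun e' h' =>
      hE e' (mem_insert_of_mem h')
    obtain ⟨hne, hcap⟩ := hE e (mem_insert_self _ _)
    obtain ⟨a, b⟩ := e
    simp only at hne hcap
    set D : ℝ := (E.card : ℝ) * c + ∑ v, ∑ x, q v x * h v x with hD
    have hM : CapF (q a) (q b) (fun i j => tw q h K E a b i j / (q a i * q b j)) D := by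
      intro f g
      have h1 := ih hE' (fun v x => h v x + ((if v = a then f x else 0) +
        (if v = b then g x else 0)))
      have h2 : ∑ v, ∑ x, q v x * (h v x + ((if v = a then f x else 0) +
          (if v = b then g x else 0))) = ∑ v, ∑ x, q v x * h v x + ∑ x, q a x * f x +
          ∑ x, q b x * g x := by
        have h3 : ∀ v, ∑ x, q v x * (h v x + ((if v = a then f x else 0) +
          (if v = b then g x else 0))) = ∑ x, q v x * h v x +
          ((if v = a then ∑ x, q a x * f x else 0) + (if v = b then ∑ x, q b x * g x else 0)) := by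
          intro v
          rw [← sum_congr rfl fun x _ => (mul_add (q v x) _ _).symm, sum_add_distrib,
            ← sum_congr rfl fun x _ => (mul_add (q v x) _ _).symm, sum_add_distrib]
          congr 2
          · split_ifs with hv
            · rw [hv]
            · simp
          · split_ifs with hv
            · rw [hv]
            · simp
        rw [sum_congr rfl fun v _ => h3 v, sum_add_distrib, sum_add_distrib, sum_ite_eq',
          sum_ite_eq', if_pos (mem_univ _), if_pos (mem_univ _)]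
        ring
      have h4 : ∀ σ, wt q (fun v x => h v x + ((if v = a then f x else 0) +
        (if v = b then g x else 0))) K E σ = wt q h K E σ * exp (f (σ a) + g (σ b)) := by
        intro σ
        unfold wt
        have h5 : ∏ v, q v (σ v) * exp (h v (σ v) + ((if v = a then f (σ v) else 0) +
            (if v = b then g (σ v) else 0))) =
            (∏ v, q v (σ v) * exp (h v (σ v))) * exp (f (σ a) + g (σ b)) := by
          have h6 : exp (f (σ a) + g (σ b)) = ∏ v, exp ((if v = a then f (σ v) else 0) +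
            (if v = b then g (σ v) else 0)) := by
            rw [← exp_sum, sum_add_distrib, sum_ite_eq', sum_ite_eq', if_pos (mem_univ _),
              if_pos (mem_univ _)]
          rw [h6, ← prod_mul_distrib]
          exact prod_congr rfl fun v _ => by rw [exp_add]; ring
        rw [h5]
        ring
      have h7 : ∑ i, ∑ j, q a i * q b j * (tw q h K E a b i j / (q a i * q b j)) *
          exp (f i + g j) = ∑ σ, wt q h K E σ * exp (f (σ a) + g (σ b)) := by
        rw [← tw_sum a b (fun i j => exp (f i + g j))]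
        refine sum_congr rfl fun i _ => sum_congr rfl fun j _ => ?_
        have := (hq a i).ne'
        have := (hq b j).ne'
        field_simp
      rw [h7]
      rw [h2, sum_congr rfl fun σ _ => h4 σ] at h1
      rw [hD]
      linarith
    have hMpos : ∀ i j, 0 < tw q h K E a b i j / (q a i * q b j) := fun i j =>
      div_pos (tw_pos hq hK hne i j) (mul_pos (hq _ _) (hq _ _))
    have hMtp : TP2 (fun i j => tw q h K E a b i j / (q a i * q b j)) := by
      intro i i' j j' hi hj
      have h1 := tw_tp (h := h) (E := E) hq hK tK a b i i' j j' hi hj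
      have q1 := hq a i
      have q2 := hq a i'
      have q3 := hq b j
      have q4 := hq b j'
      simp only
      rw [div_mul_div_comm, div_mul_div_comm,
        show q a i * q b j' * (q a i' * q b j) = q a i * q b j * (q a i' * q b j') by ring]
      exact div_le_div_of_nonneg_right h1 (by positivity)
    have hfin := capF_mul (hq a) (hq1 a) (hq b) (hq1 b) hMpos hK hMtp tK hM hcap
      (fun _ => 0) (fun _ => 0)
    simp only [mul_zero, sum_const_zero, add_zero, exp_zero, mul_one] at hfin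
    have h8 : ∑ i, ∑ j, q a i * q b j * (tw q h K E a b i j / (q a i * q b j) * K i j) =
        ∑ σ, wt q h K (insert (a, b) E) σ := by
      have h9 : ∀ i j, q a i * q b j * (tw q h K E a b i j / (q a i * q b j) * K i j) =
          tw q h K E a b i j * K i j := by
        intro i j
        have := (hq a i).ne'
        have := (hq b j).ne'
        field_simp
      rw [sum_congr rfl fun i _ => sum_congr rfl fun j _ => h9 i j, tw_sum a b K]
      refine sum_congr rfl fun σ _ => ?_
      unfold wt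
      rw [prod_insert he]
      ring
    rw [h8] at hfin
    rw [card_insert_of_notMem he]
    push_cast
    linarith

end Vale.Agent.P050
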