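import Vale.Agent.P050.Perm
import Vale.Agent.P050.Cayley

/-!
# P050 (Sidorenko): good kernels, first members and closure properties
-/

open Finset

namespace Vale.Agent.P050

/-- The kernel `W` satisfies the Sidorenko inequality for all bipartite graphs. -/
def SidGood {V : Type} [Fintype V] (μ : V → ℝ) (W : Sym2 V → ℝ) : Prop :=
  ∀ (U : Type) [Fintype U] [DecidableEq U] (H : SimpleGraph U) [DecidableRel H.Adj],
    H.Colorable 2 → edgeDens μ W ^ H.edgeFinset.card ≤ dens μ W H

theorem good_tp {V : Type} [Fintype V] {μ : V → ℝ} {W : Sym2 V → ℝ} (hμ : ∀ x, 0 < μ x)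
    (hμ1 : ∑ x, μ x = 1) (hW : ∀ z, 0 ≤ W z) (hT : ∃ r c, TPOrders W r c) : SidGood μ W :=
  fun _ _ _ H _ hH => host_bip hμ hμ1 hW hT H hH

theorem good_cayley {A : Type} [AddCommGroup A] [Fintype A] {J : Type} [Fintype J]
    (c : J → ℝ) (ψ : J → AddChar A ℂ) (hc : ∀ j, 0 ≤ c j) (W : Sym2 A → ℝ)
    (hW : ∀ x y, ((W s(x, y) : ℝ) : ℂ) = ∑ j, (c j : ℂ) * ψ j (x - y)) :
    SidGood (fun _ : A => 1 / (Fintype.card A : ℝ)) W :=
  fun _ _ _ H _ _ => cayley_all c ψ hc W hW H

theorem good_prod {I : Type} [Fintype I] [DecidableEq I] {F : I → Type} [∀ k, Fintype (F k)]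
    {μ : ∀ k, F k → ℝ} {W : ∀ k, Sym2 (F k) → ℝ} (hμ : ∀ k x, 0 ≤ μ k x)
    (hW : ∀ k z, 0 ≤ W k z) (h : ∀ k, SidGood (μ k) (W k)) :
    SidGood (fun x : ∀ k, F k => ∏ k, μ k (x k)) (fun z => ∏ k, W k (z.map fun x => x k)) := by
  intro U _ _ H _ hH
  rw [dens_prod, edgeDens_prod, ← prod_pow]
  exact prod_le_prod (fun k _ => pow_nonneg (edgeDens_nonneg (hμ k) (hW k)) _)
    fun k _ => h k U H hH

/-- Monotone kernels on a finite distributive lattice with log-supermodular weights. -/
theorem good_mono {V : Type} [Fintype V] [DistribLattice V] {μ : V → ℝ} {W : Sym2 V → ℝ}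
    (hμ : ∀ x, 0 ≤ μ x) (hμ1 : ∑ x, μ x = 1) (hμs : ∀ x y, μ x * μ y ≤ μ (x ⊓ y) * μ (x ⊔ y))
    (hW : ∀ z, 0 ≤ W z) (hT : ∀ x x' y, x ≤ x' → W s(x, y) ≤ W s(x', y)) : SidGood μ W := by
  classical
  intro U _ _ H _ _
  have hT2 : ∀ x x' y y', x ≤ x' → y ≤ y' → W s(x, y) ≤ W s(x', y') := by
    intro x x' y y' hx hy
    refine (hT x x' y hx).trans ?_
    rw [Sym2.eq_swap (a := x') (b := y), Sym2.eq_swap (a := x') (b := y')]
    exact hT y y' x' hy
  set M : (U → V) → ℝ := fun φ => ∏ u, μ (φ u) with hM
  have hM0 : 0 ≤ M := fun φ => prod_nonneg fun u _ => hμ _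
  have hMs : ∀ φ χ, M φ * M χ ≤ M (φ ⊓ χ) * M (φ ⊔ χ) := by
    intro φ χ
    simp only [hM]
    rw [← prod_mul_distrib, ← prod_mul_distrib]
    exact prod_le_prod (fun u _ => mul_nonneg (hμ _) (hμ _)) fun u _ => hμs _ _
  have hM1 : ∑ φ, M φ = 1 := by
    simp only [hM]
    have : ∏ _u : U, ∑ x, μ x = ∑ φ : U → V, ∏ u, μ (φ u) := by
      rw [Finset.prod_univ_sum, Fintype.piFinset_univ]
    rw [← this, hμ1, prod_const_one]
  have hedge : ∀ e : Sym2 U, ¬ e.IsDiag → ∑ φ, M φ * W (e.map φ) = edgeDens μ W := by
    intro e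
    induction e using Sym2.ind with
    | _ a b =>
      intro hab
      rw [Sym2.mk_isDiag_iff] at hab
      have h1 : ∀ φ : U → V, M φ * W (s(a, b).map φ) =
          ∑ x, ∑ y, (if φ a = x ∧ φ b = y then 1 else 0) * (M φ * W s(x, y)) := by
        intro φ
        rw [sum_eq_single (φ a), sum_eq_single (φ b)]
        · simp
        · intro y _ hy
          rw [if_neg (fun h => hy h.2.symm), zero_mul]
        · intro h
          exact absurd (mem_univ _) h
        · intro x _ hx
          refine sum_eq_zero fun y _ => ?_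
          rw [if_neg (fun h => hx h.1.symm), zero_mul]
        · intro h
          exact absurd (mem_univ _) h
      rw [sum_congr rfl fun φ _ => h1 φ, sum_comm]
      unfold edgeDens
      refine sum_congr rfl fun x _ => ?_
      rw [sum_comm]
      refine sum_congr rfl fun y _ => ?_
      have h2 : ∀ φ : U → V, (if φ a = x ∧ φ b = y then (1 : ℝ) else 0) * (M φ * W s(x, y)) =
          (∏ u, (if u = a then (if φ u = x then μ x else 0) else
            if u = b then (if φ u = y then μ y else 0) else μ (φ u))) * W s(x, y) := by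
        intro φ
        have h3 : (if φ a = x ∧ φ b = y then (1 : ℝ) else 0) * M φ =
            ∏ u, (if u = a then (if φ u = x then μ x else 0) else
            if u = b then (if φ u = y then μ y else 0) else μ (φ u)) := by
          by_cases h : φ a = x ∧ φ b = y
          · rw [if_pos h, one_mul]
            refine prod_congr rfl fun u _ => ?_
            by_cases hu : u = a
            · rw [if_pos hu, hu, if_pos h.1, h.1]
            · rw [if_neg hu]
              by_cases hu' : u = b
              · rw [if_pos hu', hu', if_pos h.2, h.2]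
              · rw [if_neg hu']
          · rw [if_neg h, zero_mul]
            symm
            rw [not_and_or] at h
            rcases h with h | h
            · exact prod_eq_zero (mem_univ a) (by rw [if_pos rfl, if_neg h])
            · exact prod_eq_zero (mem_univ b) (by
                rw [if_neg (fun h' => hab h'.symm), if_pos rfl, if_neg h])
        rw [← mul_assoc, h3]
      rw [sum_congr rfl fun φ _ => h2 φ, ← sum_mul]
      congr 1
      have h4 := Finset.prod_univ_sum (fun _ : U => (univ : Finset V)) (fun u z =>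
        (if u = a then (if z = x then μ x else 0) else
            if u = b then (if z = y then μ y else 0) else μ z))
      rw [Fintype.piFinset_univ] at h4
      rw [← h4]
      have h5 : ∀ u : U, ∑ z : V, (if u = a then (if z = x then μ x else 0) else
            if u = b then (if z = y then μ y else 0) else μ z) =
          if u = a then μ x else if u = b then μ y else 1 := by
        intro u
        by_cases hu : u = a
        · simp only [if_pos hu, sum_ite_eq', mem_univ, if_true]
        · simp only [if_neg hu]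
          by_cases hu' : u = b
          · simp only [if_pos hu', sum_ite_eq', mem_univ, if_true]
          · simp only [if_neg hu', hμ1]
      rw [prod_congr rfl fun u _ => h5 u]
      rw [← mul_prod_erase univ _ (mem_univ a), if_pos rfl,
        ← mul_prod_erase (univ.erase a) _ (mem_erase.2 ⟨fun h => hab h.symm, mem_univ b⟩),
        if_neg (fun h => hab h.symm), if_pos rfl, prod_eq_one, mul_one]
      intro u hu
      rw [mem_erase, mem_erase] at hu
      rw [if_neg hu.2.1, if_neg hu.1]
  have hw0 : 0 ≤ edgeDens μ W := edgeDens_nonneg hμ hW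
  have key : ∀ E : Finset (Sym2 U), (∀ e ∈ E, ¬ e.IsDiag) →
      edgeDens μ W ^ E.card ≤ ∑ φ, M φ * ∏ e ∈ E, W (e.map φ) := by
    intro E
    induction E using Finset.induction_on with
    | empty =>
      intro _
      simp only [card_empty, pow_zero, prod_empty, mul_one, hM1, le_refl]
    | insert e E he ih =>
      intro hE
      have hmono : ∀ e : Sym2 U, Monotone fun φ : U → V => W (e.map φ) := by
        intro e φ χ h
        induction e using Sym2.ind with
        | _ a b =>
          simp only [Sym2.map_mk]
          exact hT2 _ _ _ _ (h a) (h b)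
      have h1 := fkg (μ := M) (f := fun φ => W (e.map φ)) (g := fun φ => ∏ e ∈ E, W (e.map φ))
        hM0 (fun φ => hW _) (fun φ => prod_nonneg fun e _ => hW _) (hmono e)
        (fun φ χ h => prod_le_prod (fun e _ => hW _) fun e _ => hmono e h) hMs
      rw [hM1, one_mul, hedge e (hE e (mem_insert_self _ _))] at h1
      rw [card_insert_of_notMem he, pow_succ']
      refine (mul_le_mul_of_nonneg_left (ih fun e' h => hE e' (mem_insert_of_mem h)) hw0).trans
        (h1.trans (le_of_eq ?_))
      exact sum_congr rfl fun φ _ => by rw [prod_insert he]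
  refine key H.edgeFinset fun e he => ?_
  exact H.not_isDiag_of_mem_edgeSet (SimpleGraph.mem_edgeFinset.1 he)

end Vale.Agent.P050
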