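import Vale.Agent.P050.Bip

/-!
# P050 (Sidorenko): symmetric totally positive kernels, arbitrary graphs
-/

open Finset Real

namespace Vale.Agent.P050

variable {V : Type*} [Fintype V] [DecidableEq V] {n : ℕ}

theorem sym_pos {K : Fin (n + 1) → Fin (n + 1) → ℝ} (hK : ∀ i j, 0 < K i j) (tK : TP2 K)
    (sK : ∀ i j, K i j = K j i)
    {α : Fin (n + 1) → ℝ} (hα : ∀ i, 0 < α i) (hα1 : ∑ i, α i = 1) (E : Finset (V × V))
    (hE : ∀ e ∈ E, e.1 ≠ e.2) :
    (∑ i, ∑ j, α i * α j * K i j) ^ E.card ≤
      ∑ σ : V → Fin (n + 1), (∏ v, α (σ v)) * ∏ e ∈ E, K (σ e.1) (σ e.2) := by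
  classical
  set w : ℝ := ∑ i, ∑ j, α i * α j * K i j with hw
  have hab : ∀ i j, 0 < α i * α j * K i j := fun i j => mul_pos (mul_pos (hα i) (hα j)) (hK i j)
  have hw0 : 0 < w := sum_pos (fun i _ => sum_pos (fun j _ => hab i j) univ_nonempty) univ_nonempty
  set πA : Fin (n + 1) → ℝ := fun i => (∑ j, α i * α j * K i j) / w with hπA
  have hA0 : ∀ i, 0 < πA i := fun i => div_pos (sum_pos (fun j _ => hab i j) univ_nonempty) hw0
  have hA1 : ∑ i, πA i = 1 := by
    rw [hπA, ← sum_div, ← hw, div_self hw0.ne']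
  have hA' : ∀ j, (∑ i, α i * α j * K i j) / w = πA j := by
    intro j
    rw [hπA]
    simp only
    congr 1
    exact sum_congr rfl fun i _ => by rw [sK i j]; ring
  set lA : Fin (n + 1) → ℝ := fun i => log (α i / πA i) with hlA
  have elA : ∀ i, πA i * exp (lA i) = α i := fun i => by
    rw [hlA]
    simp only
    rw [exp_log (div_pos (hα i) (hA0 i)), mul_div_cancel₀ _ (hA0 i).ne']
  set kA : ℝ := - ∑ i, πA i * lA i with hkA
  have hkA0 : 0 ≤ kA := by
    have h := log_jensen univ πA (fun i => α i / πA i) (fun i _ => (hA0 i).le) hA1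
      (fun i _ => div_pos (hα i) (hA0 i))
    have h2 : ∑ i, πA i * (α i / πA i) = 1 := by
      rw [← hα1]
      exact sum_congr rfl fun i _ => mul_div_cancel₀ _ (hA0 i).ne'
    rw [h2, log_one] at h
    rw [hkA]
    linarith
  have hcap : CapF πA πA K (log w + kA + kA) := by
    intro f g
    have h := log_jensen (univ : Finset (Fin (n + 1) × Fin (n + 1)))
      (fun z => α z.1 * α z.2 * K z.1 z.2 / w)
      (fun z => w * exp (f z.1 - lA z.1 + (g z.2 - lA z.2)))
      (fun z _ => (div_pos (hab _ _) hw0).le)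
      (by rw [← sum_div, Fintype.sum_prod_type, ← hw, div_self hw0.ne'])
      (fun z _ => mul_pos hw0 (exp_pos _))
    have h2 : ∑ z : Fin (n + 1) × Fin (n + 1), α z.1 * α z.2 * K z.1 z.2 / w *
        (w * exp (f z.1 - lA z.1 + (g z.2 - lA z.2))) =
        ∑ i, ∑ j, πA i * πA j * K i j * exp (f i + g j) := by
      rw [Fintype.sum_prod_type]
      refine sum_congr rfl fun i _ => sum_congr rfl fun j _ => ?_
      simp only
      rw [← elA i, ← elA j]
      have h3 : exp (f i + g j) = exp (lA i) * exp (lA j) *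
          exp (f i - lA i + (g j - lA j)) := by
        rw [← exp_add, ← exp_add]
        congr 1
        ring
      rw [h3]
      field_simp
    have h4 : ∑ z : Fin (n + 1) × Fin (n + 1), α z.1 * α z.2 * K z.1 z.2 / w *
        log (w * exp (f z.1 - lA z.1 + (g z.2 - lA z.2))) =
        log w + kA + kA + ∑ i, πA i * f i + ∑ j, πA j * g j := by
      have h5 : ∀ z : Fin (n + 1) × Fin (n + 1), α z.1 * α z.2 * K z.1 z.2 / w *
          log (w * exp (f z.1 - lA z.1 + (g z.2 - lA z.2))) =
          α z.1 * α z.2 * K z.1 z.2 / w * log w +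
          α z.1 * α z.2 * K z.1 z.2 / w * (f z.1 - lA z.1) +
          α z.1 * α z.2 * K z.1 z.2 / w * (g z.2 - lA z.2) := by
        intro z
        rw [log_mul hw0.ne' (exp_pos _).ne', log_exp]
        ring
      rw [sum_congr rfl fun z _ => h5 z, sum_add_distrib, sum_add_distrib]
      have h6 : ∑ z : Fin (n + 1) × Fin (n + 1), α z.1 * α z.2 * K z.1 z.2 / w * log w =
          log w := by
        rw [← sum_mul, ← sum_div, Fintype.sum_prod_type, ← hw, div_self hw0.ne', one_mul]
      have h7 : ∑ z : Fin (n + 1) × Fin (n + 1), α z.1 * α z.2 * K z.1 z.2 / w *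
          (f z.1 - lA z.1) = ∑ i, πA i * f i + kA := by
        rw [Fintype.sum_prod_type, hkA, ← sub_eq_add_neg, ← sum_sub_distrib]
        refine sum_congr rfl fun i _ => ?_
        simp only
        rw [← sum_mul, ← sum_div]
        simp only [hπA]
        ring
      have h8 : ∑ z : Fin (n + 1) × Fin (n + 1), α z.1 * α z.2 * K z.1 z.2 / w *
          (g z.2 - lA z.2) = ∑ j, πA j * g j + kA := by
        rw [Fintype.sum_prod_type, sum_comm, hkA, ← sub_eq_add_neg, ← sum_sub_distrib]
        refine sum_congr rfl fun i _ => ?_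
        simp only
        rw [← sum_mul, ← sum_div, hA' i]
        ring
      rw [h6, h7, h8]
      ring
    rw [h2, h4] at h
    exact h
  set tch : V → Prop := fun v => ∃ e ∈ E, e.1 = v ∨ e.2 = v with htch
  set q : V → Fin (n + 1) → ℝ := fun v => if tch v then πA else α with hq
  set h : V → Fin (n + 1) → ℝ := fun v => if tch v then lA else (fun _ => 0) with hh
  have hq0 : ∀ v x, 0 < q v x := by
    intro v x
    simp only [hq]
    split_ifs
    · exact hA0 x
    · exact hα x
  have hq1 : ∀ v, ∑ x, q v x = 1 := by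
    intro v
    simp only [hq]
    split_ifs
    · exact hA1
    · exact hα1
  have hEc : ∀ e ∈ E, e.1 ≠ e.2 ∧ CapF (q e.1) (q e.2) K (log w + kA + kA) := by
    intro e he
    refine ⟨hE e he, ?_⟩
    have t1 : tch e.1 := ⟨e, he, Or.inl rfl⟩
    have t2 : tch e.2 := ⟨e, he, Or.inr rfl⟩
    have q1 : q e.1 = πA := by simp only [hq]; rw [if_pos t1]
    have q2 : q e.2 = πA := by simp only [hq]; rw [if_pos t2]
    rw [q1, q2]
    exact hcap
  have hmain := main_pos hq0 hq1 hK tK E hEc h
  have hwt : ∀ σ, wt q h K E σ = (∏ v, α (σ v)) * ∏ e ∈ E, K (σ e.1) (σ e.2) := by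
    intro σ
    unfold wt
    congr 1
    refine prod_congr rfl fun v _ => ?_
    simp only [hq, hh]
    split_ifs
    · exact elA _
    · rw [exp_zero, mul_one]
  have hS : ∀ v, - ∑ x, q v x * h v x ≤
      ∑ e ∈ E, ((if e.1 = v then kA else 0) + (if e.2 = v then kA else 0)) := by
    intro v
    have hnn : ∀ e ∈ E, 0 ≤ ((if e.1 = v then kA else 0) + (if e.2 = v then kA else 0)) := by
      intro e _
      refine add_nonneg ?_ ?_ <;> split_ifs <;> first | exact hkA0 | exact le_rfl
    by_cases ht : tch v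
    · obtain ⟨e, he, hev⟩ := ht
      have ht : tch v := ⟨e, he, hev⟩
      refine le_trans ?_ (single_le_sum hnn he)
      have q1 : q v = πA := by simp only [hq]; rw [if_pos ht]
      have q2 : h v = lA := by simp only [hh]; rw [if_pos ht]
      rw [q1, q2, ← hkA]
      rcases hev with h' | h'
      · rw [if_pos h']
        split_ifs <;> linarith
      · rw [if_pos (c := e.2 = v) h']
        split_ifs <;> linarith
    · have q2 : h v = fun _ => 0 := by simp only [hh]; rw [if_neg ht]
      rw [q2]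
      simp only [mul_zero, sum_const_zero, neg_zero]
      exact sum_nonneg hnn
  have hSS : - ∑ v, ∑ x, q v x * h v x ≤ (E.card : ℝ) * (kA + kA) := by
    rw [← sum_neg_distrib]
    refine (sum_le_sum fun v _ => hS v).trans (le_of_eq ?_)
    rw [sum_comm]
    have : ∀ e ∈ E, ∑ v, ((if e.1 = v then kA else 0) + (if e.2 = v then kA else 0)) =
        kA + kA := by
      intro e _
      rw [sum_add_distrib, sum_ite_eq, sum_ite_eq, if_pos (mem_univ _), if_pos (mem_univ _)]
    rw [sum_congr rfl this, sum_const, nsmul_eq_mul]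
  have hlog : (E.card : ℝ) * log w ≤ log (∑ σ, wt q h K E σ) := by linarith
  have hZ : 0 < ∑ σ, wt q h K E σ := sum_pos (fun σ _ => wt_pos hq0 hK σ) univ_nonempty
  rw [← log_pow, log_le_log_iff (pow_pos hw0 _) hZ] at hlog
  rw [sum_congr rfl fun σ _ => hwt σ] at hlog
  exact hlog

theorem dd_comm (i j : Fin (n + 1)) : dd i j = dd j i := by
  unfold dd
  omega

theorem sm_symm {K : Fin (n + 1) → Fin (n + 1) → ℝ} (sK : ∀ i j, K i j = K j i) (ε : ℝ)
    (i j : Fin (n + 1)) : sm K ε i j = sm K ε j i := by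
  unfold sm
  simp only [sum_mul]
  rw [sum_comm]
  refine sum_congr rfl fun z _ => sum_congr rfl fun w _ => ?_
  rw [sK z w, dd_comm i z, dd_comm w j]
  ring

theorem sym_nonneg {K : Fin (n + 1) → Fin (n + 1) → ℝ} (hK : ∀ i j, 0 ≤ K i j) (tK : TP2 K)
    (sK : ∀ i j, K i j = K j i)
    {α : Fin (n + 1) → ℝ} (hα : ∀ i, 0 < α i) (hα1 : ∑ i, α i = 1) (E : Finset (V × V))
    (hE : ∀ e ∈ E, e.1 ≠ e.2) :
    (∑ i, ∑ j, α i * α j * K i j) ^ E.card ≤
      ∑ σ : V → Fin (n + 1), (∏ v, α (σ v)) * ∏ e ∈ E, K (σ e.1) (σ e.2) := by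
  by_cases h : ∃ a b, 0 < K a b
  · obtain ⟨a, b, hab⟩ := h
    set F : ℝ → ℝ := fun ε => ∑ σ : V → Fin (n + 1),
      (∏ v, α (σ v)) * ∏ e ∈ E, sm K ε (σ e.1) (σ e.2) -
      (∑ i, ∑ j, α i * α j * sm K ε i j) ^ E.card with hF
    have hc : Continuous F := by
      rw [hF]
      refine Continuous.sub ?_ ?_
      · refine continuous_finsetSum _ fun σ _ => Continuous.mul continuous_const ?_
        exact continuous_finsetProd _ fun e _ => sm_cont K _ _
      · refine Continuous.pow ?_ _
        refine continuous_finsetSum _ fun i _ => continuous_finsetSum _ fun j _ => ?_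
        exact Continuous.mul continuous_const (sm_cont K _ _)
    have hpos : ∀ ε : ℝ, 0 < ε → ε ≤ 1 → 0 ≤ F ε := by
      intro ε h0 h1
      have := sym_pos (sm_pos hK hab h0) (sm_tp tK h0.le h1) (sm_symm sK ε) hα hα1 E hE
      simp only [hF]
      linarith
    have h0 : 0 ≤ F 0 := by
      have ht : Filter.Tendsto F (nhdsWithin 0 (Set.Ioi 0)) (nhds (F 0)) :=
        hc.continuousAt.tendsto.mono_left nhdsWithin_le_nhds
      refine ge_of_tendsto ht ?_
      filter_upwards [Ioc_mem_nhdsGT (show (0 : ℝ) < 1 by norm_num)] with ε hε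
      exact hpos ε hε.1 hε.2
    simp only [hF, sm_zero] at h0
    linarith
  · push Not at h
    have hz : ∀ i j, K i j = 0 := fun i j => le_antisymm (h i j) (hK i j)
    by_cases hEe : E = ∅
    · subst hEe
      have := sym_pos (K := fun _ _ => (1 : ℝ)) (fun _ _ => one_pos)
        (fun _ _ _ _ _ _ => le_rfl) (fun _ _ => rfl) hα hα1 ∅ hE
      simpa only [card_empty, pow_zero, prod_empty] using this
    · have hE0 : E.card ≠ 0 := fun h' => hEe (card_eq_zero.1 h')
      have h1 : ∑ i, ∑ j, α i * α j * K i j = 0 :=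
        sum_eq_zero fun i _ => sum_eq_zero fun j _ => by rw [hz, mul_zero]
      rw [h1, zero_pow hE0]
      exact sum_nonneg fun σ _ => mul_nonneg (prod_nonneg fun v _ => (hα _).le)
        (prod_nonneg fun e _ => hK _ _)

end Vale.Agent.P050
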