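import Vale.Agent.P050.Defs
import Vale.Agent.P050.SymK

/-!
# P050 (Sidorenko): from matrices to hosts
-/

open Finset

namespace Vale.Agent.P050

section

variable {U : Type*} [Fintype U] [DecidableEq U] (H : SimpleGraph U) [DecidableRel H.Adj]

/-- The edges of a two-coloured graph, oriented. -/
def orEdges (C : U → Fin 2) : Finset (U × U) :=
  univ.filter fun p => H.Adj p.1 p.2 ∧ C p.1 = 0

variable {H}

omit [DecidableEq U] in
theorem orEdges_side {C : U → Fin 2} (hC : ∀ u v, H.Adj u v → C u ≠ C v) :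
    ∀ e ∈ orEdges H C, C e.1 = 0 ∧ ¬ C e.2 = 0 := by
  intro e he
  rw [orEdges, mem_filter] at he
  exact ⟨he.2.2, fun h => hC _ _ he.2.1 (he.2.2.trans h.symm)⟩

omit [DecidableEq U] in
theorem orEdges_inj {C : U → Fin 2} (hC : ∀ u v, H.Adj u v → C u ≠ C v) :
    Set.InjOn (fun p : U × U => s(p.1, p.2)) (orEdges H C : Set (U × U)) := by
  intro p hp q hq h
  have hp' := orEdges_side hC p hp
  have hq' := orEdges_side hC q hq
  rcases Sym2.eq_iff.1 h with h | h
  · exact Prod.ext h.1 h.2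
  · exact absurd (h.1 ▸ hp'.1) hq'.2

theorem orEdges_image {C : U → Fin 2} (hC : ∀ u v, H.Adj u v → C u ≠ C v) :
    (orEdges H C).image (fun p : U × U => s(p.1, p.2)) = H.edgeFinset := by
  ext e
  induction e using Sym2.ind with
  | _ a b =>
    rw [mem_image, SimpleGraph.mem_edgeFinset, SimpleGraph.mem_edgeSet]
    constructor
    · rintro ⟨p, hp, h⟩
      rw [orEdges, mem_filter] at hp
      rcases Sym2.eq_iff.1 h with h | h
      · rw [← h.1, ← h.2]
        exact hp.2.1
      · rw [← h.1, ← h.2]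
        exact hp.2.1.symm
    · intro h
      by_cases ha : C a = 0
      · exact ⟨(a, b), by rw [orEdges, mem_filter]; exact ⟨mem_univ _, h, ha⟩, rfl⟩
      · refine ⟨(b, a), ?_, Sym2.eq_swap⟩
        rw [orEdges, mem_filter]
        refine ⟨mem_univ _, h.symm, ?_⟩
        have := hC a b h
        simp only
        omega

theorem prod_orEdges {C : U → Fin 2} (hC : ∀ u v, H.Adj u v → C u ≠ C v) (f : Sym2 U → ℝ) :
    ∏ e ∈ H.edgeFinset, f e = ∏ p ∈ orEdges H C, f s(p.1, p.2) := by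
  rw [← orEdges_image hC, prod_image (orEdges_inj hC)]

theorem card_orEdges {C : U → Fin 2} (hC : ∀ u v, H.Adj u v → C u ≠ C v) :
    (orEdges H C).card = H.edgeFinset.card := by
  rw [← orEdges_image hC, card_image_of_injOn (orEdges_inj hC)]

end

section

variable {V : Type*} [Fintype V] {μ : V → ℝ} {W : Sym2 V → ℝ}

theorem host_aux {N : ℕ} (r c : V ≃ Fin N) (hμ : ∀ x, 0 < μ x) (hμ1 : ∑ x, μ x = 1)
    (hW : ∀ z, 0 ≤ W z)
    (hT : ∀ x x' y y' : V, r x ≤ r x' → c y ≤ c y' →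
      W s(x, y') * W s(x', y) ≤ W s(x, y) * W s(x', y'))
    {U : Type*} [Fintype U] [DecidableEq U] (H : SimpleGraph U) [DecidableRel H.Adj]
    (hH : H.Colorable 2) :
    edgeDens μ W ^ H.edgeFinset.card ≤ dens μ W H := by
  obtain _ | n := N
  · exfalso
    have : IsEmpty V := r.isEmpty
    simp at hμ1
  obtain ⟨C⟩ := hH
  have hC : ∀ u v, H.Adj u v → C u ≠ C v := fun u v h => C.valid h
  have h := bip_nonneg (V := U) (K := fun i j => W s(r.symm i, c.symm j)) (fun i j => hW _)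
    (fun i i' j j' hi hj => hT _ _ _ _ (by simpa using hi) (by simpa using hj))
    (α := fun i => μ (r.symm i)) (β := fun i => μ (c.symm i)) (fun i => hμ _)
    (by rw [← hμ1]; exact r.symm.sum_comp μ) (fun i => hμ _)
    (by rw [← hμ1]; exact c.symm.sum_comp μ) (fun u => C u = 0) (orEdges H C) (orEdges_side hC)
  rw [card_orEdges hC] at h
  have h1 : ∑ i, ∑ j, μ (r.symm i) * μ (c.symm j) * W s(r.symm i, c.symm j) = edgeDens μ W := by
    unfold edgeDens
    rw [← r.symm.sum_comp (fun x => ∑ y, μ x * μ y * W s(x, y))]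
    exact sum_congr rfl fun i _ => c.symm.sum_comp (fun y => μ (r.symm i) * μ y * W s(r.symm i, y))
  rw [h1] at h
  refine h.trans (le_of_eq ?_)
  unfold dens
  let φ : (U → Fin (n + 1)) ≃ (U → V) :=
    Equiv.piCongrRight fun u => if C u = 0 then r.symm else c.symm
  rw [← φ.sum_comp]
  refine sum_congr rfl fun σ _ => ?_
  have hφ : ∀ u, φ σ u = if C u = 0 then r.symm (σ u) else c.symm (σ u) := by
    intro u
    change (if C u = 0 then r.symm else c.symm) (σ u) = _
    split_ifs <;> rfl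
  congr 1
  · refine prod_congr rfl fun u _ => ?_
    rw [hφ]
    split_ifs <;> rfl
  · rw [prod_orEdges hC]
    refine prod_congr rfl fun p hp => ?_
    have hp' := orEdges_side hC p hp
    rw [Sym2.map_mk, hφ, hφ, if_pos hp'.1, if_neg hp'.2]

theorem host_bip (hμ : ∀ x, 0 < μ x) (hμ1 : ∑ x, μ x = 1) (hW : ∀ z, 0 ≤ W z)
    (hT : ∃ r c, TPOrders W r c)
    {U : Type*} [Fintype U] [DecidableEq U] (H : SimpleGraph U) [DecidableRel H.Adj]
    (hH : H.Colorable 2) :
    edgeDens μ W ^ H.edgeFinset.card ≤ dens μ W H := by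
  obtain ⟨r, c, h⟩ := hT
  exact host_aux r c hμ hμ1 hW h H hH

theorem host_aux' {N : ℕ} (r : V ≃ Fin N) (hμ : ∀ x, 0 < μ x) (hμ1 : ∑ x, μ x = 1)
    (hW : ∀ z, 0 ≤ W z)
    (hT : ∀ x x' y y' : V, r x ≤ r x' → r y ≤ r y' →
      W s(x, y') * W s(x', y) ≤ W s(x, y) * W s(x', y'))
    {U : Type*} [Fintype U] [DecidableEq U] (H : SimpleGraph U) [DecidableRel H.Adj] :
    edgeDens μ W ^ H.edgeFinset.card ≤ dens μ W H := by
  obtain _ | n := N
  · exfalso
    have : IsEmpty V := r.isEmpty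
    simp at hμ1
  classical
  -- orient every edge
  let E : Finset (U × U) := H.edgeFinset.image fun e => e.out
  have hout : ∀ e : Sym2 U, s((e.out : U × U).1, (e.out : U × U).2) = e := fun e =>
    Quot.out_eq e
  have hinj : Function.Injective (fun e : Sym2 U => (e.out : U × U)) := by
    intro e e' h
    have h' : (e.out : U × U) = e'.out := h
    rw [← hout e, ← hout e', h']
  have hE : ∀ e ∈ E, e.1 ≠ e.2 := by
    intro p hp
    obtain ⟨e, he, rfl⟩ := mem_image.1 hp
    rw [SimpleGraph.mem_edgeFinset, ← hout e, SimpleGraph.mem_edgeSet] at he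
    exact he.ne
  have hcard : E.card = H.edgeFinset.card := card_image_of_injective _ hinj
  have h := sym_nonneg (V := U) (K := fun i j => W s(r.symm i, r.symm j)) (fun i j => hW _)
    (fun i i' j j' hi hj => hT _ _ _ _ (by simpa using hi) (by simpa using hj))
    (fun i j => by rw [Sym2.eq_swap])
    (α := fun i => μ (r.symm i)) (fun i => hμ _)
    (by rw [← hμ1]; exact r.symm.sum_comp μ) E hE
  rw [hcard] at h
  have h1 : ∑ i, ∑ j, μ (r.symm i) * μ (r.symm j) * W s(r.symm i, r.symm j) = edgeDens μ W := by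
    unfold edgeDens
    rw [← r.symm.sum_comp (fun x => ∑ y, μ x * μ y * W s(x, y))]
    exact sum_congr rfl fun i _ => r.symm.sum_comp (fun y => μ (r.symm i) * μ y * W s(r.symm i, y))
  rw [h1] at h
  refine h.trans (le_of_eq ?_)
  unfold dens
  let φ : (U → Fin (n + 1)) ≃ (U → V) := Equiv.piCongrRight fun _ => r.symm
  rw [← φ.sum_comp]
  refine sum_congr rfl fun σ _ => ?_
  congr 1
  rw [prod_image (fun e _ e' _ h => hinj h)]
  refine prod_congr rfl fun e _ => ?_
  conv_rhs => rw [← hout e, Sym2.map_mk]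
  rfl

theorem host_all (hμ : ∀ x, 0 < μ x) (hμ1 : ∑ x, μ x = 1) (hW : ∀ z, 0 ≤ W z)
    (hT : ∃ r, TPOrders W r r)
    {U : Type*} [Fintype U] [DecidableEq U] (H : SimpleGraph U) [DecidableRel H.Adj] :
    edgeDens μ W ^ H.edgeFinset.card ≤ dens μ W H := by
  obtain ⟨r, h⟩ := hT
  exact host_aux' r hμ hμ1 hW h H

end

/-! ### Products -/

section

variable {I : Type*} [Fintype I] [DecidableEq I] {F : I → Type*} [∀ k, Fintype (F k)]
  (μ : ∀ k, F k → ℝ) (W : ∀ k, Sym2 (F k) → ℝ)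

theorem dens_prod {U : Type*} [Fintype U] [DecidableEq U] (H : SimpleGraph U)
    [DecidableRel H.Adj] :
    dens (fun x : ∀ k, F k => ∏ k, μ k (x k)) (fun z => ∏ k, W k (z.map fun x => x k)) H =
      ∏ k, dens (μ k) (W k) H := by
  unfold dens
  rw [Finset.prod_univ_sum, Fintype.piFinset_univ,
    ← (Equiv.piComm (fun (_ : U) (k : I) => F k)).sum_comp]
  refine sum_congr rfl fun σ _ => ?_
  rw [prod_mul_distrib, prod_comm]
  congr 1
  rw [prod_comm]
  refine prod_congr rfl fun k _ => prod_congr rfl fun e _ => ?_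
  rw [Sym2.map_map]
  rfl

theorem edgeDens_prod :
    edgeDens (fun x : ∀ k, F k => ∏ k, μ k (x k)) (fun z => ∏ k, W k (z.map fun x => x k)) =
      ∏ k, edgeDens (μ k) (W k) := by
  unfold edgeDens
  rw [Finset.prod_univ_sum, Fintype.piFinset_univ]
  refine sum_congr rfl fun x _ => ?_
  rw [Finset.prod_univ_sum, Fintype.piFinset_univ]
  refine sum_congr rfl fun y _ => ?_
  rw [← prod_mul_distrib, ← prod_mul_distrib]
  rfl

theorem edgeDens_nonneg {V : Type*} [Fintype V] {μ : V → ℝ} {W : Sym2 V → ℝ}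
    (hμ : ∀ x, 0 ≤ μ x) (hW : ∀ z, 0 ≤ W z) : 0 ≤ edgeDens μ W :=
  sum_nonneg fun _ _ => sum_nonneg fun _ _ => mul_nonneg (mul_nonneg (hμ _) (hμ _)) (hW _)

variable {μ W}

theorem prod_bip (hμ : ∀ k x, 0 < μ k x) (hμ1 : ∀ k, ∑ x, μ k x = 1) (hW : ∀ k z, 0 ≤ W k z)
    (hT : ∀ k, ∃ r c, TPOrders (W k) r c)
    {U : Type*} [Fintype U] [DecidableEq U] (H : SimpleGraph U) [DecidableRel H.Adj]
    (hH : H.Colorable 2) :
    edgeDens (fun x : ∀ k, F k => ∏ k, μ k (x k))
        (fun z => ∏ k, W k (z.map fun x => x k)) ^ H.edgeFinset.card ≤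
      dens (fun x : ∀ k, F k => ∏ k, μ k (x k)) (fun z => ∏ k, W k (z.map fun x => x k)) H := by
  rw [dens_prod, edgeDens_prod, ← prod_pow]
  refine prod_le_prod (fun k _ => pow_nonneg (edgeDens_nonneg (fun x => (hμ k x).le) (hW k)) _)
    fun k _ => host_bip (hμ k) (hμ1 k) (hW k) (hT k) H hH

end

end Vale.Agent.P050
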