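import Mathlib

/-!
# P050: log-supermodular kernels, definitions
-/

open Finset

namespace Vale.Agent.P050.LS

/-- Log-supermodular. -/
def LSM {α : Type*} [Lattice α] (f : α → ℝ) : Prop := ∀ x y, f x * f y ≤ f (x ⊓ y) * f (x ⊔ y)

/-- The sorted family: the `i`-th largest value in every coordinate. -/
def srt {ι : Type*} {k : ℕ} (p : Fin k → ι → Bool) (i : Fin k) (c : ι) : Bool :=
  decide ((i : ℕ) < (univ.filter fun j => p j c = true).card)

end Vale.Agent.P050.LS
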