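import Vale.Agent.P050.LSK6
import Vale.Agent.P050.Good

/-!
# P050 (Sidorenko): log-supermodular kernels on finite distributive lattices
-/

open Finset

namespace Vale.Agent.P050

/-- The theorem for two explicit lattice structures. -/
theorem LS.sid_two {X Y A B : Type} [Fintype X] [Fintype Y] (L₁ : DistribLattice X)
    (L₂ : DistribLattice Y) [Fintype A] [Fintype B] [DecidableEq A] [DecidableEq B]
    {α : X → ℝ} {β : Y → ℝ} {K : X → Y → ℝ} (hα : ∀ x, 0 ≤ α x) (hα1 : ∑ x, α x = 1)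
    (sα : ∀ x y, α x * α y ≤ α (L₁.inf x y) * α (L₁.sup x y)) (hβ : ∀ y, 0 ≤ β y)
    (hβ1 : ∑ y, β y = 1) (sβ : ∀ x y, β x * β y ≤ β (L₂.inf x y) * β (L₂.sup x y))
    (hK : ∀ x y, 0 ≤ K x y)
    (sK : ∀ x x' y y', K x y * K x' y' ≤
      K (L₁.inf x x') (L₂.inf y y') * K (L₁.sup x x') (L₂.sup y y'))
    (E : Finset (A × B)) :
    (∑ x, ∑ y, α x * β y * K x y) ^ E.card ≤
      ∑ x : A → X, ∑ y : B → Y, (∏ a, α (x a)) * (∏ b, β (y b)) * ∏ e ∈ E, K (x e.1) (y e.2) :=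
  LS.sid_lat hα hα1 sα hβ hβ1 sβ hK sK E

theorem good_ls {V : Type} [Fintype V] (L₁ L₂ : DistribLattice V) {μ : V → ℝ}
    {W : Sym2 V → ℝ} (hμ : ∀ x, 0 ≤ μ x) (hμ1 : ∑ x, μ x = 1)
    (s1 : ∀ x y, μ x * μ y ≤ μ (L₁.inf x y) * μ (L₁.sup x y))
    (s2 : ∀ x y, μ x * μ y ≤ μ (L₂.inf x y) * μ (L₂.sup x y))
    (hW : ∀ z, 0 ≤ W z)
    (hT : ∀ x x' y y', W s(x, y) * W s(x', y') ≤
      W s(L₁.inf x x', L₂.inf y y') * W s(L₁.sup x x', L₂.sup y y')) : SidGood μ W := by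
  classical
  intro U _ _ H _ hH
  obtain ⟨C⟩ := hH
  have hC : ∀ u v, H.Adj u v → C u ≠ C v := fun u v h => C.valid h
  set E : Finset ({u : U // C u = 0} × {u : U // ¬ C u = 0}) :=
    univ.filter fun p => H.Adj p.1.1 p.2.1 with hEdef
  have hE : orEdges H C = E.image (fun e => (e.1.1, e.2.1)) := by
    ext p
    constructor
    · intro hp
      have hs := orEdges_side hC p hp
      rw [orEdges, mem_filter] at hp
      rw [mem_image]
      exact ⟨(⟨p.1, hs.1⟩, ⟨p.2, hs.2⟩), by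
        rw [hEdef, mem_filter]; exact ⟨mem_univ _, hp.2.1⟩, rfl⟩
    · intro hp
      rw [mem_image] at hp
      obtain ⟨e, he, rfl⟩ := hp
      rw [hEdef, mem_filter] at he
      rw [orEdges, mem_filter]
      exact ⟨mem_univ _, he.2, e.1.2⟩
  have hinj : Set.InjOn (fun e : {u : U // C u = 0} × {u : U // ¬ C u = 0} => (e.1.1, e.2.1))
      (E : Set _) := by
    intro e _ e' _ h
    have h' := Prod.mk.inj h
    exact Prod.ext (Subtype.ext h'.1) (Subtype.ext h'.2)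
  have h := LS.sid_two L₁ L₂ (K := fun x y => W s(x, y)) hμ hμ1 s1 hμ hμ1 s2 (fun _ _ => hW _) hT E
  have hcard : E.card = H.edgeFinset.card := by
    rw [← card_orEdges hC, hE, card_image_of_injOn hinj]
  rw [hcard] at h
  refine h.trans (le_of_eq ?_)
  unfold dens
  rw [← (Equiv.piEquivPiSubtypeProd (fun u => C u = 0) (fun _ => V)).symm.sum_comp,
    Fintype.sum_prod_type]
  refine sum_congr rfl fun x _ => sum_congr rfl fun y _ => ?_
  set φ : U → V := (Equiv.piEquivPiSubtypeProd (fun u => C u = 0) (fun _ => V)).symm (x, y)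
    with hφ
  have h1 : ∀ a : {u : U // C u = 0}, φ a.1 = x a := by
    intro a
    rw [hφ]
    simp [Equiv.piEquivPiSubtypeProd, a.2]
  have h2 : ∀ b : {u : U // ¬ C u = 0}, φ b.1 = y b := by
    intro b
    rw [hφ]
    simp [Equiv.piEquivPiSubtypeProd, b.2]
  congr 1
  · rw [← Fintype.prod_subtype_mul_prod_subtype (fun u => C u = 0)]
    simp only [h1, h2]
  · rw [prod_orEdges hC, hE, prod_image hinj]
    refine prod_congr rfl fun e _ => ?_
    rw [Sym2.map_mk, h1, h2]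

end Vale.Agent.P050
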