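import Vale.Agent.P050.LSDefs

/-!
# P050: uncrossing
-/

open Finset

namespace Vale.Agent.P050.LS

namespace K1

variable {ι : Type*}

/-- Insertion of a point into a list. -/
def insL (q : ι → Bool) : List (ι → Bool) → List (ι → Bool)
  | [] => [q]
  | z :: zs => (q ⊔ z) :: insL (q ⊓ z) zs

theorem insL_length (q : ι → Bool) (l : List (ι → Bool)) : (insL q l).length = l.length + 1 := by
  induction l generalizing q with
  | nil => rfl
  | cons z zs ih =>
    simp only [insL, List.length_cons, ih]

theorem insL_prod {f : (ι → Bool) → ℝ} (h0 : ∀ x, 0 ≤ f x) (hf : LSM f) (q : ι → Bool)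
    (l : List (ι → Bool)) : f q * (l.map f).prod ≤ ((insL q l).map f).prod := by
  induction l generalizing q with
  | nil => simp [insL]
  | cons z zs ih =>
    simp only [insL, List.map_cons, List.prod_cons]
    have h1 : 0 ≤ (zs.map f).prod := by
      refine List.prod_nonneg ?_
      intro a ha
      obtain ⟨x, _, rfl⟩ := List.mem_map.1 ha
      exact h0 x
    calc f q * (f z * (zs.map f).prod) = f q * f z * (zs.map f).prod := by ring
      _ ≤ f (q ⊓ z) * f (q ⊔ z) * (zs.map f).prod := mul_le_mul_of_nonneg_right (hf q z) h1
      _ = f (q ⊔ z) * (f (q ⊓ z) * (zs.map f).prod) := by ring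
      _ ≤ _ := mul_le_mul_of_nonneg_left (ih (q ⊓ z)) (h0 _)

theorem insL_get (c : ι) (q : ι → Bool) (l : List (ι → Bool)) (m : ℕ)
    (h : ∀ (i : ℕ) (hi : i < l.length), l[i] c = decide (i < m)) (hm : m ≤ l.length)
    (i : ℕ) (hi : i < (insL q l).length) :
    (insL q l)[i] c = decide (i < m + if q c = true then 1 else 0) := by
  induction l generalizing q m i with
  | nil =>
    have hm0 : m = 0 := by simpa using hm
    subst hm0
    have hi0 : i = 0 := by simpa [insL] using hi
    subst hi0
    change q c = _
    by_cases hq : q c = true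
    · simp [hq]
    · simp only [Bool.not_eq_true] at hq
      simp [hq]
  | cons z zs ih =>
    have hz : z c = decide (0 < m) := h 0 (by simp)
    rcases i with _ | i
    · change (q ⊔ z) c = _
      rw [Pi.sup_apply, hz]
      by_cases hq : q c = true
      · simp [hq]
      · simp only [Bool.not_eq_true] at hq
        simp [hq]
    · have hi' : i < (insL (q ⊓ z) zs).length := by
        simp only [insL, List.length_cons] at hi
        omega
      change (insL (q ⊓ z) zs)[i] c = _
      have h1 : ∀ (j : ℕ) (hj : j < zs.length), zs[j] c = decide (j < m - 1) := by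
        intro j hj
        have := h (j + 1) (by simpa using hj)
        simp only [List.getElem_cons_succ] at this
        rw [this]
        by_cases h2 : j + 1 < m
        · rw [decide_eq_true h2, decide_eq_true (by omega)]
        · rw [decide_eq_false h2, decide_eq_false (by omega)]
      have hl : m - 1 ≤ zs.length := by
        simp only [List.length_cons] at hm
        omega
      rw [ih (q ⊓ z) (m - 1) h1 hl i hi']
      have h3 : (q ⊓ z) c = (q c && decide (0 < m)) := by
        rw [Pi.inf_apply, hz]
        rfl
      rw [h3]
      by_cases hq : q c = true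
      · by_cases hm0 : 0 < m
        · have e : m - 1 + 1 = m := by omega
          simp only [hq, decide_eq_true hm0, Bool.and_self, if_true]
          rw [e]
          by_cases h5 : i < m
          · rw [decide_eq_true h5, decide_eq_true (by omega)]
          · rw [decide_eq_false h5, decide_eq_false (by omega)]
        · have e : m = 0 := by omega
          subst e
          simp [hq]
      · simp only [Bool.not_eq_true] at hq
        simp only [hq, Bool.false_and, Bool.false_eq_true, if_false, add_zero]
        by_cases h5 : i + 1 < m
        · rw [decide_eq_true h5, decide_eq_true (by omega)]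
        · rw [decide_eq_false h5, decide_eq_false (by omega)]

theorem exists_list {f : (ι → Bool) → ℝ} (h0 : ∀ x, 0 ≤ f x) (hf : LSM f) (k : ℕ) :
    ∀ p : Fin k → ι → Bool, ∃ L : List (ι → Bool), L.length = k ∧
      ∏ i, f (p i) ≤ (L.map f).prod ∧ ∀ (c : ι) (i : ℕ) (hi : i < L.length),
        L[i] c = decide (i < (univ.filter fun j => p j c = true).card) := by
  induction k with
  | zero =>
    intro p
    exact ⟨[], rfl, by simp, by simp⟩
  | succ k ih =>
    intro p
    obtain ⟨L, h1, h2, h3⟩ := ih fun j => p j.succ
    refine ⟨insL (p 0) L, by rw [insL_length, h1], ?_, fun c i hi => ?_⟩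
    · rw [Fin.prod_univ_succ]
      exact (mul_le_mul_of_nonneg_left h2 (h0 _)).trans (insL_prod h0 hf _ _)
    · rw [insL_get c (p 0) L _ (h3 c) (by
        rw [h1]
        exact (card_le_univ _).trans (by simp)) i hi, Fin.card_filter_univ_succ]
      by_cases hq : p 0 c = true
      · simp [hq]
      · simp [hq]

end K1

/-- Uncrossing. -/
theorem uncross {ι : Type*} {k : ℕ} {f : (ι → Bool) → ℝ} (h0 : ∀ x, 0 ≤ f x)
    (hf : LSM f) (p : Fin k → ι → Bool) : ∏ i, f (p i) ≤ ∏ i, f (srt p i) := by
  obtain ⟨L, h1, h2, h3⟩ := K1.exists_list h0 hf k p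
  refine h2.trans (le_of_eq ?_)
  have hL : L = List.ofFn (srt p) := by
    refine List.ext_getElem (by rw [List.length_ofFn, h1]) fun i hi hi' => ?_
    funext c
    rw [h3 c i hi, List.getElem_ofFn]
    rfl
  rw [hL, List.map_ofFn, List.prod_ofFn]
  rfl

end Vale.Agent.P050.LS
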