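import Mathlib

/-!
# P050, row K2: weak majorization from product inequalities
-/

open Finset

namespace Vale.Agent.P050.LS

theorem intLogMax {a M : ℝ} (ha : 0 ≤ a) (haM : a ≤ M) :
    IntervalIntegrable (fun t => Real.log (max a t)) MeasureTheory.volume 0 M ∧
    ∫ t in (0:ℝ)..M, Real.log (max a t) = a + (M * Real.log M - M) := by
  have e1 : Set.EqOn (fun _ => Real.log a) (fun t => Real.log (max a t)) (Set.uIcc 0 a) := by
    intro t ht
    rw [Set.uIcc_of_le ha] at ht
    simp only [max_eq_left ht.2]
  have e2 : Set.EqOn (fun t => Real.log t) (fun t => Real.log (max a t)) (Set.uIcc a M) := by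
    intro t ht
    rw [Set.uIcc_of_le haM] at ht
    simp only [max_eq_right ht.1]
  have i1 : IntervalIntegrable (fun t => Real.log (max a t)) MeasureTheory.volume 0 a :=
    (intervalIntegrable_const (c := Real.log a)).congr
      (fun t ht => e1 (Set.uIoc_subset_uIcc ht))
  have i2 : IntervalIntegrable (fun t => Real.log (max a t)) MeasureTheory.volume a M :=
    (intervalIntegral.intervalIntegrable_log').congr
      (fun t ht => e2 (Set.uIoc_subset_uIcc ht))
  refine ⟨i1.trans i2, ?_⟩
  rw [← intervalIntegral.integral_add_adjacent_intervals i1 i2,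
    ← intervalIntegral.integral_congr e1, ← intervalIntegral.integral_congr e2,
    intervalIntegral.integral_const, integral_log]
  simp only [sub_zero, smul_eq_mul]
  ring

/-- [K2] weak majorization -/
theorem weakMaj {Ω : Type*} [Fintype Ω] {f G : Ω → ℝ} (hf : ∀ x, 0 ≤ f x) (hG : ∀ x, 0 ≤ G x)
    (h : ∀ S : Finset Ω, ∃ S' : Finset Ω, S'.card = S.card ∧ ∏ x ∈ S, f x ≤ ∏ x ∈ S', G x) :
    ∑ x, f x ≤ ∑ x, G x := by
  classical
  set M : ℝ := ∑ x, f x + ∑ x, G x with hM
  have sf : 0 ≤ ∑ x, f x := Finset.sum_nonneg fun x _ => hf x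
  have sG : 0 ≤ ∑ x, G x := Finset.sum_nonneg fun x _ => hG x
  have hM0 : 0 ≤ M := add_nonneg sf sG
  have hfM : ∀ x, f x ≤ M := fun x =>
    (Finset.single_le_sum (fun y _ => hf y) (Finset.mem_univ x)).trans (by linarith)
  have hGM : ∀ x, G x ≤ M := fun x =>
    (Finset.single_le_sum (fun y _ => hG y) (Finset.mem_univ x)).trans (by linarith)
  -- pointwise inequality
  have key : ∀ t : ℝ, 0 < t → ∏ x, max (f x) t ≤ ∏ x, max (G x) t := by
    intro t ht
    obtain ⟨S', hc, hS'⟩ := h (univ.filter fun x => t < f x)
    set S : Finset Ω := univ.filter fun x => t < f x with hS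
    have h1 : ∏ x, max (f x) t = (∏ x ∈ S, f x) * t ^ (Sᶜ).card := by
      rw [← Finset.prod_mul_prod_compl S, ← Finset.prod_const]
      congr 1
      · refine Finset.prod_congr rfl fun x hx => ?_
        rw [hS, Finset.mem_filter] at hx
        exact max_eq_left hx.2.le
      · refine Finset.prod_congr rfl fun x hx => ?_
        rw [hS, Finset.mem_compl, Finset.mem_filter] at hx
        refine max_eq_right ?_
        by_contra hcon
        exact hx ⟨Finset.mem_univ x, not_le.mp hcon⟩
    have h2 : (∏ x ∈ S', G x) * t ^ (S'ᶜ).card ≤ ∏ x, max (G x) t := by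
      rw [← Finset.prod_mul_prod_compl S', ← Finset.prod_const]
      refine mul_le_mul ?_ ?_ (Finset.prod_nonneg fun _ _ => ht.le)
        (Finset.prod_nonneg fun x _ => (hG x).trans (le_max_left _ _))
      · exact Finset.prod_le_prod (fun x _ => hG x) fun x _ => le_max_left _ _
      · exact Finset.prod_le_prod (fun x _ => ht.le) fun x _ => le_max_right _ _
    have h3 : (Sᶜ).card = (S'ᶜ).card := by
      rw [Finset.card_compl, Finset.card_compl, hc]
    rw [h1, h3]
    exact (mul_le_mul_of_nonneg_right hS' (pow_nonneg ht.le _)).trans h2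
  have key2 : ∀ t : ℝ, 0 < t → ∑ x, Real.log (max (f x) t) ≤ ∑ x, Real.log (max (G x) t) := by
    intro t ht
    rw [← Real.log_prod (fun x _ => (lt_of_lt_of_le ht (le_max_right _ _)).ne'),
      ← Real.log_prod (fun x _ => (lt_of_lt_of_le ht (le_max_right _ _)).ne')]
    exact Real.log_le_log
      (Finset.prod_pos fun x _ => lt_of_lt_of_le ht (le_max_right _ _)) (key t ht)
  have key3 : ∫ t in (0:ℝ)..M, ∑ x, Real.log (max (f x) t) ≤
      ∫ t in (0:ℝ)..M, ∑ x, Real.log (max (G x) t) := by
    refine intervalIntegral.integral_mono_on_of_le_Ioo hM0 ?_ ?_ fun t ht => key2 t ht.1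
    · have h1 := IntervalIntegrable.sum (μ := MeasureTheory.volume) (a := 0) (b := M) univ
        (f := fun x t => Real.log (max (f x) t)) (fun x _ => (intLogMax (hf x) (hfM x)).1)
      have h2 : (∑ x, fun t => Real.log (max (f x) t)) =
          fun t => ∑ x, Real.log (max (f x) t) := by
        ext t
        simp only [Finset.sum_apply]
      rw [h2] at h1
      exact h1
    · have h1 := IntervalIntegrable.sum (μ := MeasureTheory.volume) (a := 0) (b := M) univ
        (f := fun x t => Real.log (max (G x) t)) (fun x _ => (intLogMax (hG x) (hGM x)).1)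
      have h2 : (∑ x, fun t => Real.log (max (G x) t)) =
          fun t => ∑ x, Real.log (max (G x) t) := by
        ext t
        simp only [Finset.sum_apply]
      rw [h2] at h1
      exact h1
  rw [intervalIntegral.integral_finsetSum (fun x _ => (intLogMax (hf x) (hfM x)).1),
    intervalIntegral.integral_finsetSum (fun x _ => (intLogMax (hG x) (hGM x)).1),
    Finset.sum_congr rfl fun x _ => (intLogMax (hf x) (hfM x)).2,
    Finset.sum_congr rfl fun x _ => (intLogMax (hG x) (hGM x)).2,
    Finset.sum_add_distrib, Finset.sum_add_distrib] at key3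
  linarith

end Vale.Agent.P050.LS
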