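import Vale.Agent.P050.LSK1
import Vale.Agent.P050.LSK2

/-!
# P050: the lemma for one fibre
-/

open Finset

namespace Vale.Agent.P050.LS

/-- The lemma for one fibre. -/
theorem lemK {k : ℕ} {f : (Fin k → Bool) → ℝ} (h0 : ∀ x, 0 ≤ f x) (hf : LSM f)
    {g : Fin k → Bool → ℝ} (hg : ∀ i b, 0 ≤ g i b)
    (hb : ∀ a : Fin k → Bool, f a ≤
      ∏ i : Fin k, g i (decide ((i : ℕ) < (univ.filter fun j => a j = true).card))) :
    ∑ a, f a ≤ ∏ i, (g i false + g i true) := by
  classical
  have hG : ∏ i : Fin k, (g i false + g i true) = ∑ a : Fin k → Bool, ∏ i, g i (a i) := by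
    have h := Finset.prod_univ_sum (fun _ : Fin k => (univ : Finset Bool)) (fun i b => g i b)
    rw [Fintype.piFinset_univ] at h
    rw [← h]
    refine prod_congr rfl fun i _ => ?_
    rw [Fintype.sum_bool, add_comm]
  rw [hG]
  refine weakMaj h0 (fun a => prod_nonneg fun i _ => hg i _) fun S => ?_
  -- enumerate the family
  let e := S.equivFin
  set m := S.card with hm
  let p : Fin m → (Fin k → Bool) := fun j => (e.symm j : Fin k → Bool)
  have hpinj : Function.Injective p := fun i j h => e.symm.injective (Subtype.ext h)
  have hpS : univ.image p = S := by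
    ext x
    simp only [mem_image, mem_univ, true_and]
    constructor
    · rintro ⟨j, rfl⟩
      exact (e.symm j).2
    · intro hx
      exact ⟨e ⟨x, hx⟩, by simp [p]⟩
  have hprod : ∀ F : (Fin k → Bool) → ℝ, ∏ x ∈ S, F x = ∏ j, F (p j) := by
    intro F
    rw [← hpS, prod_image (fun i _ j _ h => hpinj h)]
  let D : Fin k → ℕ := fun l => (univ.filter fun j => p j l = true).card
  -- sort the coordinates by `D`, descending
  obtain ⟨π, hπ⟩ : ∃ π : Equiv.Perm (Fin k), Antitone (D ∘ π) := by
    refine ⟨Tuple.sort (fun l => OrderDual.toDual (D l)), ?_⟩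
    have h := Tuple.monotone_sort (fun l => OrderDual.toDual (D l))
    intro i j hij
    exact h hij
  let q : Fin m → (Fin k → Bool) := fun j l => p j (π l)
  have hqinj : Function.Injective q := by
    intro i j h
    apply hpinj
    funext l
    have := congrFun h (π.symm l)
    simpa [q] using this
  refine ⟨univ.image q, by rw [card_image_of_injective _ hqinj, card_univ, Fintype.card_fin],
    ?_⟩
  rw [hprod, prod_image (fun i _ j _ h => hqinj h)]
  refine (uncross h0 hf p).trans ?_
  have h1 : ∀ j : Fin m, f (srt p j) ≤ ∏ i : Fin k, g i (decide ((j : ℕ) < D (π i))) := by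
    intro j
    refine (hb (srt p j)).trans (le_of_eq ?_)
    refine prod_congr rfl fun i _ => ?_
    congr 1
    have h2 : (univ.filter fun l => srt p j l = true) = univ.filter fun l => (j : ℕ) < D l := by
      ext l
      simp only [mem_filter, mem_univ, true_and, srt, decide_eq_true_eq, D]
    rw [h2]
    have h3 : (univ.filter fun l => (j : ℕ) < D l).card =
        (univ.filter fun l => (j : ℕ) < D (π l)).card := by
      refine (card_bij (fun l _ => π l) ?_ ?_ ?_).symm
      · intro l hl
        rw [mem_filter] at hl ⊢
        exact ⟨mem_univ _, hl.2⟩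
      · intro a _ b _ h
        exact π.injective h
      · intro l hl
        rw [mem_filter] at hl
        refine ⟨π.symm l, ?_, by simp⟩
        rw [mem_filter, Equiv.apply_symm_apply]
        exact ⟨mem_univ _, hl.2⟩
    rw [h3]
    -- the set is an initial segment
    by_cases h4 : (j : ℕ) < D (π i)
    · rw [decide_eq_true h4, decide_eq_true]
      have h5 : (univ.filter fun l : Fin k => l ≤ i) ⊆
          univ.filter fun l => (j : ℕ) < D (π l) := by
        intro l hl
        rw [mem_filter] at hl ⊢
        exact ⟨mem_univ _, lt_of_lt_of_le h4 (hπ hl.2)⟩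
      have h6 := card_le_card h5
      have h7 : (univ.filter fun l : Fin k => l ≤ i).card = (i : ℕ) + 1 := by
        have h8 : (univ.filter fun l : Fin k => l ≤ i) =
            univ.filter fun l : Fin k => (l : ℕ) < (i : ℕ) + 1 := by
          ext l
          simp only [mem_filter, mem_univ, true_and, Fin.le_def]
          omega
        have h9 := i.2
        rw [h8, Fin.card_filter_val_lt]
        omega
      omega
    · rw [decide_eq_false h4, decide_eq_false]
      have h5 : (univ.filter fun l => (j : ℕ) < D (π l)) ⊆
          univ.filter fun l : Fin k => l < i := by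
        intro l hl
        rw [mem_filter] at hl ⊢
        refine ⟨mem_univ _, ?_⟩
        by_contra h8
        exact h4 (lt_of_lt_of_le hl.2 (hπ (not_lt.1 h8)))
      have h6 := card_le_card h5
      have h7 : (univ.filter fun l : Fin k => l < i).card = (i : ℕ) := by
        have h8 : (univ.filter fun l : Fin k => l < i) =
            univ.filter fun l : Fin k => (l : ℕ) < (i : ℕ) := by
          ext l
          simp only [mem_filter, mem_univ, true_and, Fin.lt_def]
        have h9 := i.2
        rw [h8, Fin.card_filter_val_lt]
        omega
      omega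
  refine (prod_le_prod (fun j _ => h0 _) fun j _ => h1 j).trans (le_of_eq ?_)
  rw [prod_comm]
  conv_rhs => rw [prod_comm]
  refine prod_congr rfl fun i _ => ?_
  -- both sides are `g i true ^ D * g i false ^ (m - D)`
  have h8 : ∀ b : Fin m → Bool, ∏ j, g i (b j) =
      g i true ^ (univ.filter fun j => b j = true).card *
        g i false ^ (m - (univ.filter fun j => b j = true).card) := by
    intro b
    have h9 : ∀ j, g i (b j) = if b j = true then g i true else g i false := by
      intro j
      by_cases h : b j = true
      · rw [if_pos h, h]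
      · rw [if_neg h]
        simp only [Bool.not_eq_true] at h
        rw [h]
    rw [prod_congr rfl fun j _ => h9 j, prod_ite, prod_const, prod_const]
    congr 2
    have h10 := card_filter_add_card_filter_not (s := (univ : Finset (Fin m)))
      (fun j => b j = true)
    rw [card_univ, Fintype.card_fin] at h10
    omega
  rw [h8, h8]
  have h11 : (univ.filter fun j : Fin m => decide ((j : ℕ) < D (π i)) = true).card =
      (univ.filter fun j => q j i = true).card := by
    have h12 : (univ.filter fun j => q j i = true).card = D (π i) := rfl
    have h13 : D (π i) ≤ m := (card_le_univ _).trans (by simp)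
    rw [h12]
    simp only [decide_eq_true_eq]
    rw [Fin.card_filter_val_lt]
    omega
  rw [h11]

end Vale.Agent.P050.LS
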