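import Vale.Agent.P050.LSK3

/-!
# P050, row K4: covers of log-supermodular functions on cubes
-/

open Finset

namespace Vale.Agent.P050.LS

namespace K4

theorem cons_inf {n : ℕ} {α : Type*} [Lattice α] (a b : α) (x y : Fin n → α) :
    (Fin.cons a x : Fin (n + 1) → α) ⊓ Fin.cons b y = Fin.cons (a ⊓ b) (x ⊓ y) := by
  funext i
  refine Fin.cases ?_ (fun j => ?_) i
  · simp
  · simp

theorem cons_sup {n : ℕ} {α : Type*} [Lattice α] (a b : α) (x y : Fin n → α) :
    (Fin.cons a x : Fin (n + 1) → α) ⊔ Fin.cons b y = Fin.cons (a ⊔ b) (x ⊔ y) := by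
  funext i
  refine Fin.cases ?_ (fun j => ?_) i
  · simp
  · simp

theorem sum_cons {n : ℕ} {α : Type*} [Fintype α] [DecidableEq α] (f : (Fin (n + 1) → α) → ℝ) :
    ∑ x, f x = ∑ x' : Fin n → α, ∑ a : α, f (Fin.cons a x') := by
  rw [← (Fin.consEquiv fun _ : Fin (n + 1) => α).sum_comp f, Fintype.sum_prod_type,
    Finset.sum_comm]
  rfl

end K4

/-- [K4] covers -/
theorem cover {k n : ℕ} {F : (Fin n → Fin k → Bool) → ℝ} {g : (Fin n → Bool) → ℝ}
    (hF : ∀ x, 0 ≤ F x) (hg : ∀ y, 0 ≤ g y) (hLS : LSM F)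
    (hb : ∀ x, F x ≤
      ∏ i : Fin k, g (fun w => decide ((i : ℕ) < (univ.filter fun j => x w j = true).card))) :
    ∑ x, F x ≤ (∑ y, g y) ^ k := by
  induction n with
  | zero =>
    rw [Fintype.sum_unique, Fintype.sum_unique]
    refine (hb _).trans (le_of_eq ?_)
    have h : ∀ i : Fin k, g (fun w : Fin 0 => decide ((i : ℕ) < (univ.filter fun j =>
        (@default (Fin 0 → Fin k → Bool) Unique.instInhabited) w j = true).card)) =
        g default := fun i => congrArg g (Subsingleton.elim _ _)
    rw [Finset.prod_congr rfl fun i _ => h i, Finset.prod_const, Finset.card_univ,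
      Fintype.card_fin]
    exact congrArg (fun t => g t ^ k) (Subsingleton.elim _ _)
  | succ n ih =>
    rw [K4.sum_cons, K4.sum_cons]
    refine ih (F := fun x' => ∑ a : Fin k → Bool, F (Fin.cons a x'))
      (g := fun y' => ∑ b : Bool, g (Fin.cons b y')) (fun x' => Finset.sum_nonneg fun a _ => hF _)
      (fun y' => Finset.sum_nonneg fun b _ => hg _) (fun x' y' => ?_) (fun x' => ?_)
    · refine four_functions_theorem_univ (f₁ := fun a => F (Fin.cons a x'))
        (f₂ := fun a => F (Fin.cons a y')) (f₃ := fun a => F (Fin.cons a (x' ⊓ y')))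
        (f₄ := fun a => F (Fin.cons a (x' ⊔ y'))) (fun a => hF _) (fun a => hF _)
        (fun a => hF _) (fun a => hF _) (fun a b => ?_)
      have := hLS (Fin.cons a x') (Fin.cons b y')
      rwa [K4.cons_inf, K4.cons_sup] at this
    · refine (lemK (f := fun a => F (Fin.cons a x')) (fun a => hF _) (fun a b => ?_)
        (g := fun i b => g (Fin.cons b fun w => decide ((i : ℕ) <
          (univ.filter fun j => x' w j = true).card))) (fun i b => hg _) (fun a => ?_)).trans
        (le_of_eq ?_)
      · have := hLS (Fin.cons a x') (Fin.cons b x')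
        rwa [K4.cons_inf, K4.cons_sup, inf_idem, sup_idem] at this
      · refine (hb (Fin.cons a x')).trans (le_of_eq ?_)
        refine Finset.prod_congr rfl fun i _ => ?_
        congr 1
        funext w
        refine Fin.cases ?_ (fun j => ?_) w
        · simp
        · simp
      · refine Finset.prod_congr rfl fun i _ => ?_
        rw [Fintype.sum_bool, add_comm]

/-- [K4b] the same for any finite index type -/
theorem cover' {k : ℕ} {ι : Type*} [Fintype ι] [DecidableEq ι] {F : (ι → Fin k → Bool) → ℝ}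
    {g : (ι → Bool) → ℝ} (hF : ∀ x, 0 ≤ F x) (hg : ∀ y, 0 ≤ g y) (hLS : LSM F)
    (hb : ∀ x, F x ≤
      ∏ i : Fin k, g (fun w => decide ((i : ℕ) < (univ.filter fun j => x w j = true).card))) :
    ∑ x, F x ≤ (∑ y, g y) ^ k := by
  have e := Fintype.equivFin ι
  have h1 : ∑ x, F x = ∑ x : Fin (Fintype.card ι) → Fin k → Bool, F (fun w => x (e w)) :=
    ((e.symm.arrowCongr (Equiv.refl (Fin k → Bool))).sum_comp F).symm
  have h2 : ∑ y, g y = ∑ y : Fin (Fintype.card ι) → Bool, g (fun w => y (e w)) :=
    ((e.symm.arrowCongr (Equiv.refl Bool)).sum_comp g).symm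
  rw [h1, h2]
  refine cover (F := fun x => F (fun w => x (e w))) (g := fun y => g (fun w => y (e w)))
    (fun x => hF _) (fun y => hg _) (fun x y => hLS _ _) (fun x => hb _)

end Vale.Agent.P050.LS
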