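import Mathlib

/-! P050, row K5: from permutation lifts to Sidorenko, by pigeonhole over types. -/

open Finset

namespace Vale.Agent.P050.LS

namespace K5

theorem sum_prod_pi {ι V : Type*} [Fintype ι] [DecidableEq ι] [Fintype V] (g : ι → V → ℝ) :
    ∑ x : ι → V, ∏ i, g i (x i) = ∏ i, ∑ v, g i v := by
  rw [Finset.prod_univ_sum, Fintype.piFinset_univ]

theorem sum_div_le {V C : Type*} [Fintype V] [Fintype C] [DecidableEq C] (a : V → ℝ)
    (c : V → C) :
    ∑ x, a x / (∑ x' with c x' = c x, a x') ≤ (Fintype.card C : ℝ) := by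
  rw [← Finset.sum_fiberwise univ c]
  calc _ ≤ ∑ _s : C, (1 : ℝ) := by
        refine Finset.sum_le_sum fun s _ => ?_
        have h : ∑ x with c x = s, a x / (∑ x' with c x' = c x, a x') =
            (∑ x with c x = s, a x) / (∑ x with c x = s, a x) := by
          rw [Finset.sum_div]
          refine Finset.sum_congr rfl fun x hx => ?_
          rw [(Finset.mem_filter.mp hx).2]
        rw [h]
        exact div_self_le_one _
    _ = _ := by simp

section

variable {V W C D A B : Type*} [Fintype V] [Fintype W] [Fintype C] [Fintype D]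
    [DecidableEq C] [DecidableEq D] [Fintype A] [Fintype B] [DecidableEq A] [DecidableEq B]

theorem upper {α : V → ℝ} {β : W → ℝ} {K : V → W → ℝ} (hα : ∀ x, 0 ≤ α x)
    (hβ : ∀ y, 0 ≤ β y) (c : V → C) (d : W → D) {m : ℝ} (hm : 0 ≤ m)
    (h : ∀ x y, (∑ x' with c x' = c x, α x') * (∑ y' with d y' = d y, β y') * K x y ≤ m) :
    ∑ x, ∑ y, α x * β y * K x y ≤ m * ((Fintype.card C : ℝ) * Fintype.card D) := by
  set P : V → ℝ := fun x => ∑ x' with c x' = c x, α x' with hP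
  set Q : W → ℝ := fun y => ∑ y' with d y' = d y, β y' with hQ
  have hPα : ∀ x, α x ≤ P x := fun x =>
    Finset.single_le_sum (f := α) (fun i _ => hα i) (by simp)
  have hQβ : ∀ y, β y ≤ Q y := fun y =>
    Finset.single_le_sum (f := β) (fun i _ => hβ i) (by simp)
  have h1 : ∀ x y, α x * β y * K x y ≤ m * ((α x / P x) * (β y / Q y)) := by
    intro x y
    rcases (hα x).eq_or_lt with h0 | h0
    · rw [← h0]; simp
    rcases (hβ y).eq_or_lt with h0' | h0'
    · rw [← h0']; simp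
    have hPx : 0 < P x := h0.trans_le (hPα x)
    have hQy : 0 < Q y := h0'.trans_le (hQβ y)
    have h2 : α x * β y * K x y = (P x * Q y * K x y) * ((α x / P x) * (β y / Q y)) := by
      field_simp
    rw [h2]
    exact mul_le_mul_of_nonneg_right (h x y)
      (mul_nonneg (div_nonneg h0.le hPx.le) (div_nonneg h0'.le hQy.le))
  have h3 : ∑ x, ∑ y, m * ((α x / P x) * (β y / Q y)) =
      m * ((∑ x, α x / P x) * (∑ y, β y / Q y)) := by
    rw [Finset.sum_mul_sum, Finset.mul_sum]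
    refine Finset.sum_congr rfl fun x _ => ?_
    rw [Finset.mul_sum]
  calc _ ≤ ∑ x, ∑ y, m * ((α x / P x) * (β y / Q y)) :=
        Finset.sum_le_sum fun x _ => Finset.sum_le_sum fun y _ => h1 x y
    _ = _ := h3
    _ ≤ _ := by
        refine mul_le_mul_of_nonneg_left ?_ hm
        refine mul_le_mul (sum_div_le α c) (sum_div_le β d) ?_ (Nat.cast_nonneg _)
        exact Finset.sum_nonneg fun y _ => div_nonneg (hβ y) ((hβ y).trans (hQβ y))

theorem sum_restrict {α : V → ℝ} (hα1 : ∑ x, α x = 1) (c : V → C) (s : C) (A' : Finset A) :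
    ∑ x : A → V, ∏ a, (if (a ∈ A' → c (x a) = s) then α (x a) else 0) =
      (∑ x with c x = s, α x) ^ A'.card := by
  rw [sum_prod_pi (fun a v => if (a ∈ A' → c v = s) then α v else 0)]
  have h : ∀ a, ∑ v, (if (a ∈ A' → c v = s) then α v else 0) =
      if a ∈ A' then (∑ x with c x = s, α x) else 1 := by
    intro a
    by_cases ha : a ∈ A'
    · simp only [ha, true_imp_iff, if_true]
      rw [Finset.sum_filter]
    · simp only [ha, false_imp_iff, if_true, if_false]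
      exact hα1
  rw [Finset.prod_congr rfl fun a _ => h a, Finset.prod_ite_mem, Finset.univ_inter,
    Finset.prod_const]

theorem lower {α : V → ℝ} {β : W → ℝ} {K : V → W → ℝ} (hα : ∀ x, 0 ≤ α x)
    (hα1 : ∑ x, α x = 1) (hβ : ∀ y, 0 ≤ β y) (hβ1 : ∑ y, β y = 1) (hK : ∀ x y, 0 ≤ K x y)
    (c : V → C) (d : W → D) (hcd : ∀ x x' y y', c x = c x' → d y = d y' → K x y = K x' y')
    (E : Finset (A × B)) (x₀ : V) (y₀ : W) :
    ((∑ x' with c x' = c x₀, α x') * (∑ y' with d y' = d y₀, β y') * K x₀ y₀) ^ E.card ≤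
      ∑ x : A → V, ∑ y : B → W, (∏ a, α (x a)) * (∏ b, β (y b)) *
        ∏ e ∈ E, K (x e.1) (y e.2) := by
  set A' : Finset A := E.image Prod.fst with hA'
  set B' : Finset B := E.image Prod.snd with hB'
  set P : ℝ := ∑ x' with c x' = c x₀, α x' with hP
  set Q : ℝ := ∑ y' with d y' = d y₀, β y' with hQ
  have hP0 : 0 ≤ P := Finset.sum_nonneg fun i _ => hα i
  have hQ0 : 0 ≤ Q := Finset.sum_nonneg fun i _ => hβ i
  have hP1 : P ≤ 1 := by
    rw [← hα1]
    exact Finset.sum_le_sum_of_subset_of_nonneg (Finset.filter_subset _ _) fun i _ _ => hα i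
  have hQ1 : Q ≤ 1 := by
    rw [← hβ1]
    exact Finset.sum_le_sum_of_subset_of_nonneg (Finset.filter_subset _ _) fun i _ _ => hβ i
  have h1 : (P * Q * K x₀ y₀) ^ E.card ≤ P ^ A'.card * Q ^ B'.card * K x₀ y₀ ^ E.card := by
    rw [mul_pow, mul_pow]
    refine mul_le_mul_of_nonneg_right ?_ (pow_nonneg (hK _ _) _)
    exact mul_le_mul (pow_le_pow_of_le_one hP0 hP1 Finset.card_image_le)
      (pow_le_pow_of_le_one hQ0 hQ1 Finset.card_image_le) (pow_nonneg hQ0 _) (pow_nonneg hP0 _)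
  have h2 : P ^ A'.card * Q ^ B'.card * K x₀ y₀ ^ E.card =
      ∑ x : A → V, ∑ y : B → W,
        (∏ a, (if (a ∈ A' → c (x a) = c x₀) then α (x a) else 0)) *
        (∏ b, (if (b ∈ B' → d (y b) = d y₀) then β (y b) else 0)) * K x₀ y₀ ^ E.card := by
    rw [← sum_restrict hα1 c (c x₀) A', ← sum_restrict hβ1 d (d y₀) B', Finset.sum_mul_sum,
      Finset.sum_mul]
    refine Finset.sum_congr rfl fun x _ => ?_
    rw [Finset.sum_mul]
  rw [h2] at h1
  refine h1.trans (Finset.sum_le_sum fun x _ => Finset.sum_le_sum fun y _ => ?_)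
  have hnn : 0 ≤ (∏ a, α (x a)) * (∏ b, β (y b)) * ∏ e ∈ E, K (x e.1) (y e.2) :=
    mul_nonneg (mul_nonneg (Finset.prod_nonneg fun a _ => hα _)
      (Finset.prod_nonneg fun b _ => hβ _)) (Finset.prod_nonneg fun e _ => hK _ _)
  by_cases hx : ∀ a ∈ A', c (x a) = c x₀
  · by_cases hy : ∀ b ∈ B', d (y b) = d y₀
    · have h3 : ∏ a, (if (a ∈ A' → c (x a) = c x₀) then α (x a) else 0) = ∏ a, α (x a) :=
        Finset.prod_congr rfl fun a _ => if_pos (hx a)
      have h4 : ∏ b, (if (b ∈ B' → d (y b) = d y₀) then β (y b) else 0) = ∏ b, β (y b) :=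
        Finset.prod_congr rfl fun b _ => if_pos (hy b)
      have h5 : ∏ e ∈ E, K (x e.1) (y e.2) = K x₀ y₀ ^ E.card := by
        rw [← Finset.prod_const]
        refine Finset.prod_congr rfl fun e he => ?_
        exact hcd _ _ _ _ (hx e.1 (Finset.mem_image_of_mem _ he))
          (hy e.2 (Finset.mem_image_of_mem _ he))
      rw [h3, h4, h5]
    · push Not at hy
      obtain ⟨b, hb, hb'⟩ := hy
      have h4 : ∏ b, (if (b ∈ B' → d (y b) = d y₀) then β (y b) else 0) = 0 := by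
        refine Finset.prod_eq_zero (Finset.mem_univ b) (if_neg ?_)
        intro h
        exact hb' (h hb)
      rw [h4, mul_zero, zero_mul]
      exact hnn
  · push Not at hx
    obtain ⟨a, ha, ha'⟩ := hx
    have h4 : ∏ a, (if (a ∈ A' → c (x a) = c x₀) then α (x a) else 0) = 0 := by
      refine Finset.prod_eq_zero (Finset.mem_univ a) (if_neg ?_)
      intro h
      exact ha' (h ha)
    rw [h4, zero_mul, zero_mul]
    exact hnn

theorem pigeon {α : V → ℝ} {β : W → ℝ} {K : V → W → ℝ} (hα : ∀ x, 0 ≤ α x)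
    (hα1 : ∑ x, α x = 1) (hβ : ∀ y, 0 ≤ β y) (hβ1 : ∑ y, β y = 1) (hK : ∀ x y, 0 ≤ K x y)
    (c : V → C) (d : W → D) (hcd : ∀ x x' y y', c x = c x' → d y = d y' → K x y = K x' y')
    (E : Finset (A × B)) :
    (∑ x, ∑ y, α x * β y * K x y) ^ E.card ≤
      (∑ x : A → V, ∑ y : B → W, (∏ a, α (x a)) * (∏ b, β (y b)) *
        ∏ e ∈ E, K (x e.1) (y e.2)) * ((Fintype.card C : ℝ) * Fintype.card D) ^ E.card := by
  have hV : Nonempty V := by
    by_contra h
    rw [not_nonempty_iff] at h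
    simp at hα1
  have hW : Nonempty W := by
    by_contra h
    rw [not_nonempty_iff] at h
    simp at hβ1
  obtain ⟨⟨x₀, y₀⟩, hmax⟩ := Finite.exists_max (fun q : V × W =>
    (∑ x' with c x' = c q.1, α x') * (∑ y' with d y' = d q.2, β y') * K q.1 q.2)
  have hm : 0 ≤ (∑ x' with c x' = c x₀, α x') * (∑ y' with d y' = d y₀, β y') * K x₀ y₀ :=
    mul_nonneg (mul_nonneg (Finset.sum_nonneg fun i _ => hα i)
      (Finset.sum_nonneg fun i _ => hβ i)) (hK _ _)
  have h1 := upper hα hβ c d (K := K) hm (fun x y => hmax (x, y))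
  have h0 : 0 ≤ ∑ x, ∑ y, α x * β y * K x y :=
    Finset.sum_nonneg fun x _ => Finset.sum_nonneg fun y _ =>
      mul_nonneg (mul_nonneg (hα x) (hβ y)) (hK x y)
  refine (pow_le_pow_left₀ h0 h1 _).trans ?_
  rw [mul_pow]
  refine mul_le_mul_of_nonneg_right ?_ (by positivity)
  exact lower hα hα1 hβ hβ1 hK c d hcd E x₀ y₀

end

/-- Equal counts: a permutation. -/
theorem exists_perm {k : ℕ} {V : Type*} [DecidableEq V] (x x' : Fin k → V)
    (h : ∀ v, Fintype.card {i // x i = v} = Fintype.card {i // x' i = v}) :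
    ∃ σ : Equiv.Perm (Fin k), ∀ i, x' (σ i) = x i := by
  let e : ∀ v, {i // x i = v} ≃ {i // x' i = v} := fun v => Fintype.equivOfCardEq (h v)
  refine ⟨(Equiv.sigmaFiberEquiv x).symm.trans
    ((Equiv.sigmaCongrRight e).trans (Equiv.sigmaFiberEquiv x')), fun i => ?_⟩
  exact (e (x i) ⟨i, rfl⟩).2

/-- The type of a word. -/
def typ {k : ℕ} {V : Type*} [DecidableEq V] (x : Fin k → V) (v : V) : Fin (k + 1) :=
  ⟨Fintype.card {i // x i = v}, by
    have h := Fintype.card_subtype_le (fun i => x i = v)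
    rw [Fintype.card_fin] at h
    omega⟩

theorem typ_perm {k : ℕ} {V : Type*} [DecidableEq V] {x x' : Fin k → V} (h : typ x = typ x') :
    ∃ σ : Equiv.Perm (Fin k), ∀ i, x' (σ i) = x i := by
  refine exists_perm x x' fun v => ?_
  have h1 := congrFun h v
  exact congrArg Fin.val h1

/-- The permanent-like average. -/
noncomputable def av {k : ℕ} {V W : Type*} (K : V → W → ℝ) (x : Fin k → V) (y : Fin k → W) : ℝ :=
  (∑ π : Equiv.Perm (Fin k), ∏ i, K (x i) (y (π i))) / (Fintype.card (Equiv.Perm (Fin k)) : ℝ)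

theorem av_nonneg {k : ℕ} {V W : Type*} {K : V → W → ℝ} (hK : ∀ x y, 0 ≤ K x y)
    (x : Fin k → V) (y : Fin k → W) : 0 ≤ av K x y :=
  div_nonneg (Finset.sum_nonneg fun _ _ => Finset.prod_nonneg fun _ _ => hK _ _)
    (Nat.cast_nonneg _)

theorem av_typ {k : ℕ} {V W : Type*} [DecidableEq V] [DecidableEq W] (K : V → W → ℝ)
    (x x' : Fin k → V) (y y' : Fin k → W) (hx : typ x = typ x') (hy : typ y = typ y') :
    av K x y = av K x' y' := by
  obtain ⟨σ, hσ⟩ := typ_perm hx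
  obtain ⟨ρ, hρ⟩ := typ_perm hy
  unfold av
  congr 1
  refine Fintype.sum_equiv ((Equiv.mulLeft ρ).trans (Equiv.mulRight σ⁻¹)) _ _ fun π => ?_
  rw [← Equiv.prod_comp σ (fun j => K (x' j) (y' (((Equiv.mulLeft ρ).trans
    (Equiv.mulRight σ⁻¹)) π j)))]
  refine Finset.prod_congr rfl fun i _ => ?_
  simp [← hσ, ← hρ]

theorem av_mean {k : ℕ} {V W : Type*} [Fintype V] [Fintype W] (α : V → ℝ) (β : W → ℝ)
    (K : V → W → ℝ) :
    ∑ x : Fin k → V, ∑ y : Fin k → W, (∏ i, α (x i)) * (∏ i, β (y i)) * av K x y =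
      (∑ x, ∑ y, α x * β y * K x y) ^ k := by
  have hN : (Fintype.card (Equiv.Perm (Fin k)) : ℝ) ≠ 0 :=
    Nat.cast_ne_zero.mpr Fintype.card_ne_zero
  have h1 : ∀ π : Equiv.Perm (Fin k),
      ∑ x : Fin k → V, ∑ y : Fin k → W, (∏ i, α (x i)) * (∏ i, β (y i)) *
        ∏ i, K (x i) (y (π i)) = (∑ x, ∑ y, α x * β y * K x y) ^ k := by
    intro π
    have h2 : ∀ x : Fin k → V, ∑ y : Fin k → W, (∏ i, α (x i)) * (∏ i, β (y i)) *
        ∏ i, K (x i) (y (π i)) = ∏ i, ∑ w, α (x i) * β w * K (x i) w := by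
      intro x
      rw [← sum_prod_pi (fun i w => α (x i) * β w * K (x i) w)]
      refine Fintype.sum_equiv (Equiv.arrowCongr π.symm (Equiv.refl W)) _ _ fun y => ?_
      rw [← Equiv.prod_comp π (fun i => β (y i)), ← Finset.prod_mul_distrib,
        ← Finset.prod_mul_distrib]
      refine Finset.prod_congr rfl fun i _ => ?_
      simp [Equiv.arrowCongr]
    rw [Finset.sum_congr rfl fun x _ => h2 x,
      sum_prod_pi (fun _ v => ∑ w, α v * β w * K v w), Finset.prod_const, Finset.card_univ,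
      Fintype.card_fin]
  have h3 : ∀ (x : Fin k → V) (y : Fin k → W), (∏ i, α (x i)) * (∏ i, β (y i)) * av K x y =
      (∑ π : Equiv.Perm (Fin k), (∏ i, α (x i)) * (∏ i, β (y i)) * ∏ i, K (x i) (y (π i))) /
        (Fintype.card (Equiv.Perm (Fin k)) : ℝ) := by
    intro x y
    unfold av
    rw [← mul_div_assoc, Finset.mul_sum]
  simp_rw [h3]
  rw [Finset.sum_congr rfl fun x _ => (Finset.sum_div _ _ _).symm, ← Finset.sum_div,
    Finset.sum_congr rfl fun x _ => Finset.sum_comm, Finset.sum_comm,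
    Finset.sum_congr rfl fun π _ => h1 π, Finset.sum_const, Finset.card_univ, nsmul_eq_mul,
    mul_div_assoc, mul_comm, div_mul_cancel₀ _ hN]

theorem av_lift {k : ℕ} {V W A B : Type*} [Fintype A] [Fintype B] [DecidableEq A]
    [DecidableEq B] (K : V → W → ℝ) (E : Finset (A × B)) (x : A → Fin k → V)
    (y : B → Fin k → W) :
    ∑ τ : A × B → Equiv.Perm (Fin k), ∏ e ∈ E, ∏ i, K (x e.1 i) (y e.2 (τ e i)) =
      (Fintype.card (A × B → Equiv.Perm (Fin k)) : ℝ) * ∏ e ∈ E, av K (x e.1) (y e.2) := by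
  have hN : (Fintype.card (Equiv.Perm (Fin k)) : ℝ) ≠ 0 :=
    Nat.cast_ne_zero.mpr Fintype.card_ne_zero
  have h1 : ∀ τ : A × B → Equiv.Perm (Fin k),
      ∏ e ∈ E, ∏ i, K (x e.1 i) (y e.2 (τ e i)) =
        ∏ e : A × B, if e ∈ E then ∏ i, K (x e.1 i) (y e.2 (τ e i)) else 1 := by
    intro τ
    rw [Finset.prod_ite_mem, Finset.univ_inter]
  rw [Finset.sum_congr rfl fun τ _ => h1 τ,
    sum_prod_pi (fun (e : A × B) (π : Equiv.Perm (Fin k)) =>
      if e ∈ E then ∏ i, K (x e.1 i) (y e.2 (π i)) else 1)]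
  have h2 : ∀ e : A × B, ∑ π : Equiv.Perm (Fin k),
      (if e ∈ E then ∏ i, K (x e.1 i) (y e.2 (π i)) else 1) =
      (Fintype.card (Equiv.Perm (Fin k)) : ℝ) * if e ∈ E then av K (x e.1) (y e.2) else 1 := by
    intro e
    by_cases he : e ∈ E
    · simp only [he, if_true]
      unfold av
      rw [mul_div_cancel₀ _ hN]
    · simp only [he, if_false]
      simp
  rw [Finset.prod_congr rfl fun e _ => h2 e, Finset.prod_mul_distrib, Finset.prod_ite_mem,
    Finset.univ_inter, Finset.prod_const, Finset.card_univ, Fintype.card_fun]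
  push_cast
  rfl

theorem lim_le {q t : ℝ} (hq : 0 ≤ q) (ht : 0 ≤ t) (M : ℕ)
    (h : ∀ k : ℕ, q ^ k ≤ t ^ k * ((k : ℝ) + 1) ^ M) : q ≤ t := by
  by_contra hlt
  push Not at hlt
  have hq0 : 0 < q := ht.trans_lt hlt
  have hr : |t / q| < 1 := by
    rw [abs_of_nonneg (div_nonneg ht hq)]
    exact (div_lt_one hq0).mpr hlt
  have h1 := (tendsto_pow_const_mul_const_pow_of_abs_lt_one M hr).const_mul ((2 : ℝ) ^ M)
  rw [mul_zero] at h1
  have h2 : ∀ᶠ k : ℕ in Filter.atTop, (1 : ℝ) ≤ 2 ^ M * ((k : ℝ) ^ M * (t / q) ^ k) := by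
    filter_upwards [Filter.eventually_ge_atTop 1] with k hk
    have hk' : (1 : ℝ) ≤ k := by exact_mod_cast hk
    have h3 := h k
    have h4 : ((k : ℝ) + 1) ^ M ≤ (2 * k) ^ M :=
      pow_le_pow_left₀ (by positivity) (by linarith) _
    have h5 : q ^ k ≤ t ^ k * (2 * (k : ℝ)) ^ M :=
      h3.trans (mul_le_mul_of_nonneg_left h4 (pow_nonneg ht _))
    have h6 : (2 : ℝ) ^ M * ((k : ℝ) ^ M * (t / q) ^ k) = t ^ k * (2 * (k : ℝ)) ^ M / q ^ k := by
      rw [div_pow, mul_pow]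
      ring
    rw [h6, le_div_iff₀ (pow_pos hq0 _), one_mul]
    exact h5
  have h3 := ge_of_tendsto h1 h2
  norm_num at h3

end K5

open K5

/-- [K5] pigeonhole. `liftIneq` = the inequality for all permutation lifts of all finite
bipartite edge sets; conclusion = Sidorenko. -/
theorem of_lifts {X Y : Type*} [Fintype X] [Fintype Y] [DecidableEq X] [DecidableEq Y]
    {α : X → ℝ} {β : Y → ℝ} {K : X → Y → ℝ} (hα : ∀ x, 0 ≤ α x) (hα1 : ∑ x, α x = 1)
    (hβ : ∀ y, 0 ≤ β y) (hβ1 : ∑ y, β y = 1) (hK : ∀ x y, 0 ≤ K x y)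
    {A B : Type*} [Fintype A] [Fintype B] [DecidableEq A] [DecidableEq B] (E : Finset (A × B))
    (h : ∀ (k : ℕ) (τ : A × B → Equiv.Perm (Fin k)),
      ∑ x : A → Fin k → X, ∑ y : B → Fin k → Y, (∏ a, ∏ i, α (x a i)) * (∏ b, ∏ i, β (y b i)) *
        ∏ e ∈ E, ∏ i, K (x e.1 i) (y e.2 (τ e i)) ≤
      (∑ x : A → X, ∑ y : B → Y, (∏ a, α (x a)) * (∏ b, β (y b)) *
        ∏ e ∈ E, K (x e.1) (y e.2)) ^ k) :
    (∑ x, ∑ y, α x * β y * K x y) ^ E.card ≤
      ∑ x : A → X, ∑ y : B → Y, (∏ a, α (x a)) * (∏ b, β (y b)) * ∏ e ∈ E, K (x e.1) (y e.2) := by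
  set t : ℝ := ∑ x : A → X, ∑ y : B → Y, (∏ a, α (x a)) * (∏ b, β (y b)) *
    ∏ e ∈ E, K (x e.1) (y e.2) with ht
  set w : ℝ := ∑ x, ∑ y, α x * β y * K x y with hw
  have ht0 : 0 ≤ t := Finset.sum_nonneg fun x _ => Finset.sum_nonneg fun y _ =>
    mul_nonneg (mul_nonneg (Finset.prod_nonneg fun a _ => hα _)
      (Finset.prod_nonneg fun b _ => hβ _)) (Finset.prod_nonneg fun e _ => hK _ _)
  have hw0 : 0 ≤ w := Finset.sum_nonneg fun x _ => Finset.sum_nonneg fun y _ =>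
    mul_nonneg (mul_nonneg (hα x) (hβ y)) (hK x y)
  -- averaging over all lifts
  have hav : ∀ k : ℕ, ∑ x : A → Fin k → X, ∑ y : B → Fin k → Y,
      (∏ a, ∏ i, α (x a i)) * (∏ b, ∏ i, β (y b i)) * ∏ e ∈ E, av K (x e.1) (y e.2) ≤ t ^ k := by
    intro k
    have hN : (0 : ℝ) < (Fintype.card (A × B → Equiv.Perm (Fin k)) : ℝ) :=
      Nat.cast_pos.mpr Fintype.card_pos
    have h1 : ∑ τ : A × B → Equiv.Perm (Fin k), ∑ x : A → Fin k → X, ∑ y : B → Fin k → Y,
        (∏ a, ∏ i, α (x a i)) * (∏ b, ∏ i, β (y b i)) *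
        ∏ e ∈ E, ∏ i, K (x e.1 i) (y e.2 (τ e i)) ≤
        (Fintype.card (A × B → Equiv.Perm (Fin k)) : ℝ) * t ^ k := by
      calc _ ≤ ∑ _τ : A × B → Equiv.Perm (Fin k), t ^ k :=
            Finset.sum_le_sum fun τ _ => h k τ
        _ = _ := by rw [Finset.sum_const, Finset.card_univ, nsmul_eq_mul]
    have h2 : ∑ τ : A × B → Equiv.Perm (Fin k), ∑ x : A → Fin k → X, ∑ y : B → Fin k → Y,
        (∏ a, ∏ i, α (x a i)) * (∏ b, ∏ i, β (y b i)) *
        ∏ e ∈ E, ∏ i, K (x e.1 i) (y e.2 (τ e i)) =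
        (Fintype.card (A × B → Equiv.Perm (Fin k)) : ℝ) *
        ∑ x : A → Fin k → X, ∑ y : B → Fin k → Y,
          (∏ a, ∏ i, α (x a i)) * (∏ b, ∏ i, β (y b i)) *
            ∏ e ∈ E, av K (x e.1) (y e.2) := by
      rw [Finset.sum_comm, Finset.mul_sum]
      refine Finset.sum_congr rfl fun x _ => ?_
      rw [Finset.sum_comm, Finset.mul_sum]
      refine Finset.sum_congr rfl fun y _ => ?_
      rw [← Finset.mul_sum, av_lift]
      ring
    rw [h2] at h1
    exact le_of_mul_le_mul_left h1 hN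
  -- pigeonhole
  have hpig : ∀ k : ℕ, (w ^ E.card) ^ k ≤
      t ^ k * ((k : ℝ) + 1) ^ ((Fintype.card X + Fintype.card Y) * E.card) := by
    intro k
    have h1 : ∑ x : Fin k → X, ∏ i, α (x i) = 1 := by
      rw [sum_prod_pi (fun _ v => α v)]
      simp [hα1]
    have h2 : ∑ y : Fin k → Y, ∏ i, β (y i) = 1 := by
      rw [sum_prod_pi (fun _ v => β v)]
      simp [hβ1]
    have h3 := pigeon (α := fun x : Fin k → X => ∏ i, α (x i))
      (β := fun y : Fin k → Y => ∏ i, β (y i)) (K := av K)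
      (fun x => Finset.prod_nonneg fun i _ => hα _) h1
      (fun y => Finset.prod_nonneg fun i _ => hβ _) h2 (av_nonneg hK)
      typ typ (av_typ K) E
    rw [av_mean] at h3
    have h4 : (Fintype.card (X → Fin (k + 1)) : ℝ) * Fintype.card (Y → Fin (k + 1)) =
        ((k : ℝ) + 1) ^ (Fintype.card X + Fintype.card Y) := by
      rw [Fintype.card_fun, Fintype.card_fun, Fintype.card_fin, pow_add]
      push_cast
      rfl
    rw [h4, ← pow_mul, ← pow_mul, mul_comm k] at h3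
    rw [← pow_mul]
    exact h3.trans (mul_le_mul_of_nonneg_right (hav k) (by positivity))
  exact lim_le (pow_nonneg hw0 _) ht0 _ hpig

end Vale.Agent.P050.LS
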