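import Vale.Agent.P050.LSK1
import Vale.Agent.P050.LSK4
import Vale.Agent.P050.LSK5

/-!
# P050: log-supermodular kernels on cubes and on finite distributive lattices
-/

open Finset

namespace Vale.Agent.P050.LS

theorem LSM.prod {α ι : Type*} [Lattice α] (s : Finset ι) {f : ι → α → ℝ}
    (h0 : ∀ i x, 0 ≤ f i x) (h : ∀ i, LSM (f i)) : LSM (fun x => ∏ i ∈ s, f i x) := by
  intro x y
  simp only
  rw [← prod_mul_distrib, ← prod_mul_distrib]
  exact prod_le_prod (fun i _ => mul_nonneg (h0 i x) (h0 i y)) fun i _ => h i x y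

theorem LSM.mul {α : Type*} [Lattice α] {f g : α → ℝ} (hf0 : ∀ x, 0 ≤ f x)
    (hg0 : ∀ x, 0 ≤ g x) (hf : LSM f) (hg : LSM g) : LSM (fun x => f x * g x) := by
  intro x y
  simp only
  calc f x * g x * (f y * g y) = (f x * f y) * (g x * g y) := by ring
    _ ≤ (f (x ⊓ y) * f (x ⊔ y)) * (g (x ⊓ y) * g (x ⊔ y)) :=
        mul_le_mul (hf x y) (hg x y) (mul_nonneg (hg0 _) (hg0 _))
          (mul_nonneg (hf0 _) (hf0 _))
    _ = _ := by ring

section cube

variable {a b A B : Type} [Fintype a] [Fintype b] [Fintype A] [Fintype B] [DecidableEq a]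
  [DecidableEq b] [DecidableEq A] [DecidableEq B]

/-- Sheets: regrouping the coordinates. -/
def regroup (κ : Type) : (((A × a) ⊕ (B × b)) → κ → Bool) ≃
    (A → κ → (a → Bool)) × (B → κ → (b → Bool)) where
  toFun x := (fun u t i => x (.inl (u, i)) t, fun v t j => x (.inr (v, j)) t)
  invFun p w t := match w with
    | .inl (u, i) => p.1 u t i
    | .inr (v, j) => p.2 v t j
  left_inv x := by
    funext w t
    rcases w with ⟨u, i⟩ | ⟨v, j⟩ <;> rfl
  right_inv p := rfl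

/-- The same without sheets. -/
def regroup1 : (((A × a) ⊕ (B × b)) → Bool) ≃ (A → (a → Bool)) × (B → (b → Bool)) where
  toFun x := (fun u i => x (.inl (u, i)), fun v j => x (.inr (v, j)))
  invFun p w := match w with
    | .inl (u, i) => p.1 u i
    | .inr (v, j) => p.2 v j
  left_inv x := by
    funext w
    rcases w with ⟨u, i⟩ | ⟨v, j⟩ <;> rfl
  right_inv p := rfl

theorem lift_ineq {α : (a → Bool) → ℝ} {β : (b → Bool) → ℝ} {K : (a → Bool) → (b → Bool) → ℝ}
    (hα : ∀ x, 0 ≤ α x) (hαs : LSM α) (hβ : ∀ y, 0 ≤ β y) (hβs : LSM β)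
    (hK : ∀ x y, 0 ≤ K x y)
    (hKs : ∀ x x' y y', K x y * K x' y' ≤ K (x ⊓ x') (y ⊓ y') * K (x ⊔ x') (y ⊔ y'))
    (E : Finset (A × B)) (k : ℕ) (τ : A × B → Equiv.Perm (Fin k)) :
    ∑ x : A → Fin k → (a → Bool), ∑ y : B → Fin k → (b → Bool),
      (∏ u, ∏ i, α (x u i)) * (∏ v, ∏ i, β (y v i)) *
        ∏ e ∈ E, ∏ i, K (x e.1 i) (y e.2 (τ e i)) ≤
      (∑ x : A → (a → Bool), ∑ y : B → (b → Bool), (∏ u, α (x u)) * (∏ v, β (y v)) *
        ∏ e ∈ E, K (x e.1) (y e.2)) ^ k := by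
  classical
  set F : (((A × a) ⊕ (B × b)) → Fin k → Bool) → ℝ := fun x =>
    (∏ u : A, ∏ t : Fin k, α (fun i => x (.inl (u, i)) t)) *
    (∏ v : B, ∏ t : Fin k, β (fun j => x (.inr (v, j)) t)) *
    ∏ e ∈ E, ∏ t : Fin k, K (fun i => x (.inl (e.1, i)) t) (fun j => x (.inr (e.2, j)) (τ e t))
    with hF
  set g : (((A × a) ⊕ (B × b)) → Bool) → ℝ := fun x =>
    (∏ u : A, α (fun i => x (.inl (u, i)))) * (∏ v : B, β (fun j => x (.inr (v, j)))) *
    ∏ e ∈ E, K (fun i => x (.inl (e.1, i))) (fun j => x (.inr (e.2, j))) with hg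
  have hF0 : ∀ x, 0 ≤ F x := fun x => mul_nonneg (mul_nonneg
    (prod_nonneg fun _ _ => prod_nonneg fun _ _ => hα _)
    (prod_nonneg fun _ _ => prod_nonneg fun _ _ => hβ _))
    (prod_nonneg fun _ _ => prod_nonneg fun _ _ => hK _ _)
  have hg0 : ∀ x, 0 ≤ g x := fun x => mul_nonneg (mul_nonneg
    (prod_nonneg fun _ _ => hα _) (prod_nonneg fun _ _ => hβ _))
    (prod_nonneg fun _ _ => hK _ _)
  have hLS : LSM F := by
    refine LSM.mul (fun x => mul_nonneg (prod_nonneg fun _ _ => prod_nonneg fun _ _ => hα _)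
      (prod_nonneg fun _ _ => prod_nonneg fun _ _ => hβ _))
      (fun x => prod_nonneg fun _ _ => prod_nonneg fun _ _ => hK _ _) (LSM.mul
      (fun x => prod_nonneg fun _ _ => prod_nonneg fun _ _ => hα _)
      (fun x => prod_nonneg fun _ _ => prod_nonneg fun _ _ => hβ _) ?_ ?_) ?_
    · refine LSM.prod univ (fun u x => prod_nonneg fun _ _ => hα _) fun u => ?_
      refine LSM.prod univ (fun t x => hα _) fun t => ?_
      intro x y
      exact hαs _ _
    · refine LSM.prod univ (fun u x => prod_nonneg fun _ _ => hβ _) fun u => ?_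
      refine LSM.prod univ (fun t x => hβ _) fun t => ?_
      intro x y
      exact hβs _ _
    · refine LSM.prod E (fun u x => prod_nonneg fun _ _ => hK _ _) fun u => ?_
      refine LSM.prod univ (fun t x => hK _ _) fun t => ?_
      intro x y
      exact hKs _ _ _ _
  have hb : ∀ x, F x ≤ ∏ i : Fin k,
      g (fun w => decide ((i : ℕ) < (univ.filter fun j => x w j = true).card)) := by
    intro x
    simp only [hF, hg, prod_mul_distrib]
    refine mul_le_mul (mul_le_mul ?_ ?_ ?_ ?_) ?_ ?_ ?_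
    · conv_rhs => rw [prod_comm]
      refine prod_le_prod (fun _ _ => prod_nonneg fun _ _ => hα _) fun u _ => ?_
      exact uncross hα hαs (fun t i => x (.inl (u, i)) t)
    · conv_rhs => rw [prod_comm]
      refine prod_le_prod (fun _ _ => prod_nonneg fun _ _ => hβ _) fun v _ => ?_
      exact uncross hβ hβs (fun t j => x (.inr (v, j)) t)
    · exact prod_nonneg fun _ _ => prod_nonneg fun _ _ => hβ _
    · exact prod_nonneg fun _ _ => prod_nonneg fun _ _ => hα _
    · conv_rhs => rw [prod_comm]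
      refine prod_le_prod (fun _ _ => prod_nonneg fun _ _ => hK _ _) fun e _ => ?_
      have h1 := uncross (ι := a ⊕ b) (k := k) (f := fun z => K (fun i => z (.inl i))
        (fun j => z (.inr j))) (fun z => hK _ _) (fun z z' => hKs _ _ _ _)
        (fun t => Sum.elim (fun i => x (.inl (e.1, i)) t) (fun j => x (.inr (e.2, j)) (τ e t)))
      refine h1.trans (le_of_eq ?_)
      refine prod_congr rfl fun t _ => ?_
      have h2 : ∀ j : b, (univ.filter fun s : Fin k => x (.inr (e.2, j)) (τ e s) = true).card =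
          (univ.filter fun s : Fin k => x (.inr (e.2, j)) s = true).card := by
        intro j
        refine card_bij (fun s _ => τ e s) ?_ ?_ ?_
        · intro s hs
          rw [mem_filter] at hs ⊢
          exact ⟨mem_univ _, hs.2⟩
        · intro s _ s' _ h
          exact (τ e).injective h
        · intro s hs
          rw [mem_filter] at hs
          refine ⟨(τ e).symm s, ?_, by simp⟩
          rw [mem_filter, Equiv.apply_symm_apply]
          exact ⟨mem_univ _, hs.2⟩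
      have h3 : ∀ j : b, srt (fun t => Sum.elim (fun i => x (.inl (e.1, i)) t)
          (fun j => x (.inr (e.2, j)) (τ e t))) t (.inr j) =
          decide ((t : ℕ) < (univ.filter fun s => x (.inr (e.2, j)) s = true).card) := by
        intro j
        rw [← h2 j]
        rfl
      simp only [h3]
      rfl
    · exact prod_nonneg fun _ _ => prod_nonneg fun _ _ => hK _ _
    · exact mul_nonneg (prod_nonneg fun _ _ => prod_nonneg fun _ _ => hα _)
        (prod_nonneg fun _ _ => prod_nonneg fun _ _ => hβ _)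
  have h := cover' hF0 hg0 hLS hb
  have e1 : ∑ x, F x = ∑ x : A → Fin k → (a → Bool), ∑ y : B → Fin k → (b → Bool),
      (∏ u, ∏ i, α (x u i)) * (∏ v, ∏ i, β (y v i)) *
        ∏ e ∈ E, ∏ i, K (x e.1 i) (y e.2 (τ e i)) := by
    rw [← (regroup (A := A) (B := B) (a := a) (b := b) (Fin k)).symm.sum_comp,
      Fintype.sum_prod_type]
    rfl
  have e2 : ∑ x, g x = ∑ x : A → (a → Bool), ∑ y : B → (b → Bool), (∏ u, α (x u)) *
      (∏ v, β (y v)) * ∏ e ∈ E, K (x e.1) (y e.2) := by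
    rw [← (regroup1 (A := A) (B := B) (a := a) (b := b)).symm.sum_comp,
      Fintype.sum_prod_type]
    rfl
  rw [e1, e2] at h
  exact h

theorem sid_cube {α : (a → Bool) → ℝ} {β : (b → Bool) → ℝ} {K : (a → Bool) → (b → Bool) → ℝ}
    (hα : ∀ x, 0 ≤ α x) (hα1 : ∑ x, α x = 1) (hαs : LSM α) (hβ : ∀ y, 0 ≤ β y)
    (hβ1 : ∑ y, β y = 1) (hβs : LSM β) (hK : ∀ x y, 0 ≤ K x y)
    (hKs : ∀ x x' y y', K x y * K x' y' ≤ K (x ⊓ x') (y ⊓ y') * K (x ⊔ x') (y ⊔ y'))
    (E : Finset (A × B)) :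
    (∑ x, ∑ y, α x * β y * K x y) ^ E.card ≤
      ∑ x : A → (a → Bool), ∑ y : B → (b → Bool), (∏ u, α (x u)) * (∏ v, β (y v)) *
        ∏ e ∈ E, K (x e.1) (y e.2) :=
  of_lifts hα hα1 hβ hβ1 hK E fun k τ => lift_ineq hα hαs hβ hβs hK hKs E k τ

end cube

section lattice

variable {X Y A B : Type} [Fintype X] [Fintype Y] [DistribLattice X] [DistribLattice Y]
  [Fintype A] [Fintype B] [DecidableEq A] [DecidableEq B]

/-- Every finite distributive lattice embeds into a cube. -/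
theorem exists_cube (X : Type) [Finite X] [DistribLattice X] :
    ∃ (a : Type) (_ : DecidableEq a) (_ : Fintype a) (Φ : X → a → Bool),
      Function.Injective Φ ∧ (∀ x x', Φ (x ⊓ x') = Φ x ⊓ Φ x') ∧
      ∀ x x', Φ (x ⊔ x') = Φ x ⊔ Φ x' := by
  obtain ⟨a, d, f, φ, hφ⟩ := exists_birkhoff_representation X
  refine ⟨a, d, f, fun x i => decide (i ∈ φ x), ?_, ?_, ?_⟩
  · intro x y h
    apply hφ
    ext i
    have := congrFun h i
    simpa using this
  · intro x x'
    funext i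
    rw [Pi.inf_apply]
    simp only [map_inf]
    by_cases h1 : i ∈ φ x <;> by_cases h2 : i ∈ φ x' <;> simp [h1, h2]
  · intro x x'
    funext i
    rw [Pi.sup_apply]
    simp only [map_sup]
    by_cases h1 : i ∈ φ x <;> by_cases h2 : i ∈ φ x' <;> simp [h1, h2]

theorem ext_nonneg {X Z : Type} {Φ : X → Z} (hΦ : Function.Injective Φ) {α : X → ℝ}
    (hα : ∀ x, 0 ≤ α x) (z : Z) : 0 ≤ Function.extend Φ α 0 z := by
  by_cases h : ∃ x, Φ x = z
  · obtain ⟨x, rfl⟩ := h
    rw [hΦ.extend_apply]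
    exact hα x
  · rw [Function.extend_apply' _ _ _ h]
    exact le_rfl

theorem ext_lsm {X Z : Type} [Lattice X] [Lattice Z] {Φ : X → Z} (hΦ : Function.Injective Φ)
    (hi : ∀ x x', Φ (x ⊓ x') = Φ x ⊓ Φ x') (hs : ∀ x x', Φ (x ⊔ x') = Φ x ⊔ Φ x') {α : X → ℝ}
    (hα : ∀ x, 0 ≤ α x) (h : LSM α) : LSM (Function.extend Φ α 0) := by
  intro z z'
  have hR : 0 ≤ Function.extend Φ α 0 (z ⊓ z') * Function.extend Φ α 0 (z ⊔ z') :=
    mul_nonneg (ext_nonneg hΦ hα _) (ext_nonneg hΦ hα _)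
  by_cases h1 : ∃ x, Φ x = z
  · by_cases h2 : ∃ x, Φ x = z'
    · obtain ⟨x, rfl⟩ := h1
      obtain ⟨x', rfl⟩ := h2
      rw [← hi, ← hs, hΦ.extend_apply, hΦ.extend_apply, hΦ.extend_apply, hΦ.extend_apply]
      exact h x x'
    · rw [Function.extend_apply' _ _ _ h2, Pi.zero_apply, mul_zero]
      exact hR
  · rw [Function.extend_apply' _ _ _ h1, Pi.zero_apply, zero_mul]
    exact hR

theorem sid_lat {α : X → ℝ} {β : Y → ℝ} {K : X → Y → ℝ} (hα : ∀ x, 0 ≤ α x)
    (hα1 : ∑ x, α x = 1) (hαs : LSM α) (hβ : ∀ y, 0 ≤ β y) (hβ1 : ∑ y, β y = 1)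
    (hβs : LSM β) (hK : ∀ x y, 0 ≤ K x y)
    (hKs : ∀ x x' y y', K x y * K x' y' ≤ K (x ⊓ x') (y ⊓ y') * K (x ⊔ x') (y ⊔ y'))
    (E : Finset (A × B)) :
    (∑ x, ∑ y, α x * β y * K x y) ^ E.card ≤
      ∑ x : A → X, ∑ y : B → Y, (∏ u, α (x u)) * (∏ v, β (y v)) *
        ∏ e ∈ E, K (x e.1) (y e.2) := by
  classical
  obtain ⟨a, _, _, Φ, hΦ, hΦi, hΦs⟩ := exists_cube X
  obtain ⟨b, _, _, Ψ, hΨ, hΨi, hΨs⟩ := exists_cube Y
  have hΩ : Function.Injective (fun p : X × Y => (Φ p.1, Ψ p.2)) := by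
    rintro ⟨x, y⟩ ⟨x', y'⟩ h
    simp only [Prod.mk.injEq] at h
    exact Prod.ext (hΦ h.1) (hΨ h.2)
  set α' : (a → Bool) → ℝ := Function.extend Φ α 0 with hα'
  set β' : (b → Bool) → ℝ := Function.extend Ψ β 0 with hβ'
  set K1 : (a → Bool) × (b → Bool) → ℝ :=
    Function.extend (fun p : X × Y => (Φ p.1, Ψ p.2)) (fun p => K p.1 p.2) 0 with hK1
  have eα : ∀ x, α' (Φ x) = α x := fun x => hΦ.extend_apply _ _ _
  have eβ : ∀ x, β' (Ψ x) = β x := fun x => hΨ.extend_apply _ _ _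
  have eK : ∀ x y, K1 (Φ x, Ψ y) = K x y := fun x y => hΩ.extend_apply _ _ (x, y)
  have zα : ∀ z, z ∉ Set.range Φ → α' z = 0 := fun z hz => by
    rw [hα', Function.extend_apply' _ _ _ hz]
    rfl
  have zβ : ∀ z, z ∉ Set.range Ψ → β' z = 0 := fun z hz => by
    rw [hβ', Function.extend_apply' _ _ _ hz]
    rfl
  have hK1s : LSM K1 := ext_lsm hΩ (fun p p' => by
      rw [Prod.fst_inf, Prod.snd_inf, hΦi, hΨi]
      rfl) (fun p p' => by
      rw [Prod.fst_sup, Prod.snd_sup, hΦs, hΨs]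
      rfl) (fun p => hK _ _) (fun p p' => hKs _ _ _ _)
  have h := sid_cube (A := A) (B := B) (α := α') (β := β') (K := fun z w => K1 (z, w))
    (ext_nonneg hΦ hα)
    (by
      rw [← hα1]
      exact (Fintype.sum_of_injective Φ hΦ α α' zα fun x => (eα x).symm).symm)
    (ext_lsm hΦ hΦi hΦs hα hαs) (ext_nonneg hΨ hβ)
    (by
      rw [← hβ1]
      exact (Fintype.sum_of_injective Ψ hΨ β β' zβ fun x => (eβ x).symm).symm)
    (ext_lsm hΨ hΨi hΨs hβ hβs) (fun z w => ext_nonneg hΩ (fun p => hK _ _) _)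
    (fun z z' w w' => hK1s (z, w) (z', w')) E
  have hm : ∑ x, ∑ y, α x * β y * K x y = ∑ z, ∑ w, α' z * β' w * K1 (z, w) := by
    refine Fintype.sum_of_injective Φ hΦ _ _ (fun z hz => ?_) fun x => ?_
    · refine sum_eq_zero fun w _ => ?_
      rw [zα z hz, zero_mul, zero_mul]
    · refine Fintype.sum_of_injective Ψ hΨ _ _ (fun w hw => ?_) fun y => ?_
      · rw [zβ w hw, mul_zero, zero_mul]
      · rw [eα, eβ, eK]
  have hΦA : Function.Injective (fun (x : A → X) (u : A) => Φ (x u)) := by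
    intro x x' h
    funext u
    exact hΦ (congrFun h u)
  have hΨB : Function.Injective (fun (y : B → Y) (v : B) => Ψ (y v)) := by
    intro x x' h
    funext u
    exact hΨ (congrFun h u)
  have rA : ∀ x' : A → (a → Bool), x' ∉ Set.range (fun (x : A → X) (u : A) => Φ (x u)) →
      ∏ u, α' (x' u) = 0 := by
    intro x' hx'
    by_contra h1
    apply hx'
    have h2 : ∀ u, ∃ x, Φ x = x' u := by
      intro u
      by_contra h3
      exact h1 (prod_eq_zero (mem_univ u) (zα _ h3))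
    choose x hx using h2
    exact ⟨x, funext hx⟩
  have rB : ∀ x' : B → (b → Bool), x' ∉ Set.range (fun (x : B → Y) (u : B) => Ψ (x u)) →
      ∏ u, β' (x' u) = 0 := by
    intro x' hx'
    by_contra h1
    apply hx'
    have h2 : ∀ u, ∃ x, Ψ x = x' u := by
      intro u
      by_contra h3
      exact h1 (prod_eq_zero (mem_univ u) (zβ _ h3))
    choose x hx using h2
    exact ⟨x, funext hx⟩
  have hz : ∑ x : A → X, ∑ y : B → Y, (∏ u, α (x u)) * (∏ v, β (y v)) *
        ∏ e ∈ E, K (x e.1) (y e.2) =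
      ∑ x : A → (a → Bool), ∑ y : B → (b → Bool), (∏ u, α' (x u)) * (∏ v, β' (y v)) *
        ∏ e ∈ E, K1 (x e.1, y e.2) := by
    refine Fintype.sum_of_injective _ hΦA _ _ (fun z hz => ?_) fun x => ?_
    · refine sum_eq_zero fun w _ => ?_
      rw [rA z hz, zero_mul, zero_mul]
    · refine Fintype.sum_of_injective _ hΨB _ _ (fun w hw => ?_) fun y => ?_
      · rw [rB w hw, mul_zero, zero_mul]
      · simp only [eα, eβ, eK]
  rw [hm, hz]
  exact h

end lattice

end Vale.Agent.P050.LS
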