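import Vale.Agent.P050.CoDefs

/-!
# P050 (Sidorenko): Seinsche's theorem, graphs without an induced path on four vertices are
cographs
-/

open Finset

namespace Vale.Agent.P050.Sei

/-- No induced path on four vertices. -/
def P4F {V : Type} (G : SimpleGraph V) : Prop :=
  ∀ a b c d, G.Adj a b → G.Adj b c → G.Adj c d → ¬ G.Adj a c → ¬ G.Adj b d → G.Adj a d

theorem P4F.compl {V : Type} {G : SimpleGraph V} (h : P4F G) : P4F Gᶜ := by
  intro a b c d h1 h2 h3 h4 h5
  by_cases hac : a = c
  · rw [hac]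
    exact h3
  by_cases hbd : b = d
  · rw [← hbd]
    exact h1
  rw [SimpleGraph.compl_adj] at *
  have h4' : G.Adj a c := by
    by_contra h'
    exact h4 ⟨hac, h'⟩
  have h5' : G.Adj b d := by
    by_contra h'
    exact h5 ⟨hbd, h'⟩
  have had : a ≠ d := by
    rintro rfl
    exact h3.2 h4'.symm
  refine ⟨had, fun h6 => ?_⟩
  exact h2.2 (h c a d b h4'.symm h6 h5'.symm h3.2 h1.2).symm

variable {V : Type} [DecidableEq V]

/-- A split of the vertex set `T`. -/
def Sp (G : SimpleGraph V) (T : Finset V) : Prop :=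
  ∃ s ⊆ T, s.Nonempty ∧ (T \ s).Nonempty ∧
    ((∀ x ∈ s, ∀ y ∈ T \ s, ¬ G.Adj x y) ∨ (∀ x ∈ s, ∀ y ∈ T \ s, G.Adj x y))

theorem Sp.compl {G : SimpleGraph V} {T : Finset V} (h : Sp Gᶜ T) : Sp G T := by
  obtain ⟨s, hs, h1, h2, h3 | h3⟩ := h
  · refine ⟨s, hs, h1, h2, Or.inr fun x hx y hy => ?_⟩
    have h4 := h3 x hx y hy
    rw [SimpleGraph.compl_adj] at h4
    have hxy : x ≠ y := by
      rintro rfl
      exact (mem_sdiff.1 hy).2 hx
    by_contra h5
    exact h4 ⟨hxy, h5⟩
  · refine ⟨s, hs, h1, h2, Or.inl fun x hx y hy => ?_⟩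
    have h4 := h3 x hx y hy
    rw [SimpleGraph.compl_adj] at h4
    exact h4.2

theorem step {G : SimpleGraph V} (hG : P4F G) {T : Finset V} {v : V} (hv : v ∉ T)
    {s : Finset V} (hs : s ⊆ T) (h1 : s.Nonempty) (h2 : (T \ s).Nonempty)
    (h3 : ∀ x ∈ s, ∀ y ∈ T \ s, ¬ G.Adj x y) : Sp G (insert v T) := by
  classical
  by_cases hA : ∃ a ∈ s, G.Adj v a
  swap
  · push Not at hA
    refine ⟨s, hs.trans (subset_insert _ _), h1, ?_, Or.inl fun x hx y hy => ?_⟩
    · obtain ⟨y, hy⟩ := h2
      exact ⟨y, mem_sdiff.2 ⟨mem_insert_of_mem (mem_sdiff.1 hy).1, (mem_sdiff.1 hy).2⟩⟩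
    · obtain ⟨hy1, hy2⟩ := mem_sdiff.1 hy
      rcases mem_insert.1 hy1 with rfl | hy1
      · exact fun h => hA x hx h.symm
      · exact h3 x hx y (mem_sdiff.2 ⟨hy1, hy2⟩)
  by_cases hB : ∃ b ∈ T \ s, G.Adj v b
  swap
  · push Not at hB
    refine ⟨T \ s, sdiff_subset.trans (subset_insert _ _), h2, ?_,
      Or.inl fun x hx y hy => ?_⟩
    · obtain ⟨y, hy⟩ := h1
      exact ⟨y, mem_sdiff.2 ⟨mem_insert_of_mem (hs hy), fun h => (mem_sdiff.1 h).2 hy⟩⟩
    · obtain ⟨hy1, hy2⟩ := mem_sdiff.1 hy
      rcases mem_insert.1 hy1 with rfl | hy1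
      · exact fun h => hB x hx h.symm
      · have hys : y ∈ s := by
          by_contra h
          exact hy2 (mem_sdiff.2 ⟨hy1, h⟩)
        exact fun h => h3 y hys x hx h.symm
  by_cases hN : ∃ y ∈ T, ¬ G.Adj v y
  swap
  · push Not at hN
    refine ⟨{v}, by simp, singleton_nonempty _, ?_, Or.inr fun x hx y hy => ?_⟩
    · obtain ⟨y, hy⟩ := h1
      refine ⟨y, mem_sdiff.2 ⟨mem_insert_of_mem (hs hy), fun h => hv ?_⟩⟩
      rw [← mem_singleton.1 h]
      exact hs hy
    · obtain ⟨hy1, hy2⟩ := mem_sdiff.1 hy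
      rw [mem_singleton.1 hx]
      rcases mem_insert.1 hy1 with rfl | hy1
      · exact absurd (mem_singleton_self _) hy2
      · exact hN y hy1
  obtain ⟨a, ha, hva⟩ := hA
  obtain ⟨b, hb, hvb⟩ := hB
  obtain ⟨y0, hy0, hvy0⟩ := hN
  refine ⟨T.filter fun y => ¬ G.Adj v y, (filter_subset _ _).trans (subset_insert _ _),
    ⟨y0, mem_filter.2 ⟨hy0, hvy0⟩⟩, ⟨v, mem_sdiff.2 ⟨mem_insert_self _ _, fun h => hv
      (mem_filter.1 h).1⟩⟩, Or.inl fun y hy x hx hyx => ?_⟩
  obtain ⟨hyT, hvy⟩ := mem_filter.1 hy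
  obtain ⟨hx1, hx2⟩ := mem_sdiff.1 hx
  rcases mem_insert.1 hx1 with rfl | hxT
  · exact hvy hyx.symm
  have hvx : G.Adj v x := by
    by_contra h
    exact hx2 (mem_filter.2 ⟨hxT, h⟩)
  by_cases hys : y ∈ s
  · have hxs : x ∈ s := by
      by_contra h
      exact h3 y hys x (mem_sdiff.2 ⟨hxT, h⟩) hyx
    exact h3 y hys b hb (hG y x v b hyx hvx.symm hvb (fun h => hvy h.symm) (h3 x hxs b hb))
  · have hyc : y ∈ T \ s := mem_sdiff.2 ⟨hyT, hys⟩
    have hxs : x ∉ s := fun h => h3 x h y hyc hyx.symm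
    have hxc : x ∈ T \ s := mem_sdiff.2 ⟨hxT, hxs⟩
    exact h3 a ha y hyc (hG y x v a hyx hvx.symm hva (fun h => hvy h.symm)
      (fun h => h3 a ha x hxc h.symm)).symm

theorem split {G : SimpleGraph V} (hG : P4F G) (T : Finset V) (hT : 2 ≤ T.card) : Sp G T := by
  induction T using Finset.induction_on with
  | empty => simp at hT
  | @insert v T hv ih =>
    rw [card_insert_of_notMem hv] at hT
    by_cases hT2 : 2 ≤ T.card
    · obtain ⟨s, hs, h1, h2, h3 | h3⟩ := ih hT2
      · exact step hG hv hs h1 h2 h3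
      · refine Sp.compl (step hG.compl hv hs h1 h2 fun x hx y hy h => ?_)
        rw [SimpleGraph.compl_adj] at h
        exact h.2 (h3 x hx y hy)
    · have hT1 : T.card = 1 := by omega
      obtain ⟨w, rfl⟩ := card_eq_one.1 hT1
      have hvw : v ≠ w := fun h => hv (by rw [h]; exact mem_singleton_self _)
      have hsd : (insert v {w} : Finset V) \ {v} = {w} := by
        ext z
        simp only [mem_sdiff, mem_insert, mem_singleton]
        constructor
        · rintro ⟨h1 | h1, h2⟩
          · exact absurd h1 h2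
          · exact h1
        · rintro rfl
          exact ⟨Or.inr rfl, fun h => hvw h.symm⟩
      refine ⟨{v}, by simp, singleton_nonempty _, by rw [hsd]; exact singleton_nonempty _, ?_⟩
      rw [hsd]
      by_cases h : G.Adj v w
      · refine Or.inr fun x hx y hy => ?_
        rw [mem_singleton.1 hx, mem_singleton.1 hy]
        exact h
      · refine Or.inl fun x hx y hy => ?_
        rw [mem_singleton.1 hx, mem_singleton.1 hy]
        exact h

omit [DecidableEq V] in
theorem P4F.induce {G : SimpleGraph V} (h : P4F G) (s : Set V) : P4F (G.induce s) := by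
  intro a b c d h1 h2 h3 h4 h5
  exact h a b c d h1 h2 h3 h4 h5

omit [DecidableEq V] in
theorem cograph_sum {G : SimpleGraph V} (s : Set V) (hs : ∀ x ∈ s, ∀ y ∉ s, ¬ G.Adj x y)
    (h1 : Cograph s (G.induce s)) (h2 : Cograph (sᶜ : Set V) (G.induce sᶜ)) : Cograph V G := by
  classical
  refine Cograph.iso ⟨Equiv.Set.sumCompl s, ?_⟩ (Cograph.union h1 h2)
  rintro (x | x) (y | y)
  · simp
  · simp only [Equiv.Set.sumCompl_apply_inl, Equiv.Set.sumCompl_apply_inr]
    constructor
    · intro h
      exact absurd h (hs x x.2 y y.2)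
    · intro h
      simp at h
  · simp only [Equiv.Set.sumCompl_apply_inl, Equiv.Set.sumCompl_apply_inr]
    constructor
    · intro h
      exact absurd h.symm (hs y y.2 x x.2)
    · intro h
      simp at h
  · simp

theorem cograph_aux (n : ℕ) : ∀ (V : Type) [Fintype V] [Nonempty V] (G : SimpleGraph V),
    Fintype.card V = n → P4F G → Cograph V G := by
  classical
  induction n using Nat.strong_induction_on with
  | _ n ih =>
    intro V _ _ G hn hG
    by_cases h2 : 2 ≤ Fintype.card V
    · -- the disconnected case, for every graph without induced P4 on `V`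
      have key : ∀ G : SimpleGraph V, P4F G → ∀ s : Finset V, s.Nonempty →
          (univ \ s).Nonempty → (∀ x ∈ s, ∀ y ∈ univ \ s, ¬ G.Adj x y) → Cograph V G := by
        intro G hG s hs1 hs2 hs
        have hc1 : s.card < n := by
          rw [← hn]
          have h3 : (univ \ s).card = Fintype.card V - s.card := by
            rw [card_sdiff_of_subset (subset_univ _), card_univ]
          have h4 := hs2.card_pos
          omega
        have hc2 : Fintype.card V - s.card < n := by
          have h4 := hs1.card_pos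
          omega
        refine cograph_sum (s : Set V) (fun x hx y hy => ?_) ?_ ?_
        · exact hs x (mem_coe.1 hx) y (mem_sdiff.2 ⟨mem_univ _, fun h => hy (mem_coe.2 h)⟩)
        · obtain ⟨x, hx⟩ := hs1
          have : Nonempty ((s : Set V) : Type) := ⟨⟨x, mem_coe.2 hx⟩⟩
          refine ih s.card hc1 _ _ ?_ (hG.induce _)
          simp
        · obtain ⟨x, hx⟩ := hs2
          have : Nonempty (((s : Set V)ᶜ : Set V) : Type) :=
            ⟨⟨x, fun h => (mem_sdiff.1 hx).2 (mem_coe.1 h)⟩⟩
          refine ih (Fintype.card V - s.card) hc2 _ _ ?_ (hG.induce _)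
          rw [← Set.toFinset_card, Set.toFinset_compl, Finset.card_compl]
          simp
      obtain ⟨s, _, hs1, hs2, hs | hs⟩ := split hG univ (by rwa [card_univ])
      · exact key G hG s hs1 hs2 hs
      · have h3 : Cograph V Gᶜ := by
          refine key Gᶜ hG.compl s hs1 hs2 fun x hx y hy h => ?_
          rw [SimpleGraph.compl_adj] at h
          exact h.2 (hs x hx y hy)
        have h4 := Cograph.compl h3
        rwa [compl_compl] at h4
    · have h3 : Fintype.card V = 1 := by
        have := Fintype.card_pos (α := V)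
        omega
      obtain ⟨x, hx⟩ := Fintype.card_eq_one_iff.1 h3
      refine Cograph.iso ⟨⟨fun _ => x, fun _ => (), fun _ => rfl, fun y => (hx y).symm⟩, ?_⟩
        Cograph.single
      intro a b
      constructor
      · intro h
        exact absurd rfl h.ne
      · intro h
        exact absurd rfl h.ne

/-- Seinsche's theorem. -/
theorem cograph_of_P4_free {V : Type} [Finite V] [Nonempty V] (G : SimpleGraph V)
    (h : IsEmpty (SimpleGraph.pathGraph 4 ↪g G)) : Cograph V G := by
  classical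
  have := Fintype.ofFinite V
  refine cograph_aux _ V G rfl ?_
  intro a b c d h1 h2 h3 h4 h5
  by_contra h6
  have hac : a ≠ c := by
    rintro rfl
    exact h6 h3
  have hbd : b ≠ d := by
    rintro rfl
    exact h6 h1
  have had : a ≠ d := by
    rintro rfl
    exact h4 h3.symm
  have h4' : ¬ G.Adj c a := fun h => h4 h.symm
  have h5' : ¬ G.Adj d b := fun h => h5 h.symm
  have h6' : ¬ G.Adj d a := fun h => h6 h.symm
  have hab := h1.ne
  have hbc := h2.ne
  have hcd := h3.ne
  refine h.false ⟨⟨![a, b, c, d], ?_⟩, ?_⟩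
  · intro i j hij
    fin_cases i <;> fin_cases j <;> simp_all
  · intro i j
    change G.Adj (![a, b, c, d] i) (![a, b, c, d] j) ↔ (SimpleGraph.pathGraph 4).Adj i j
    rw [SimpleGraph.pathGraph_adj]
    fin_cases i <;> fin_cases j <;>
      simp [h1, h2, h3, h4, h5, h6, h1.symm, h2.symm, h3.symm, h4', h5', h6']

end Vale.Agent.P050.Sei
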